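import Vale.Agent.P078.All.Expected

/-!
Basic inequalities in the abstract algebra: Cauchy-Schwarz for the expectation and the trace, norms,
2-norms, partitions and their translates.
-/

namespace Vale.Agent.P078.All

open scoped ComplexOrder ComplexConjugate

/-- Cauchy-Schwarz from positivity of a quadratic form. -/
theorem normSq_le_of_nonneg {a b : ℝ} {z : ℂ} (hb : 0 ≤ b)
    (h : ∀ t : ℂ, 0 ≤ a + 2 * (t * z).re + Complex.normSq t * b) :
    Complex.normSq z ≤ a * b := by
  have key : ∀ s : ℝ, 0 ≤ a - 2 * s * Complex.normSq z + s ^ 2 * Complex.normSq z * b := by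
    intro s
    have := h (-(s : ℂ) * conj z)
    rw [show -(s : ℂ) * conj z * z = ((-s * Complex.normSq z : ℝ) : ℂ) by
      rw [Complex.ofReal_mul, Complex.ofReal_neg, mul_assoc, Complex.normSq_eq_conj_mul_self],
      Complex.ofReal_re, map_mul Complex.normSq, Complex.normSq_neg, Complex.normSq_conj,
      Complex.normSq_ofReal] at this
    linarith
  rcases hb.eq_or_lt with rfl | hb'
  · by_contra hne
    push Not at hne
    rw [mul_zero] at hne
    have := key ((|a| + 1) / (2 * Complex.normSq z))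
    rw [mul_zero, add_zero, show 2 * ((|a| + 1) / (2 * Complex.normSq z)) * Complex.normSq z
      = |a| + 1 by field_simp] at this
    linarith [le_abs_self a]
  · have := key b⁻¹
    field_simp at this
    linarith

variable {R : Type} [Ring R] [StarRing R] [Algebra ℂ R] [StarModule ℂ R]
  {Ω : Type} [TopologicalSpace Ω] [CompactSpace Ω] [T2Space Ω] [TotallyDisconnectedSpace Ω]

set_option linter.unusedSectionVars false

namespace Env

variable (V : Env R Ω)

theorem star_ι (a : C(Ω, ℂ)) : star (V.ι a) = V.ι (star a) := (map_star V.ι a).symm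

theorem E_im (x : R) (ω : Ω) : (V.E (star x * x) ω).im = 0 :=
  (Complex.nonneg_iff.1 (V.E_nonneg x ω)).2.symm

theorem E_nonneg' (x : R) (ω : Ω) : 0 ≤ V.E (x * star x) ω := by
  simpa using V.E_nonneg (star x) ω

/-- Cauchy-Schwarz for the expectation. -/
theorem normSq_E_mul_le (x y : R) (ω : Ω) :
    Complex.normSq (V.E (x * y) ω) ≤
      (V.E (x * star x) ω).re * (V.E (star y * y) ω).re := by
  refine normSq_le_of_nonneg (Complex.nonneg_iff.1 (V.E_nonneg y ω)).1 fun t => ?_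
  have h := (Complex.nonneg_iff.1 (V.E_nonneg (star x + t • y) ω)).1
  have hs : V.E (star y * star x) ω = conj (V.E (x * y) ω) := by
    rw [← star_mul, V.E_star]
    rfl
  simp only [star_add, star_smul, star_star, add_mul, mul_add, smul_mul_assoc, mul_smul_comm,
    map_add, map_smul, ContinuousMap.add_apply, ContinuousMap.smul_apply, smul_eq_mul, hs,
    Complex.star_def] at h
  simp only [Complex.add_re, Complex.mul_re, Complex.mul_im, Complex.conj_re, Complex.conj_im,
    Complex.normSq_apply] at h ⊢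
  have him := V.E_im y ω
  rw [him] at h
  linarith

/-! ### The trace on real functions -/

/-- A real function as a complex one. -/
def cplx (f : C(Ω, ℝ)) : C(Ω, ℂ) := ⟨fun ω => f ω, by fun_prop⟩

@[simp] theorem cplx_apply (f : C(Ω, ℝ)) (ω : Ω) : cplx f ω = (f ω : ℂ) := rfl

/-- The real part of a complex function. -/
noncomputable def reC (f : C(Ω, ℂ)) : C(Ω, ℝ) := ⟨fun ω => (f ω).re, by fun_prop⟩

@[simp] theorem reC_apply (f : C(Ω, ℂ)) (ω : Ω) : reC f ω = (f ω).re := rfl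

/-- The modulus of a complex function. -/
noncomputable def absC (f : C(Ω, ℂ)) : C(Ω, ℝ) := ⟨fun ω => ‖f ω‖, by fun_prop⟩

@[simp] theorem absC_apply (f : C(Ω, ℂ)) (ω : Ω) : absC f ω = ‖f ω‖ := rfl

/-- The trace of a real function. -/
noncomputable def μR : C(Ω, ℝ) →ₗ[ℝ] ℝ where
  toFun f := (V.μ (cplx f)).re
  map_add' f g := by
    rw [show cplx (f + g) = cplx f + cplx g by ext ω; simp, map_add, Complex.add_re]
  map_smul' c f := by
    rw [show cplx (c • f) = (c : ℂ) • cplx f by ext ω; simp, map_smul, smul_eq_mul,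
      Complex.re_ofReal_mul]
    rfl

theorem μR_nonneg {f : C(Ω, ℝ)} (h : ∀ ω, 0 ≤ f ω) : 0 ≤ V.μR f :=
  (Complex.nonneg_iff.1 (V.μ_nonneg (cplx f) fun ω => by simpa using h ω)).1

theorem μR_mono {f g : C(Ω, ℝ)} (h : ∀ ω, f ω ≤ g ω) : V.μR f ≤ V.μR g := by
  have := V.μR_nonneg (f := g - f) fun ω => by simpa using h ω
  rw [map_sub] at this
  linarith

theorem μR_const (c : ℝ) : V.μR (ContinuousMap.const Ω c) = c := by
  rw [show ContinuousMap.const Ω c = c • (1 : C(Ω, ℝ)) by ext ω; simp, map_smul]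
  have : V.μR 1 = 1 := by
    show (V.μ (cplx 1)).re = 1
    rw [show cplx (1 : C(Ω, ℝ)) = 1 by ext ω; simp, V.μ_one, Complex.one_re]
  rw [this, smul_eq_mul, mul_one]

theorem μ_cplx (f : C(Ω, ℝ)) : V.μ (cplx f) = (V.μR f : ℂ) := by
  refine Complex.ext rfl ?_
  have h := V.μ_nonneg (cplx (f + ContinuousMap.const Ω ‖f‖)) fun ω => by
    have h1 : ‖f ω‖ ≤ ‖f‖ := f.norm_coe_le_norm ω
    rw [Real.norm_eq_abs] at h1
    have h0 : (0 : ℝ) ≤ f ω + ‖f‖ := by linarith [neg_abs_le (f ω)]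
    rw [cplx_apply, ContinuousMap.add_apply, ContinuousMap.const_apply]
    exact_mod_cast h0
  have h2 := (Complex.nonneg_iff.1 h).2
  rw [show cplx (f + ContinuousMap.const Ω ‖f‖) = cplx f + (‖f‖ : ℂ) • 1 by ext ω; simp,
    map_add, map_smul, V.μ_one] at h2
  simpa using h2.symm

theorem μ_re (f : C(Ω, ℂ)) : (V.μ f).re = V.μR (reC f) := by
  have hf : f = cplx (reC f) + Complex.I • cplx (reC ((-Complex.I) • f)) := by
    ext ω
    simpa [mul_comm] using (Complex.re_add_im (f ω)).symm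
  conv_lhs => rw [hf]
  rw [map_add, map_smul, μ_cplx, μ_cplx]
  simp

theorem norm_μ_le (f : C(Ω, ℂ)) : ‖V.μ f‖ ≤ V.μR (absC f) := by
  obtain ⟨t, ht, hz⟩ : ∃ t : ℂ, ‖t‖ ≤ 1 ∧ t * V.μ f = ‖V.μ f‖ := by
    rcases eq_or_ne (V.μ f) 0 with h | h
    · exact ⟨0, by simp, by simp [h]⟩
    · exact ⟨‖V.μ f‖ / V.μ f, by simp [h], div_mul_cancel₀ _ h⟩
  have h1 : (V.μ (t • f)).re = ‖V.μ f‖ := by
    rw [map_smul, smul_eq_mul, hz, Complex.ofReal_re]
  rw [← h1, μ_re]
  refine V.μR_mono fun ω => ?_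
  simp only [reC_apply, ContinuousMap.smul_apply, smul_eq_mul, absC_apply]
  refine (Complex.re_le_norm _).trans ?_
  rw [norm_mul]
  exact mul_le_of_le_one_left (norm_nonneg _) ht

/-- Cauchy-Schwarz for the trace of real functions. -/
theorem sq_μR_mul_le (f g : C(Ω, ℝ)) :
    V.μR (f * g) ^ 2 ≤ V.μR (f * f) * V.μR (g * g) := by
  have h : Complex.normSq (V.μR (f * g) : ℂ) ≤ V.μR (f * f) * V.μR (g * g) := by
    refine normSq_le_of_nonneg (V.μR_nonneg fun ω => by simp [mul_self_nonneg]) fun t => ?_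
    have h0 := V.μR_nonneg (f := (f + t.re • g) * (f + t.re • g)) fun ω => by
      simp [mul_self_nonneg]
    rw [show (f + t.re • g) * (f + t.re • g) = f * f + (2 * t.re) • (f * g) + t.re ^ 2 • (g * g) by
      ext ω; simp; ring, map_add, map_add, map_smul, map_smul, smul_eq_mul, smul_eq_mul] at h0
    have hg : 0 ≤ V.μR (g * g) := V.μR_nonneg fun ω => by simp [mul_self_nonneg]
    rw [Complex.re_mul_ofReal, Complex.normSq_apply]
    nlinarith [mul_nonneg (mul_self_nonneg t.im) hg]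
  rw [pow_two]
  simpa [Complex.normSq_ofReal] using h

theorem μR_mul_le (f g : C(Ω, ℝ)) :
    V.μR (f * g) ≤ Real.sqrt (V.μR (f * f)) * Real.sqrt (V.μR (g * g)) := by
  rw [← Real.sqrt_mul (V.μR_nonneg fun ω => by simp [mul_self_nonneg])]
  exact Real.le_sqrt_of_sq_le (V.sq_μR_mul_le f g)

theorem μR_le_sqrt (f : C(Ω, ℝ)) : V.μR f ≤ Real.sqrt (V.μR (f * f)) := by
  have h := V.μR_mul_le f (ContinuousMap.const Ω 1)
  rw [show ContinuousMap.const Ω (1 : ℝ) * ContinuousMap.const Ω 1 = ContinuousMap.const Ω 1 by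
      ext ω; simp, μR_const, Real.sqrt_one, mul_one,
    show f * ContinuousMap.const Ω (1 : ℝ) = f by ext ω; simp] at h
  exact h

theorem norm_μ_mul_le (f g : C(Ω, ℂ)) :
    ‖V.μ (f * g)‖ ≤ Real.sqrt (V.μR (absC f * absC f)) * Real.sqrt (V.μR (absC g * absC g)) := by
  refine (V.norm_μ_le _).trans ((le_of_eq ?_).trans (V.μR_mul_le _ _))
  congr 1
  ext ω
  simp

/-! ### The 2-norm and operator bounds -/

theorem sq_eq (x : R) : V.sq x = V.μR (reC (V.E (star x * x))) := V.μ_re _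

theorem sq_nonneg (x : R) : 0 ≤ V.sq x :=
  V.sq_eq x ▸ V.μR_nonneg fun ω => (Complex.nonneg_iff.1 (V.E_nonneg x ω)).1

theorem sq_star (x : R) : V.sq (star x) = V.sq x := by
  show (V.τ (star (star x) * star x)).re = (V.τ (star x * x)).re
  rw [star_star, τ, V.trace]
  rfl

theorem τ_ι (a : C(Ω, ℂ)) : V.τ (V.ι a) = V.μ a := by rw [τ, V.E_ι]

theorem sq_ι (a : C(Ω, ℂ)) : V.sq (V.ι a) = V.μR (absC a * absC a) := by
  rw [sq_eq, star_ι, ← map_mul, V.E_ι]
  congr 1
  ext ω
  simp [← Complex.normSq_eq_norm_sq, ← pow_two, Complex.normSq_apply]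

theorem τ_add (x y : R) : V.τ (x + y) = V.τ x + V.τ y := by simp [τ]

theorem τ_sum {ι' : Type*} (s : Finset ι') (x : ι' → R) :
    V.τ (∑ i ∈ s, x i) = ∑ i ∈ s, V.τ (x i) := by simp [τ]

/-- Cauchy-Schwarz for the trace. -/
theorem norm_τ_mul_le (x y : R) : ‖V.τ (x * y)‖ ≤ Real.sqrt (V.sq x) * Real.sqrt (V.sq y) := by
  rw [← V.sq_star x, ← Real.sqrt_mul (V.sq_nonneg _), Complex.norm_def]
  refine Real.sqrt_le_sqrt (normSq_le_of_nonneg (V.sq_nonneg y) fun t => ?_)
  have h := V.sq_nonneg (star x + t • y)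
  have hs : V.τ (star y * star x) = conj (V.τ (x * y)) := by
    simp only [τ]
    rw [← star_mul, V.E_star]
    have h2 : ∀ f : C(Ω, ℂ), V.μ (star f) = conj (V.μ f) := fun f => by
      have hf : f = cplx (reC f) + Complex.I • cplx (reC ((-Complex.I) • f)) := by
        ext ω; simpa [mul_comm] using (Complex.re_add_im (f ω)).symm
      have hf' : star f = cplx (reC f) + (-Complex.I) • cplx (reC ((-Complex.I) • f)) := by
        ext ω
        apply Complex.ext <;> simp
      conv_lhs => rw [hf']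
      conv_rhs => rw [hf]
      simp [map_add, map_smul, μ_cplx]
    exact h2 _
  simp only [sq, τ, star_add, star_smul, star_star, add_mul, mul_add, smul_mul_assoc,
    mul_smul_comm, map_add, map_smul, smul_eq_mul, Complex.star_def] at h hs ⊢
  rw [hs] at h
  simp only [Complex.add_re, Complex.mul_re, Complex.mul_im, Complex.conj_re, Complex.conj_im,
    Complex.normSq_apply] at h ⊢
  have him : (V.μ (V.E (star y * y))).im = 0 :=
    (Complex.nonneg_iff.1 (V.μ_nonneg _ (V.E_nonneg y))).2.symm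
  rw [him] at h
  linarith

theorem sqrt_sq_add_le (x y : R) :
    Real.sqrt (V.sq (x + y)) ≤ Real.sqrt (V.sq x) + Real.sqrt (V.sq y) := by
  refine (Real.sqrt_le_left (by positivity)).2 ?_
  have h1 : V.sq (x + y) = V.sq x + V.sq y + ((V.τ (star x * y)).re + (V.τ (star y * x)).re) := by
    simp only [sq, star_add, add_mul, mul_add, τ_add, Complex.add_re]
    ring
  have h2 := (Complex.re_le_norm _).trans (V.norm_τ_mul_le (star x) y)
  have h3 := (Complex.re_le_norm _).trans (V.norm_τ_mul_le (star y) x)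
  rw [sq_star] at h2 h3
  rw [h1, add_sq, Real.sq_sqrt (V.sq_nonneg _), Real.sq_sqrt (V.sq_nonneg _)]
  nlinarith

theorem bdd_one : V.Bdd 1 1 := ⟨zero_le_one, fun y ω => by simp⟩

theorem exists_bdd (x : R) : ∃ C, V.Bdd x C := V.bounded x

variable {V} in
theorem Bdd.mono {x : R} {C D : ℝ} (h : V.Bdd x C) (hD : C ≤ D) : V.Bdd x D := by
  refine ⟨h.1.trans hD, fun y ω => (h.2 y ω).trans ?_⟩
  refine mul_le_mul_of_nonneg_right ?_ (V.E_nonneg y ω)
  exact_mod_cast pow_le_pow_left₀ h.1 hD 2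

variable {V} in
theorem Bdd.mul {x y : R} {C D : ℝ} (hx : V.Bdd x C) (hy : V.Bdd y D) :
    V.Bdd (x * y) (C * D) := by
  refine ⟨mul_nonneg hx.1 hy.1, fun z ω => ?_⟩
  calc V.E (star z * (star (x * y) * (x * y)) * z) ω
      = V.E (star (y * z) * (star x * x) * (y * z)) ω := by simp only [star_mul, mul_assoc]
    _ ≤ (C : ℂ) ^ 2 * V.E (star (y * z) * (y * z)) ω := hx.2 _ ω
    _ = (C : ℂ) ^ 2 * V.E (star z * (star y * y) * z) ω := by simp only [star_mul, mul_assoc]
    _ ≤ (C : ℂ) ^ 2 * ((D : ℂ) ^ 2 * V.E (star z * z) ω) := by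
        refine mul_le_mul_of_nonneg_left (hy.2 z ω) ?_
        exact_mod_cast pow_two_nonneg C
    _ = ((C * D : ℝ) : ℂ) ^ 2 * V.E (star z * z) ω := by push_cast; ring

theorem bdd_of_isometry {u : R} (h : star u * u = 1) : V.Bdd u 1 :=
  ⟨zero_le_one, fun y ω => by simp [h]⟩

variable {V} in
theorem Mover.bdd (g : V.Mover) : V.Bdd g.u 1 :=
  V.bdd_of_isometry (Unitary.star_mul_self_of_mem g.mem_unitary)

variable {V} in
theorem Mover.bdd_star (g : V.Mover) : V.Bdd (star g.u) 1 :=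
  V.bdd_of_isometry (by rw [star_star]; exact Unitary.mul_star_self_of_mem g.mem_unitary)

theorem bdd_ι {a : C(Ω, ℂ)} {C : ℝ} (hC : 0 ≤ C) (h : ∀ ω, ‖a ω‖ ≤ C) : V.Bdd (V.ι a) C := by
  refine ⟨hC, fun y ω => ?_⟩
  let g : C(Ω, ℂ) := ⟨fun ω => (Real.sqrt (C ^ 2 - ‖a ω‖ ^ 2) : ℂ), by fun_prop⟩
  have hg : ((C : ℂ) ^ 2) • (1 : C(Ω, ℂ)) = star a * a + star g * g := by
    ext ω'
    have h0 : 0 ≤ C ^ 2 - ‖a ω'‖ ^ 2 := sub_nonneg.2 (pow_le_pow_left₀ (norm_nonneg _) (h ω') 2)
    simp only [ContinuousMap.smul_apply, ContinuousMap.one_apply, smul_eq_mul, mul_one,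
      ContinuousMap.add_apply, ContinuousMap.mul_apply, ContinuousMap.star_apply, Complex.star_def,
      g, ContinuousMap.coe_mk, Complex.conj_ofReal, Complex.conj_mul']
    rw [← Complex.ofReal_mul, Real.mul_self_sqrt h0]
    push_cast
    ring
  have h2 := V.E_nonneg (V.ι g * y) ω
  have e : (C : ℂ) ^ 2 * V.E (star y * y) ω =
      V.E (star y * (star (V.ι a) * V.ι a) * y) ω +
        V.E (star (V.ι g * y) * (V.ι g * y)) ω := by
    rw [star_mul, star_ι, star_ι, ← map_mul V.ι (star a) a,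
      show star y * V.ι (star g) * (V.ι g * y) = star y * V.ι (star g * g) * y by
        rw [map_mul]; simp only [mul_assoc],
      ← ContinuousMap.add_apply, ← map_add, ← add_mul, ← mul_add, ← map_add, ← hg, map_smul,
      map_one, mul_smul_comm, mul_one, smul_mul_assoc, map_smul, ContinuousMap.smul_apply,
      smul_eq_mul]
  rw [e]
  exact le_add_of_nonneg_right h2

variable {V} in
theorem Bdd.re_E_le {x : R} {C : ℝ} (h : V.Bdd x C) (y : R) (ω : Ω) :
    (V.E (star (x * y) * (x * y)) ω).re ≤ C ^ 2 * (V.E (star y * y) ω).re := by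
  have h1 := (Complex.le_def.1 (h.2 y ω)).1
  rw [show ((C : ℂ) ^ 2) = ((C ^ 2 : ℝ) : ℂ) by push_cast; rfl, Complex.re_ofReal_mul] at h1
  simpa only [star_mul, mul_assoc] using h1

theorem sq_mul_le {x : R} {C : ℝ} (h : V.Bdd x C) (y : R) : V.sq (x * y) ≤ C ^ 2 * V.sq y := by
  rw [sq_eq, sq_eq, ← smul_eq_mul (C ^ 2) (V.μR _), ← map_smul]
  exact V.μR_mono fun ω => by simpa using h.re_E_le y ω

theorem sq_mul_right_le {y : R} {C : ℝ} (h : V.Bdd (star y) C) (x : R) :
    V.sq (x * y) ≤ C ^ 2 * V.sq x := by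
  rw [← V.sq_star (x * y), star_mul, ← V.sq_star x]
  exact V.sq_mul_le h _

theorem sq_one : V.sq 1 = 1 := by
  simp [sq, τ, show V.E 1 = 1 by rw [← map_one V.ι, V.E_ι], V.μ_one]

theorem sqrt_sq_le_of_bdd {x : R} {C : ℝ} (h : V.Bdd x C) : Real.sqrt (V.sq x) ≤ C := by
  have := V.sq_mul_le h 1
  rw [mul_one, sq_one, mul_one] at this
  exact (Real.sqrt_le_left h.1).2 this

/-- The pieces of the squared 2-norm of a product of three. -/
theorem sqrt_sq_mul_mul_le {P Q : R} {C D : ℝ} (hP : V.Bdd P C) (hQ : V.Bdd (star Q) D) (x : R) :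
    Real.sqrt (V.sq (P * x * Q)) ≤ C * D * Real.sqrt (V.sq x) := by
  have h1 := (V.sq_mul_right_le hQ (P * x)).trans
    (mul_le_mul_of_nonneg_left (V.sq_mul_le hP x) (pow_two_nonneg D))
  refine (Real.sqrt_le_sqrt h1).trans (le_of_eq ?_)
  rw [show D ^ 2 * (C ^ 2 * V.sq x) = (C * D) ^ 2 * V.sq x by ring,
    Real.sqrt_mul (pow_two_nonneg _), Real.sqrt_sq (mul_nonneg hP.1 hQ.1)]

/-- The fibre mass of `x` at a function. -/
noncomputable def fib (x : R) (a : C(Ω, ℂ)) : C(Ω, ℝ) := reC (V.E (x * V.ι a * star x))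

end Env

namespace Part

variable (P : Part Ω)

theorem ind_apply (c : Fin P.n) (ω : Ω) : P.ind c ω = if P.cell ω = c then 1 else 0 := rfl

theorem sum_ind : ∑ c, P.ind c = 1 := by
  ext ω; simp [ind_apply, ContinuousMap.sum_apply, Finset.sum_ite_eq]

theorem ind_mul_self (c : Fin P.n) : P.ind c * P.ind c = P.ind c := by
  ext ω; by_cases h : P.cell ω = c <;> simp [ind_apply, h]

theorem star_ind (c : Fin P.n) : star (P.ind c) = P.ind c := by
  ext ω; by_cases h : P.cell ω = c <;> simp [ind_apply, h]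

theorem ind_mul_ne {c d : Fin P.n} (h : c ≠ d) : P.ind c * P.ind d = 0 := by
  ext ω
  by_cases h1 : P.cell ω = c
  · simp [ind_apply, h1, h]
  · simp [ind_apply, h1]

/-- The image of a partition under a homeomorphism. -/
def move (T : Ω ≃ₜ Ω) : Part Ω := ⟨P.n, P.cell.comap (T : C(Ω, Ω))⟩

theorem ind_move (T : Ω ≃ₜ Ω) (c : Fin P.n) :
    (P.move T).ind c = (P.ind c).comp (T : C(Ω, Ω)) := rfl

theorem Fine.move {Q : Part Ω → Prop} (h : Fine Q) (T : Ω ≃ₜ Ω) :
    Fine fun P => Q (P.move T) := by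
  obtain ⟨P₀, hP⟩ := h
  refine ⟨P₀.move T.symm, fun P hr => hP _ fun ω ω' e => ?_⟩
  have := hr (T ω) (T ω') e
  change P₀.cell (T.symm (T ω)) = P₀.cell (T.symm (T ω')) at this
  simpa using this

theorem Fine.forall {ι : Type*} [Finite ι] {Q : ι → Part Ω → Prop} (h : ∀ i, Fine (Q i)) :
    Fine fun P => ∀ i, Q i P := by
  classical
  cases nonempty_fintype ι
  suffices ∀ s : Finset ι, Fine fun P => ∀ i ∈ s, Q i P from
    (this Finset.univ).mono fun P hP i => hP i (Finset.mem_univ i)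
  intro s
  induction s using Finset.induction_on with
  | empty => exact ⟨Part.one, fun _ _ _ hi => absurd hi (Finset.notMem_empty _)⟩
  | @insert i s _ ih =>
    refine ((h i).and ih).mono fun P hP j hj => ?_
    rcases Finset.mem_insert.1 hj with rfl | hj
    · exact hP.1
    · exact hP.2 j hj

theorem fine_of_forall {Q : Part Ω → Prop} (h : ∀ P, Q P) : Fine Q := ⟨one, fun P _ => h P⟩

end Part

end Vale.Agent.P078.All
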