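import Vale.Agent.P078.All.Env

/-!
Seeds planted in stages, words, and the statement of asymptotic freeness.
-/

namespace Vale.Agent.P078.All

variable {Ω : Type} [TopologicalSpace Ω]

/-- The seeds chosen so far; `none` is undecided. -/
abbrev State (Ω S : Type) [TopologicalSpace Ω] := LocallyConstant Ω (Option S)

/-- Nothing chosen yet. -/
def State.empty (Ω S : Type) [TopologicalSpace Ω] : State Ω S := LocallyConstant.const Ω none

/-- One stage: undecided points take the seed of their cell. -/
def State.next {S : Type} (s : State Ω S) (P : Part Ω) (x : Fin P.n → Option S) : State Ω S :=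
  ⟨fun ω => (s ω).orElse fun _ => x (P.cell ω),
    (s.isLocallyConstant.prodMk P.cell.isLocallyConstant).comp
      fun p => p.1.orElse fun _ => x p.2⟩

section

variable {S : Type} [Fintype S]

/-- The law of one cell: decided with probability `θ`, then uniform. -/
noncomputable def cellProb (θ : ℝ) : Option S → ℝ
  | none => 1 - θ
  | some _ => θ / Fintype.card S

/-- The mean over one stage. -/
noncomputable def avg {X : Type*} [AddCommMonoid X] [Module ℝ X] (θ : ℝ) (P : Part Ω)
    (f : (Fin P.n → Option S) → X) : X := by
  classical exact ∑ x : Fin P.n → Option S, (∏ c, cellProb θ (x c)) • f x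

/-- The mean over the stages of a list, the first stage outermost. -/
noncomputable def run {X : Type*} [AddCommMonoid X] [Module ℝ X] (θ : ℝ) :
    List (Part Ω) → (State Ω S → X) → State Ω S → X
  | [], f, s => f s
  | P :: Ps, f, s => avg θ P fun x => run θ Ps f (s.next P x)

/-- For `L` stages, each fine enough given the earlier ones. -/
def Ev : ℕ → (List (Part Ω) → Prop) → Prop
  | 0, Q => Q []
  | L + 1, Q => Ev L fun Ps => Part.Fine fun P => Q (Ps ++ [P])

end

variable {R : Type} [Ring R] [StarRing R] [Algebra ℂ R] [StarModule ℂ R]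
  [CompactSpace Ω] [T2Space Ω] [TotallyDisconnectedSpace Ω]

/-- A centred function of the seed at the image of a point. -/
structure Site (V : Env R Ω) (S : Type) [Fintype S] where
  /-- The normalising unitary. -/
  g : V.Mover
  /-- The function of the seed. -/
  h : S → ℂ
  sum_h : ∑ σ, h σ = 0

/-- A product of centred functions at distinct translates, times a coefficient. -/
structure Mono (V : Env R Ω) (S : Type) [Fintype S] where
  /-- The number of sites, less one. -/
  m : ℕ
  /-- The sites. -/
  site : Fin (m + 1) → Site V S
  /-- The coefficient. -/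
  coef : C(Ω, ℂ)
  /-- The support. -/
  supp : LocallyConstant Ω Bool
  coef_off : ∀ ω, supp ω = false → coef ω = 0
  distinct : ∀ j k, j ≠ k → ∀ ω, supp ω = true → (site j).g.T ω ≠ (site k).g.T ω

namespace Mono

variable {V : Env R Ω} {S : Type} [Fintype S] (q : Mono V S)

/-- The value at a state; undecided seeds give the mean, zero. -/
noncomputable def val (s : State Ω S) : C(Ω, ℂ) :=
  q.coef * ∏ j, (⟨fun ω => (s ((q.site j).g.T ω)).elim 0 (q.site j).h,
    ((s.isLocallyConstant.comp_continuous (q.site j).g.T.continuous).comp
      fun o : Option S => o.elim 0 (q.site j).h).continuous⟩ : C(Ω, ℂ))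

/-- The element at a state. -/
noncomputable def elem (s : State Ω S) : R := V.ι (q.val s)

end Mono

/-- A word `v q₀ b₀ q₁ ... b_{n-1} q_n v'`: the inner letters are orthogonal to the normaliser,
the outer ones arbitrary. -/
structure Word (V : Env R Ω) (S : Type) [Fintype S] where
  /-- The number of inner letters. -/
  n : ℕ
  /-- The seed letters. -/
  q : Fin (n + 1) → Mono V S
  /-- The inner letters. -/
  b : Fin n → R
  orth : ∀ i, V.OrthNormaliser (b i)
  /-- The left letter. -/
  v : R
  /-- The right letter. -/
  v' : R

/-- The value of a word. -/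
noncomputable def Word.val {V : Env R Ω} {S : Type} [Fintype S] (w : Word V S)
    (s : State Ω S) : R :=
  w.v * (w.q 0).elem s * (List.ofFn fun i => w.b i * (w.q i.succ).elem s).prod * w.v'

/-- Asymptotic freeness: with `⌈T / θ⌉` stages and `θ` small, every word has negligible mean
trace. -/
def FreeStatement (V : Env R Ω) : Prop :=
  ∀ (S : Type) [Fintype S] [Nonempty S] (w : Word V S) (T η : ℝ), 0 < T → 0 < η →
    ∃ θ₀ : ℝ, 0 < θ₀ ∧ ∀ θ : ℝ, 0 < θ → θ < θ₀ → θ ≤ 1 →
      Ev ⌈T / θ⌉₊ fun Ps =>
        ‖run θ Ps (fun s => V.τ (w.val s)) (State.empty Ω S)‖ ≤ η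

end Vale.Agent.P078.All
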