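import Vale.Agent.P078.All.Letters
import Vale.Agent.P078.All.Words

/-!
Free compression: a random projection of mean `ρ`, read off the seeds, compresses an element
orthogonal to the normaliser to norm `2 √ρ`.
-/

namespace Vale.Agent.P078.All

open Filter Topology
open scoped ComplexOrder InnerProductSpace

variable {Ω : Type} [TopologicalSpace Ω] [CompactSpace Ω] [T2Space Ω] [TotallyDisconnectedSpace Ω]
  {R : Type} [Ring R] [StarRing R] [Algebra ℂ R] [StarModule ℂ R]
  {V : Env R Ω} {S : Type} [Fintype S] [Nonempty S]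

variable (V S) in
/-- Left multiplication on the vectors at an index. -/
noncomputable def vecLmul (i : Idx Ω) : (State Ω S → R) →ₐ[ℂ] Module.End ℂ (Vec V S i) :=
  Algebra.lmul ℂ (State Ω S → R)

omit [Fintype S] [Nonempty S] in
theorem vecLmul_apply (i : Idx Ω) (a b : State Ω S → R) :
    vecLmul V S i a (toVec V S i b) = toVec V S i (a * b) := rfl

omit [Nonempty S] in
theorem vecLmul_one (i : Idx Ω) (a : State Ω S → R) :
    vecLmul V S i a (toVec V S i 1) = toVec V S i a := by
  rw [vecLmul_apply, mul_one]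

variable (V S) in
/-- The constant families from elements orthogonal to the normaliser. -/
def orthFam : Set (Idx Ω → State Ω S → R) :=
  {x | ∃ b : R, V.OrthNormaliser b ∧ x = fun _ _ => b}

variable (V S) in
/-- The constant families from the 2-norm closure of the normaliser sums. -/
def inNFam : Set (Idx Ω → State Ω S → R) := {x | ∃ b : R, V.InN b ∧ x = fun _ _ => b}

variable (V S) in
/-- The constant families from the normaliser sums. -/
def nsumFam : Set (Idx Ω → State Ω S → R) := {x | ∃ b : R, V.IsNSum b ∧ x = fun _ _ => b}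

variable (V S) in
/-- The families from seed polynomials. -/
def qFam : Set (Idx Ω → State Ω S → R) := {x | ∃ f, IsQ V S f ∧ x = fun _ => f}

omit [Nonempty S] in
theorem near_of_altWord {t : Bool} {x : Idx Ω → State Ω S → R}
    (h : AltWord (orthFam V S) (qFam V S) t x) : ∃ f, Near V S t f ∧ x = fun _ => f := by
  induction h with
  | @one t x hx =>
    cases t with
    | false =>
      obtain ⟨f, hf, rfl⟩ := hx
      exact ⟨f, near_q hf, rfl⟩
    | true =>
      obtain ⟨b, hb, rfl⟩ := hx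
      exact ⟨_, near_b hb, rfl⟩
  | @cons t x w hx _ ih =>
    obtain ⟨g, hg, rfl⟩ := ih
    cases t with
    | false =>
      obtain ⟨f, hf, rfl⟩ := hx
      exact ⟨f * g, Near.cons_q hf hg, rfl⟩
    | true =>
      obtain ⟨b, hb, rfl⟩ := hx
      exact ⟨_, Near.cons_b hb hg, rfl⟩

/-- Where everything is decided, a bounded continuous function agreeing with `P` differs from it
negligibly. -/
theorem small_of_agree {K : ℕ} (g : Fin K → V.Mover) {d : State Ω S → C(Ω, ℂ)} {D : ℝ}
    (hb : ∀ s ω, ‖d s ω‖ ≤ D)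
    (h0 : ∀ s ω (π : Fin K → S), (∀ j, s ((g j).T ω) = some (π j)) → d s ω = 0) :
    Small V fun s => V.ι (d s) := by
  refine small_of_undecided g (C := D ^ 2) fun s ω => ?_
  by_cases h : ∀ j, (s ((g j).T ω)).isSome
  · rw [h0 s ω (fun j => (s ((g j).T ω)).get (h j)) fun j => (Option.some_get (h j)).symm]
    simp only [norm_zero, ne_eq, OfNat.ofNat_ne_zero, not_false_eq_true, zero_pow]
    exact mul_nonneg (pow_two_nonneg D)
      (Finset.sum_nonneg fun j _ => by unfold undecided; split <;> norm_num)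
  · obtain ⟨j, hj⟩ := not_forall.1 h
    refine (pow_le_pow_left₀ (norm_nonneg _) (hb s ω) 2).trans ?_
    refine le_mul_of_one_le_right (pow_two_nonneg D) ?_
    refine le_trans (le_of_eq ?_) (Finset.single_le_sum
      (f := fun k => undecided s ((g k).T ω))
      (fun k _ => by unfold undecided; split <;> norm_num) (Finset.mem_univ j))
    simp [undecided, Option.not_isSome_iff_eq_none.1 hj]

namespace SeedProj

variable (p : SeedProj V S)

/-- The projection as a family. -/
noncomputable def fam : State Ω S → R := fun s => V.ι (p.val s)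

theorem val_eq_of_decided (s : State Ω S) (ω : Ω) (π : Fin p.M → S)
    (h : ∀ j, s ((p.g j).T ω) = some (π j)) :
    p.val s ω = if p.rule ω π then 1 else 0 := by
  simp [SeedProj.val, h]

theorem norm_val_le (s : State Ω S) (ω : Ω) : ‖p.val s ω‖ ≤ 1 := by
  unfold SeedProj.val
  simp only [ContinuousMap.coe_mk]
  split <;> simp

theorem fam_ubdd : UBdd V p.fam := ubdd_ι zero_le_one p.norm_val_le

theorem fam_idem : p.fam * p.fam = p.fam := by
  funext s
  rw [Pi.mul_apply, fam, ← map_mul]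
  congr 1
  ext ω
  unfold SeedProj.val
  simp only [ContinuousMap.mul_apply, ContinuousMap.coe_mk]
  split <;> simp

theorem fam_star : star p.fam = p.fam := by
  funext s
  rw [Pi.star_apply, fam, V.star_ι]
  congr 1
  ext ω
  unfold SeedProj.val
  simp only [ContinuousMap.star_apply, ContinuousMap.coe_mk]
  split <;> simp

/-- The centred projection is a seed polynomial. -/
theorem isQ_sub (hFix : V.FixOpen) {ρ : ℝ} (hρ : p.HasMean ρ) :
    IsQ V S (p.fam - ((ρ : ℂ) • 1)) := by
  classical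
  obtain ⟨m, P, hP, hm, hdec⟩ := local_poly (V := V) hFix p.g
    (fun ω π => if p.rule ω π then 1 else 0)
    (fun π => (p.rule.isLocallyConstant.comp fun r => if r π then (1 : ℂ) else 0).continuous)
  have hmρ : ∀ ω, m ω = (ρ : ℂ) := by
    intro ω
    have h1 := hm ω (Finset.univ.filter fun π : Fin p.M → S =>
      ∀ j k, (p.g j).T ω = (p.g k).T ω → π j = π k) (fun π => by simp)
    have h2 := congrArg (fun x : ℝ => (x : ℂ)) (hρ ω)
    simp only [Complex.ofReal_sum, Complex.ofReal_mul, Complex.ofReal_natCast,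
      apply_ite (Complex.ofReal), Complex.ofReal_one, Complex.ofReal_zero] at h2
    rw [h2] at h1
    refine (mul_right_cancel₀ ?_ h1).symm
    refine Nat.cast_ne_zero.2 (Finset.card_pos.2 ?_).ne'
    exact ⟨fun _ => Classical.arbitrary S, by simp⟩
  obtain ⟨K, hK, hKb⟩ := valSpan_bound hP
  refine ⟨p.fam_ubdd.sub ((ubdd_const 1).smul _), fun s => V.ι (P s),
    by simpa [Env.Mover.one] using valSpan_mover_mem hP (Env.Mover.one V), ?_⟩
  refine Small.of_eq (small_of_agree p.g (d := fun s => p.val s - (ρ : ℂ) • 1 - P s)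
    (D := 1 + |ρ| + K) (fun s ω => ?_) fun s ω π h => ?_) ?_
  · refine (norm_sub_le _ _).trans (add_le_add ((norm_sub_le _ _).trans (add_le_add
      (p.norm_val_le s ω) ?_)) (hKb s ω))
    simp
  · simp only [ContinuousMap.sub_apply, ContinuousMap.smul_apply, ContinuousMap.one_apply,
      smul_eq_mul, mul_one, p.val_eq_of_decided s ω π h, hdec s ω π h, hmρ]
    ring
  · funext s
    simp only [fam, Pi.sub_apply, Pi.smul_apply, Pi.one_apply, map_sub, map_smul, map_one]

/-- The projection times a seed polynomial is a normaliser sum plus a seed polynomial. -/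
theorem isQ_mul_sub (hFix : V.FixOpen) {f : State Ω S → R} (hf : IsQ V S f) :
    ∃ m : R, V.IsNSum m ∧ IsQ V S (p.fam * f - fun _ => m) := by
  obtain ⟨hu, z, hz, hsm⟩ := hf
  suffices h : ∃ m : R, V.IsNSum m ∧ ∃ z' ∈ Submodule.span ℂ (qGen V S),
      Small V (p.fam * z - (fun _ => m) - z') by
    obtain ⟨m, hm, z', hz', hs⟩ := h
    refine ⟨m, hm, (p.fam_ubdd.mul hu).sub (ubdd_const m), z', hz', ?_⟩
    refine ((Small.mul_left p.fam_ubdd hsm).add hs).of_eq ?_
    rw [mul_sub]
    abel
  clear hsm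
  induction hz using Submodule.span_induction with
  | mem x hx =>
    obtain ⟨q, u, rfl⟩ := hx
    let g : Fin (p.M + (q.m + 1)) → V.Mover := Fin.append p.g fun j => (q.site j).g
    let F : Ω → (Fin (p.M + (q.m + 1)) → S) → ℂ := fun ω π =>
      (if p.rule ω (fun j => π (Fin.castAdd _ j)) then 1 else 0) *
        (q.coef ω * ∏ j, (q.site j).h (π (Fin.natAdd _ j)))
    obtain ⟨m, P, hP, -, hdec⟩ := local_poly (V := V) hFix g F fun π =>
      ((p.rule.isLocallyConstant.comp fun r =>
        if r (fun j => π (Fin.castAdd _ j)) then (1 : ℂ) else 0).continuous).mul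
        (q.coef.continuous.mul continuous_const)
    obtain ⟨K, hK, hKb⟩ := valSpan_bound hP
    refine ⟨V.ι m * u.u, Env.isNSum_mover m u, _, valSpan_mover_mem hP u, ?_⟩
    refine ((small_of_agree g (d := fun s => p.val s * q.val s - m - P s)
      (D := 1 * (‖q.coef‖ * ∏ j, ∑ σ, ‖(q.site j).h σ‖) + ‖m‖ + K) (fun s ω => ?_)
      fun s ω π h => ?_).mul_right (ubdd_const u.u)).of_eq ?_
    · refine (norm_sub_le _ _).trans (add_le_add ((norm_sub_le _ _).trans (add_le_add ?_
        (m.norm_coe_le_norm ω))) (hKb s ω))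
      rw [ContinuousMap.mul_apply, norm_mul]
      exact mul_le_mul (p.norm_val_le s ω) (q.norm_val_le s ω) (norm_nonneg _) zero_le_one
    · have hd := hdec s ω π h
      have h1 := p.val_eq_of_decided s ω (fun j => π (Fin.castAdd _ j)) fun j => by
        simpa [g] using h (Fin.castAdd _ j)
      have h2 : ∀ j, s ((q.site j).g.T ω) = some (π (Fin.natAdd _ j)) := fun j => by
        simpa [g] using h (Fin.natAdd _ j)
      simp only [ContinuousMap.sub_apply, ContinuousMap.mul_apply, h1, Mono.val_apply, h2,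
        Option.elim_some]
      simp only [F] at hd
      rw [hd]
      ring
    · funext s
      simp [fam, Mono.elem, sub_mul, mul_assoc]
  | zero =>
    exact ⟨0, ⟨0, Fin.elim0, Fin.elim0, by simp⟩, 0, zero_mem _, small_zero.of_eq (by
      funext s; simp)⟩
  | add x y _ _ hx hy =>
    obtain ⟨m, hm, a, ha, hs⟩ := hx
    obtain ⟨m', hm', b, hb, hs'⟩ := hy
    exact ⟨m + m', hm.add hm', a + b, add_mem ha hb, (hs.add hs').of_eq (by
      funext s; simp [mul_add]; abel)⟩
  | smul c x _ hx =>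
    obtain ⟨m, hm, a, ha, hs⟩ := hx
    obtain ⟨N, f, g, rfl⟩ := hm
    refine ⟨c • ∑ i, V.ι (f i) * (g i).u, ⟨N, fun i => c • f i, g, by
      simp [Finset.smul_sum]⟩, c • a, Submodule.smul_mem _ c ha, (hs.smul c).of_eq ?_⟩
    funext s
    simp [smul_sub]

end SeedProj

omit [Nonempty S] in
theorem norm_toVec_mul_right {x : State Ω S → R} (hx : UBdd V x) :
    ∃ K : ℝ, ∀ (i : Idx Ω) (a : State Ω S → R),
      ‖toVec V S i (a * x)‖ ≤ K * ‖toVec V S i a‖ := by
  obtain ⟨C, hC, h⟩ := hx
  exact ⟨C, fun i a => toVec_norm_le i hC fun s => (h s (a s)).2⟩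

/-- The seeds, the normaliser and an orthogonal element satisfy the hypotheses of the word
argument. -/
theorem wordEnv (hFix : V.FixOpen) (hN : V.NormaliserSplit) (hF : FreeStatement V)
    (p : SeedProj V S) {ρ : ℝ} (hρ0 : 0 ≤ ρ) (hρ : p.HasMean ρ) {y : R} {C : ℝ}
    (hy : V.OrthNormaliser y) (hC : V.Bdd y C) :
    WordEnv (seedFilter Ω) (vecLmul V S) (fun i => toVec V S i 1) (fun _ _ => y) (fun _ => p.fam)
      (orthFam V S) (inNFam V S) (nsumFam V S) (qFam V S) C (Real.sqrt ρ) where
  star_mul _ a b := star_mul a b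
  adj i a u v := by
    rw [vec_inner, vec_inner]
    refine run_congr _ _ fun s => ?_
    change V.τ (star (a s * u s) * v s) = V.τ (star (u s) * (star (a s) * v s))
    rw [star_mul, mul_assoc]
  y_le i v := toVec_norm_le i hC.1 fun s => V.sq_mul_le hC (v s)
  p_idem := funext fun _ => p.fam_idem
  p_star := funext fun _ => p.fam_star
  y_mem := ⟨y, hy, rfl⟩
  q_mem := ⟨_, p.isQ_sub hFix hρ, by rw [Real.sq_sqrt hρ0]; rfl⟩
  star_B := by rintro _ ⟨b, hb, rfl⟩; exact ⟨_, hb.star, rfl⟩
  star_Q := by rintro _ ⟨f, hf, rfl⟩; exact ⟨_, hf.star, rfl⟩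
  one_M := ⟨1, Env.isNSum_one, rfl⟩
  M_le_N := by
    rintro _ ⟨b, hb, rfl⟩
    exact ⟨b, fun η hη => ⟨b, hb, by simpa [Env.sq, Env.τ] using hη.le⟩, rfl⟩
  B_mul_N := by rintro _ ⟨b, hb, rfl⟩ _ ⟨m, hm, rfl⟩; exact ⟨_, hb.mul_inN hm, rfl⟩
  M_mul_B := by rintro _ ⟨m, hm, rfl⟩ _ ⟨b, hb, rfl⟩; exact ⟨_, hb.nsum_mul hm, rfl⟩
  M_mul_Q := by rintro _ ⟨m, hm, rfl⟩ _ ⟨f, hf, rfl⟩; exact ⟨_, hf.nsum_mul hm, rfl⟩
  Q_mul_M := by rintro _ ⟨f, hf, rfl⟩ _ ⟨m, hm, rfl⟩; exact ⟨_, hf.mul_nsum hm, rfl⟩
  split := by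
    rintro _ ⟨b, -, rfl⟩
    obtain ⟨x₀, ho, D, hD⟩ := hN (y * b)
    exact ⟨_, ⟨x₀, fun η hη => (hD η hη).imp fun n hn => ⟨hn.1, hn.2.2⟩, rfl⟩, _, ho, rfl⟩
  p_mul_Q := by
    rintro _ ⟨f, hf, rfl⟩
    obtain ⟨m, hm, hq⟩ := p.isQ_mul_sub hFix hf
    exact ⟨_, ⟨m, hm, rfl⟩, _, hq, rfl⟩
  approx := by
    rintro _ ⟨a, ha, rfl⟩ η hη
    obtain ⟨n, hn, hsq⟩ := ha (η ^ 2) (by positivity)
    refine ⟨_, ⟨n, hn, rfl⟩, Eventually.of_forall fun i => ?_⟩
    rw [vecLmul_one]
    refine le_of_pow_le_pow_left₀ two_ne_zero hη.le ?_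
    rw [vec_norm_sq]
    change mean i (fun _ : State Ω S => V.sq (a - n)) ≤ η ^ 2
    rwa [mean, run_const]
  right_bd := by
    have key : ∀ f : State Ω S → R, UBdd V f → ∃ K : ℝ, ∀ i a,
        ‖vecLmul V S i (a * f) (toVec V S i 1)‖ ≤ K * ‖vecLmul V S i a (toVec V S i 1)‖ := by
      intro f hf
      obtain ⟨K, hK⟩ := norm_toVec_mul_right hf
      exact ⟨K, fun i a => by simpa only [vecLmul_one] using hK i a⟩
    rintro x (⟨b, -, rfl⟩ | ⟨f, hf, rfl⟩)
    · exact key _ (ubdd_const b)
    · exact key f hf.1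
  word t x hx := by
    obtain ⟨f, hf, rfl⟩ := near_of_altWord hx
    refine (hf.trace hF).congr fun i => ?_
    rw [vecLmul_one, vec_inner]
    refine run_congr _ _ fun s => ?_
    change V.τ (f s) = V.τ (star (1 : R) * f s)
    rw [star_one, one_mul]

/-- Free compression: random projections of mean `ρ` compress `y ⊥ N` to `2 √ρ` in every even moment. -/
theorem compressionStatement (V : Env R Ω) (hFix : V.FixOpen) (hN : V.NormaliserSplit)
    (hF : FreeStatement V) : CompressionStatement V := by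
  intro S _ _ p ρ hρ0 hρ y C hys hy hC k hk η hη
  have hW := wordEnv hFix hN hF p hρ0 hρ hy hC
  set A := (2 * C * Real.sqrt ρ) ^ k with hA
  have hA0 : 0 ≤ A := pow_nonneg (mul_nonneg (mul_nonneg zero_le_two hC.1) (Real.sqrt_nonneg _)) k
  set e := min 1 (η / (2 * (2 * A + 1))) with he
  have he0 : 0 < e := by positivity
  have h1 := hW.compress_le hC.1 (Real.sqrt_nonneg _) zero_le_one
    (Eventually.of_forall fun i => (norm_toVec_one i).le) k he0
  have h2 := (Complex.continuous_re.tendsto 0).comp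
    ((near_q (p.isQ_sub hFix hρ)).trace hF)
  rw [Complex.zero_re] at h2
  have h2' := h2.eventually_le_const (show (0 : ℝ) < η / (2 * (A ^ 2 + 1)) by positivity)
  have hev : ∀ᶠ i in seedFilter Ω, mean i (fun s => (V.τ ((V.ι (p.val s) * y * V.ι (p.val s)) ^
      (2 * k))).re) ≤ ρ * (2 * C * Real.sqrt ρ) ^ (2 * k) + η := by
    filter_upwards [h1, h2'] with i hn hρi
    -- the squared norm of the projection is close to `ρ`
    have hp : ‖vecLmul V S i p.fam (toVec V S i 1)‖ ^ 2 ≤ ρ + η / (2 * (A ^ 2 + 1)) := by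
      rw [vecLmul_one, vec_norm_sq]
      have e1 : ∀ s, V.sq (p.fam s) = (V.τ ((p.fam - ((ρ : ℂ) • 1)) s)).re + ρ := by
        intro s
        have hi := congrFun p.fam_idem s
        have hs := congrFun p.fam_star s
        simp only [Pi.mul_apply, Pi.star_apply] at hi hs
        rw [Env.sq, hs, hi, Pi.sub_apply, Env.τ_sub, Pi.smul_apply, Pi.one_apply, Env.τ_smul,
          show V.τ 1 = 1 by rw [← map_one V.ι, V.τ_ι, V.μ_one]]
        simp
      change run i.θ i.Ps (fun s => V.sq (p.fam s)) (State.empty Ω S) ≤ _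
      rw [run_congr _ _ e1, run_add, run_const]
      change Complex.reLm (mean i fun s => V.τ ((p.fam - ((ρ : ℂ) • 1)) s)) ≤ _ at hρi
      rw [mean, map_run] at hρi
      change run _ _ (fun s => (V.τ ((p.fam - ((ρ : ℂ) • 1)) s)).re) _ ≤ _ at hρi
      linarith
    have hm := hW.moment_eq (funext fun _ => funext fun _ => hys) hk.ne' i
    have e2 : mean i (fun s => (V.τ ((V.ι (p.val s) * y * V.ι (p.val s)) ^ (2 * k))).re) =
        ‖vecLmul V S i ((p.fam * fun _ => y) ^ k * p.fam) (toVec V S i 1)‖ ^ 2 := by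
      have h3 := congrArg Complex.re hm
      rw [Complex.ofReal_re, vecLmul_one, vec_inner] at h3
      rw [← h3]
      change _ = Complex.reLm _
      rw [mean, mean, map_run]
      refine run_congr _ _ fun s => ?_
      change _ = (V.τ (star (1 : R) * (((p.fam * (fun _ => y) * p.fam : State Ω S → R)) ^ (2 * k)) s)).re
      rw [star_one, one_mul, Pi.pow_apply]
      rfl
    rw [e2]
    set a := ‖vecLmul V S i p.fam (toVec V S i 1)‖ with ha
    have ha1 : a ≤ 1 := by
      refine (hW.norm_p_le' i _).trans (norm_toVec_one i).le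
    have hle : e * (2 * A + 1) ≤ η / 2 := by
      refine (mul_le_mul_of_nonneg_right (min_le_right _ _) (by positivity)).trans (le_of_eq ?_)
      field_simp
    have he1 : e ≤ 1 := min_le_left _ _
    have hA2 : A ^ 2 * (η / (2 * (A ^ 2 + 1))) ≤ η / 2 := by
      rw [mul_div_assoc', div_le_div_iff₀ (by positivity) two_pos]
      nlinarith
    have ha0 : 0 ≤ a := norm_nonneg _
    refine (pow_le_pow_left₀ (norm_nonneg _) hn 2).trans ?_
    rw [pow_mul', ← hA]
    nlinarith [mul_le_mul_of_nonneg_left hp (pow_two_nonneg A),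
      mul_le_mul_of_nonneg_left ha1 (mul_nonneg hA0 he0.le),
      mul_le_mul_of_nonneg_left he1 he0.le]
  exact hev

end Vale.Agent.P078.All
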