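import Mathlib

/-!
# P078: free compression on vectors, asymptotically

Along a filter, let `y` be bounded and `p` be projections. Suppose bounded families of vectors
split into two asymptotically orthogonal classes `SQ` (words starting outside the normaliser
algebra) and `SO` (the others), `y` maps `SO` into `SQ`, both maps preserve `SQ + SO`, and `p`
has mass `1/r` on `SQ`. Then every step `v ↦ p y v` costs a factor `2 C / √r`.
-/

namespace Vale.Agent.P078.All

open Filter Topology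
open scoped InnerProductSpace

variable {ι : Type*} {E : ι → Type*} [∀ n, SeminormedAddCommGroup (E n)]
  [∀ n, InnerProductSpace ℂ (E n)]

/-- The families that lie in `S` up to an arbitrarily small error, eventually along `l`. -/
def nearby (l : Filter ι) (S : Submodule ℂ (∀ n, E n)) : Submodule ℂ (∀ n, E n) where
  carrier := {v | ∀ η > (0 : ℝ), ∃ w ∈ S, ∀ᶠ n in l, ‖v n - w n‖ ≤ η}
  zero_mem' := fun η hη => ⟨0, zero_mem _, Eventually.of_forall fun n => by simp [hη.le]⟩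
  add_mem' := by
    intro v v' hv hv' η hη
    obtain ⟨w, hw, h⟩ := hv (η / 2) (half_pos hη)
    obtain ⟨w', hw', h'⟩ := hv' (η / 2) (half_pos hη)
    refine ⟨w + w', add_mem hw hw', ?_⟩
    filter_upwards [h, h'] with n hn hn'
    simp only [Pi.add_apply, add_sub_add_comm]
    exact (norm_add_le _ _).trans (by linarith)
  smul_mem' := by
    intro c v hv η hη
    obtain ⟨w, hw, h⟩ := hv (η / (‖c‖ + 1)) (by positivity)
    refine ⟨c • w, Submodule.smul_mem _ c hw, ?_⟩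
    filter_upwards [h] with n hn
    simp only [Pi.smul_apply, ← smul_sub, norm_smul]
    refine (mul_le_mul_of_nonneg_left hn (norm_nonneg _)).trans ?_
    rw [mul_div_assoc', div_le_iff₀ (by positivity)]
    nlinarith [norm_nonneg c]

theorem le_nearby (l : Filter ι) (S : Submodule ℂ (∀ n, E n)) : S ≤ nearby l S :=
  fun v hv η hη => ⟨v, hv, Eventually.of_forall fun n => by simp [hη.le]⟩

/-- A uniformly bounded map sending `S` near `S'` sends all families near `S` near `S'`. -/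
theorem map_nearby {l : Filter ι} {S S' : Submodule ℂ (∀ n, E n)} {T : ∀ n, E n →ₗ[ℂ] E n}
    {B : ℝ} (hB : 0 ≤ B) (hT : ∀ n v, ‖T n v‖ ≤ B * ‖v‖)
    (h : ∀ v ∈ S, (fun n => T n (v n)) ∈ nearby l S') {v : ∀ n, E n} (hv : v ∈ nearby l S) :
    (fun n => T n (v n)) ∈ nearby l S' := by
  intro η hη
  obtain ⟨w, hw, h1⟩ := hv (η / (2 * (B + 1))) (by positivity)
  obtain ⟨z, hz, h2⟩ := h w hw (η / 2) (half_pos hη)
  refine ⟨z, hz, ?_⟩
  filter_upwards [h1, h2] with n a b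
  have h3 : ‖T n (v n) - T n (w n)‖ ≤ η / 2 := by
    rw [← map_sub]
    refine (hT n _).trans ((mul_le_mul_of_nonneg_left a hB).trans ?_)
    rw [mul_div_assoc', div_le_div_iff₀ (by positivity) two_pos]
    nlinarith
  linarith [norm_sub_le_norm_sub_add_norm_sub (T n (v n)) (T n (w n)) (z n)]

/-- The hypotheses of free compression. -/
structure FreeSplit (l : Filter ι) (y p : ∀ n, E n →ₗ[ℂ] E n) (SQ SO : Submodule ℂ (∀ n, E n))
    (C s : ℝ) : Prop where
  y_le : ∀ n v, ‖y n v‖ ≤ C * ‖v‖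
  p_idem : ∀ n v, p n (p n v) = p n v
  p_symm : ∀ n u v, ⟪p n u, v⟫_ℂ = ⟪u, p n v⟫_ℂ
  orth : ∀ u ∈ SQ, ∀ w ∈ SO, Tendsto (fun n => ‖⟪u n, w n⟫_ℂ‖) l (𝓝 0)
  mass : ∀ u ∈ SQ, Tendsto (fun n => (⟪u n, p n (u n)⟫_ℂ).re - s ^ 2 * ‖u n‖ ^ 2) l (𝓝 0)
  y_SO : ∀ w ∈ SO, (fun n => y n (w n)) ∈ SQ
  y_SQ : ∀ u ∈ SQ, (fun n => y n (u n)) ∈ nearby l (SQ ⊔ SO)
  p_mem : ∀ v ∈ SQ ⊔ SO, (fun n => p n (v n)) ∈ nearby l (SQ ⊔ SO)

variable {l : Filter ι} {y p : ∀ n, E n →ₗ[ℂ] E n} {SQ SO : Submodule ℂ (∀ n, E n)} {C s : ℝ}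

theorem norm_p_sq (p : ∀ n, E n →ₗ[ℂ] E n) (hi : ∀ n v, p n (p n v) = p n v)
    (hs : ∀ n u v, ⟪p n u, v⟫_ℂ = ⟪u, p n v⟫_ℂ) (n : ι) (v : E n) :
    ‖p n v‖ ^ 2 = (⟪v, p n v⟫_ℂ).re := by
  have h : (⟪p n v, p n v⟫_ℂ).re = ‖p n v‖ ^ 2 := inner_self_eq_norm_sq (𝕜 := ℂ) (p n v)
  rw [← h, hs, hi]

theorem norm_p_le (p : ∀ n, E n →ₗ[ℂ] E n) (hi : ∀ n v, p n (p n v) = p n v)
    (hs : ∀ n u v, ⟪p n u, v⟫_ℂ = ⟪u, p n v⟫_ℂ) (n : ι) (z : E n) : ‖p n z‖ ≤ ‖z‖ := by
  rcases eq_or_lt_of_le (norm_nonneg (p n z)) with h0 | h0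
  · rw [← h0]; exact norm_nonneg z
  · refine le_of_mul_le_mul_right ?_ h0
    rw [← sq, norm_p_sq p hi hs]
    exact (Complex.re_le_norm _).trans (norm_inner_le_norm _ _)

/-- One step of the compression, for a vector of `SQ ⊔ SO` nearly fixed by `p`. -/
theorem FreeSplit.step_exact (h : FreeSplit l y p SQ SO C s) (hC : 0 ≤ C) (hs : 0 ≤ s)
    {K : ℝ} (hK0 : 0 ≤ K) {η : ℝ} (hη : 0 < η) :
    ∃ δ > (0 : ℝ), ∀ v ∈ SQ ⊔ SO, (∀ᶠ n in l, ‖p n (v n) - v n‖ ≤ δ) →
      (∀ᶠ n in l, ‖v n‖ ≤ K) →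
      ∀ᶠ n in l, ‖p n (y n (v n))‖ ≤ 2 * C * s * ‖v n‖ + η := by
  set d := η / (2 * C + 1) with hd
  have hd0 : 0 < d := by positivity
  set ν := d ^ 2 / (2 * (K + 1)) with hν
  have hν0 : 0 < ν := by positivity
  refine ⟨d / 8, by positivity, fun v hv hpv hK => ?_⟩
  obtain ⟨u, hu, w, hw, rfl⟩ := Submodule.mem_sup.1 hv
  have h1 := (h.orth u hu w hw).eventually_le_const (show (0 : ℝ) < (d / 2) ^ 2 by positivity)
  have h2 := ((h.mass u hu).abs).eventually_le_const (show |(0 : ℝ)| < ν ^ 2 by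
    rw [abs_zero]; positivity)
  have h3 := ((h.mass _ (h.y_SO w hw)).abs).eventually_le_const (show |(0 : ℝ)| < d ^ 2 by
    rw [abs_zero]; positivity)
  filter_upwards [h1, h2, h3, hK, hpv] with n hn1 hn2 hn3 hnK hnp
  simp only [Pi.add_apply] at hnp hnK ⊢
  set a := u n
  set b := w n
  have hpa : ‖p n a‖ ≤ s * ‖a‖ + ν := by
    refine le_of_pow_le_pow_left₀ two_ne_zero (by positivity) ?_
    rw [norm_p_sq p h.p_idem h.p_symm]
    have : 0 ≤ s * ‖a‖ * ν := by positivity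
    nlinarith [le_abs_self ((⟪a, p n a⟫_ℂ).re - s ^ 2 * ‖a‖ ^ 2)]
  have hsum : ‖a‖ ^ 2 + 2 * (⟪a, b⟫_ℂ).re + ‖b‖ ^ 2 = ‖a + b‖ ^ 2 :=
    (norm_add_sq (𝕜 := ℂ) a b).symm
  have hab : |(⟪a, b⟫_ℂ).re| ≤ (d / 2) ^ 2 := (Complex.abs_re_le_norm _).trans hn1
  -- the part in `SQ` is small against the whole vector
  have hanorm : ‖a‖ ≤ s * ‖a + b‖ + d := by
    have e : (⟪a, a + b⟫_ℂ).re = ‖a‖ ^ 2 + (⟪a, b⟫_ℂ).re := by
      rw [inner_add_right, Complex.add_re]
      congr 1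
      exact inner_self_eq_norm_sq (𝕜 := ℂ) a
    have e2 : (⟪a, a + b⟫_ℂ).re ≤ ‖p n a‖ * ‖a + b‖ + ‖a‖ * (d / 8) := by
      have e3 : ⟪a, a + b⟫_ℂ = ⟪p n a, a + b⟫_ℂ + ⟪a, a + b - p n (a + b)⟫_ℂ := by
        rw [h.p_symm, ← inner_add_right, add_sub_cancel]
      rw [e3, Complex.add_re]
      refine add_le_add ((Complex.re_le_norm _).trans (norm_inner_le_norm _ _))
        ((Complex.re_le_norm _).trans ((norm_inner_le_norm _ _).trans
          (mul_le_mul_of_nonneg_left ?_ (norm_nonneg _))))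
      rw [norm_sub_rev]
      exact hnp
    by_contra hlt
    push Not at hlt
    have h4 := mul_le_mul_of_nonneg_right hpa (norm_nonneg (a + b))
    have h5 : ‖a‖ * (s * ‖a + b‖ + d) ≤ ‖a‖ * ‖a‖ := mul_le_mul_of_nonneg_left hlt.le (norm_nonneg a)
    have h6 : d * d < d * ‖a‖ := mul_lt_mul_of_pos_left
      (lt_of_le_of_lt (le_add_of_nonneg_left (mul_nonneg hs (norm_nonneg _))) hlt) hd0
    have h7 : ν * ‖a + b‖ ≤ d ^ 2 / 2 := by
      refine (mul_le_mul_of_nonneg_left hnK hν0.le).trans ?_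
      rw [hν, div_mul_eq_mul_div, div_le_div_iff₀ (by positivity) two_pos]
      nlinarith [sq_nonneg d]
    nlinarith [abs_le.1 hab]
  have hbnorm : ‖b‖ ≤ ‖a + b‖ + d := by
    refine le_of_pow_le_pow_left₀ two_ne_zero (by positivity) ?_
    nlinarith [abs_le.1 hab, sq_nonneg ‖a‖, norm_nonneg (a + b)]
  have hpy : ‖p n (y n b)‖ ≤ s * (C * ‖b‖) + d := by
    refine le_of_pow_le_pow_left₀ two_ne_zero (by positivity) ?_
    rw [norm_p_sq p h.p_idem h.p_symm]
    have hy := mul_le_mul_of_nonneg_left (pow_le_pow_left₀ (norm_nonneg _) (h.y_le n b) 2)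
      (sq_nonneg s)
    have : 0 ≤ s * (C * ‖b‖) * d := by positivity
    nlinarith [le_abs_self ((⟪y n b, p n (y n b)⟫_ℂ).re - s ^ 2 * ‖y n b‖ ^ 2)]
  have hpc := norm_p_le p h.p_idem h.p_symm n
  have hya : ‖p n (y n a)‖ ≤ C * (s * ‖a + b‖ + d) :=
    ((hpc _).trans (h.y_le n a)).trans (mul_le_mul_of_nonneg_left hanorm hC)
  rcases le_or_gt s 1 with hs2 | hs2
  · rw [map_add, map_add]
    refine (norm_add_le _ _).trans ?_
    have hs1 : s * (C * ‖b‖) ≤ C * s * ‖a + b‖ + C * s * d := by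
      nlinarith [mul_le_mul_of_nonneg_left hbnorm (mul_nonneg hs hC)]
    have hdη : d * (2 * C + 1) = η := div_mul_cancel₀ η (by positivity)
    nlinarith [mul_le_mul_of_nonneg_left hs2 (mul_nonneg hC hd0.le)]
  · -- for `s > 1` the operator bound alone is enough
    refine ((hpc _).trans (h.y_le n _)).trans ?_
    have := mul_le_mul_of_nonneg_left hs2.le (mul_nonneg hC (norm_nonneg (a + b)))
    have : 0 ≤ C * s * ‖a + b‖ := by positivity
    linarith

/-- One step of the compression. -/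
theorem FreeSplit.step (h : FreeSplit l y p SQ SO C s) (hC : 0 ≤ C) (hs : 0 ≤ s) {v : ∀ n, E n}
    (hv : v ∈ nearby l (SQ ⊔ SO)) (hpv : ∀ n, p n (v n) = v n) {K : ℝ} (hK0 : 0 ≤ K)
    (hK : ∀ᶠ n in l, ‖v n‖ ≤ K) {η : ℝ} (hη : 0 < η) :
    ∀ᶠ n in l, ‖p n (y n (v n))‖ ≤ 2 * C * s * ‖v n‖ + η := by
  obtain ⟨δ, hδ, hstep⟩ := h.step_exact hC hs (K := K + 1) (by linarith) (half_pos hη)
  set e := min (δ / 2) (min 1 (η / (2 * (C + 2 * C * s + 1)))) with he
  have he0 : 0 < e := by positivity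
  obtain ⟨w, hw, hvw⟩ := hv e he0
  have hpc := norm_p_le p h.p_idem h.p_symm
  have hw1 : ∀ᶠ n in l, ‖p n (w n) - w n‖ ≤ δ := by
    filter_upwards [hvw] with n hn
    have h1 : p n (w n) - w n = p n (w n - v n) + (v n - w n) := by
      rw [map_sub, hpv n]; abel
    rw [h1]
    refine (norm_add_le _ _).trans ?_
    have h2 : ‖p n (w n - v n)‖ ≤ ‖v n - w n‖ := by rw [norm_sub_rev]; exact hpc n _
    linarith [min_le_left (δ / 2) (min 1 (η / (2 * (C + 2 * C * s + 1))))]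
  have hw2 : ∀ᶠ n in l, ‖w n‖ ≤ K + 1 := by
    filter_upwards [hvw, hK] with n hn hnK
    have h1 : ‖w n‖ ≤ ‖v n‖ + ‖v n - w n‖ := norm_le_norm_add_norm_sub _ _
    have h2 : e ≤ 1 := (min_le_right _ _).trans (min_le_left _ _)
    linarith
  filter_upwards [hstep w hw hw1 hw2, hvw] with n h1 h2
  have h3 : ‖p n (y n (v n))‖ ≤ ‖p n (y n (w n))‖ + C * e := by
    refine (norm_le_norm_add_norm_sub' _ (p n (y n (w n)))).trans (add_le_add le_rfl ?_)
    rw [← map_sub, ← map_sub]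
    exact (hpc n _).trans ((h.y_le n _).trans (mul_le_mul_of_nonneg_left h2 hC))
  have h4 : ‖w n‖ ≤ ‖v n‖ + e := (norm_le_norm_add_norm_sub _ _).trans (add_le_add le_rfl h2)
  have h5 := mul_le_mul_of_nonneg_left h4 (show 0 ≤ 2 * C * s by positivity)
  have h6 : e * (C + 2 * C * s + 1) ≤ η / 2 := by
    refine (mul_le_mul_of_nonneg_right ((min_le_right _ _).trans (min_le_right _ _))
      (by positivity)).trans (le_of_eq ?_)
    field_simp
  nlinarith

/-- The iterates of `v ↦ p (y v)`. -/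
def iter (y p : ∀ n, E n →ₗ[ℂ] E n) (v : ∀ n, E n) : ℕ → ∀ n, E n
  | 0 => v
  | k + 1 => fun n => p n (y n (iter y p v k n))

/-- `k` steps cost `(2 C s) ^ k`. -/
theorem FreeSplit.iter_le (h : FreeSplit l y p SQ SO C s) (hC : 0 ≤ C) (hs : 0 ≤ s)
    {v : ∀ n, E n} (hv : v ∈ nearby l (SQ ⊔ SO)) (hpv : ∀ n, p n (v n) = v n) {K : ℝ}
    (hK0 : 0 ≤ K)
    (hK : ∀ᶠ n in l, ‖v n‖ ≤ K) (k : ℕ) :
    ∀ η > (0 : ℝ), ∀ᶠ n in l, ‖iter y p v k n‖ ≤ (2 * C * s) ^ k * ‖v n‖ + η := by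
  have hmem : ∀ k, iter y p v k ∈ nearby l (SQ ⊔ SO) ∧
      ∀ n, p n (iter y p v k n) = iter y p v k n := by
    intro k
    induction k with
    | zero => exact ⟨hv, hpv⟩
    | succ k ih =>
      refine ⟨?_, fun n => h.p_idem n _⟩
      refine map_nearby (v := fun n => y n (iter y p v k n)) zero_le_one
        (fun n z => (norm_p_le p h.p_idem h.p_symm n z).trans (one_mul ‖z‖).ge) h.p_mem
        (map_nearby hC h.y_le (fun z hz => ?_) ih.1)
      obtain ⟨u, hu, w, hw, rfl⟩ := Submodule.mem_sup.1 hz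
      have hadd : (fun n => y n ((u + w) n)) =
          (fun n => y n (u n)) + fun n => y n (w n) := by
        funext n
        simp
      rw [hadd]
      exact Submodule.add_mem _ (h.y_SQ u hu)
        (le_nearby l _ (Submodule.mem_sup_left (h.y_SO w hw)))
  induction k with
  | zero =>
    intro η hη
    exact Eventually.of_forall fun n => by simp [iter, hη.le]
  | succ k ih =>
    intro η hη
    set t := 2 * C * s with ht
    have ht0 : 0 ≤ t := by positivity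
    have hKk : ∀ᶠ n in l, ‖iter y p v k n‖ ≤ t ^ k * K + 1 := by
      filter_upwards [ih 1 one_pos, hK] with n a b
      exact a.trans (add_le_add (mul_le_mul_of_nonneg_left b (pow_nonneg ht0 k)) le_rfl)
    filter_upwards [h.step hC hs (hmem k).1 (hmem k).2 (by positivity) hKk (half_pos hη),
      ih (η / (2 * (t + 1))) (by positivity)] with n h1 h2
    refine h1.trans ?_
    have h3 := mul_le_mul_of_nonneg_left h2 ht0
    have h4 : t * (η / (2 * (t + 1))) ≤ η / 2 := by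
      rw [mul_div_assoc', div_le_div_iff₀ (by positivity) two_pos]
      nlinarith
    rw [pow_succ]
    nlinarith

/-- Free compression from conditions on generating families. -/
theorem freeSplit_span {GQ GO : Set (∀ n, E n)} (y_le : ∀ n v, ‖y n v‖ ≤ C * ‖v‖)
    (p_idem : ∀ n v, p n (p n v) = p n v)
    (p_symm : ∀ n u v, ⟪p n u, v⟫_ℂ = ⟪u, p n v⟫_ℂ)
    (orth : ∀ u ∈ GQ, ∀ w ∈ GO, Tendsto (fun n => ⟪u n, w n⟫_ℂ) l (𝓝 0))
    (mass : ∀ u ∈ GQ, ∀ u' ∈ GQ,
      Tendsto (fun n => ⟪u n, p n (u' n)⟫_ℂ - (s ^ 2 : ℝ) * ⟪u n, u' n⟫_ℂ) l (𝓝 0))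
    (y_GO : ∀ w ∈ GO, (fun n => y n (w n)) ∈ Submodule.span ℂ GQ)
    (y_GQ : ∀ u ∈ GQ, (fun n => y n (u n)) ∈ nearby l (Submodule.span ℂ (GQ ∪ GO)))
    (p_gen : ∀ v ∈ GQ ∪ GO, (fun n => p n (v n)) ∈ nearby l (Submodule.span ℂ (GQ ∪ GO))) :
    FreeSplit l y p (Submodule.span ℂ GQ) (Submodule.span ℂ GO) C s := by
  have hmap : ∀ (T : ∀ n, E n →ₗ[ℂ] E n) (G : Set (∀ n, E n)) (S : Submodule ℂ (∀ n, E n)),
      (∀ v ∈ G, (fun n => T n (v n)) ∈ S) →
      ∀ v ∈ Submodule.span ℂ G, (fun n => T n (v n)) ∈ S := fun T G S hG v hv =>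
    (Submodule.span_le (p := S.comap (LinearMap.pi fun n => (T n).comp (LinearMap.proj n)))).2
      hG hv
  have hsup : Submodule.span ℂ (GQ ∪ GO) = Submodule.span ℂ GQ ⊔ Submodule.span ℂ GO :=
    Submodule.span_union GQ GO
  refine ⟨y_le, p_idem, p_symm, fun u hu w hw => ?_, fun u hu => ?_, hmap y GO _ y_GO,
    fun u hu => hsup ▸ hmap y GQ _ y_GQ u hu,
    fun v hv => hsup ▸ hmap p (GQ ∪ GO) _ p_gen v (hsup.symm ▸ hv)⟩
  · refine tendsto_zero_iff_norm_tendsto_zero.1 ?_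
    induction hu, hw using Submodule.span_induction₂ with
    | mem_mem u w hu hw => exact orth u hu w hw
    | zero_left w hw => simpa using tendsto_const_nhds
    | zero_right u hu => simpa using tendsto_const_nhds
    | add_left u u' w _ _ _ h1 h2 => simpa [inner_add_left] using h1.add h2
    | add_right u w w' _ _ _ h1 h2 => simpa [inner_add_right] using h1.add h2
    | smul_left r u w _ _ h1 =>
      simpa [inner_smul_left, mul_comm] using h1.const_mul ((starRingEnd ℂ) r)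
    | smul_right r u w _ _ h1 => simpa [inner_smul_right] using h1.const_mul r
  · have hb : ∀ u ∈ Submodule.span ℂ GQ, ∀ u' ∈ Submodule.span ℂ GQ, Tendsto
        (fun n => ⟪u n, p n (u' n)⟫_ℂ - (s ^ 2 : ℝ) * ⟪u n, u' n⟫_ℂ) l (𝓝 0) := by
      intro u hu u' hu'
      induction hu, hu' using Submodule.span_induction₂ with
      | mem_mem u w hu hw => exact mass u hu w hw
      | zero_left w hw => simpa using tendsto_const_nhds
      | zero_right u hu => simpa using tendsto_const_nhds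
      | add_left u u' w _ _ _ h1 h2 =>
        refine Tendsto.congr (fun n => ?_) (by simpa using h1.add h2)
        simp only [Pi.add_apply, inner_add_left]; push_cast; ring
      | add_right u w w' _ _ _ h1 h2 =>
        refine Tendsto.congr (fun n => ?_) (by simpa using h1.add h2)
        simp only [Pi.add_apply, map_add, inner_add_right]; push_cast; ring
      | smul_left r u w _ _ h1 =>
        refine Tendsto.congr (fun n => ?_) (by simpa using h1.const_mul ((starRingEnd ℂ) r))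
        simp only [Pi.smul_apply, inner_smul_left]; push_cast; ring
      | smul_right r u w _ _ h1 =>
        refine Tendsto.congr (fun n => ?_) (by simpa using h1.const_mul r)
        simp only [Pi.smul_apply, map_smul, inner_smul_right]; push_cast; ring
    have h1 := ((Complex.continuous_re.tendsto 0).comp (hb u hu u hu))
    rw [Complex.zero_re] at h1
    refine h1.congr fun n => ?_
    simp only [Function.comp_apply, Complex.sub_re, Complex.re_ofReal_mul]
    congr 2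
    exact inner_self_eq_norm_sq (𝕜 := ℂ) (u n)

end Vale.Agent.P078.All
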