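import Mathlib

/-!
Interface for asymptotic freeness in a finite algebra with a MASA. The algebra is seen through an
embedding `ι` of the functions on the Gelfand space of the MASA and the expectation `E` onto them.
-/

namespace Vale.Agent.P078.All

open scoped ComplexOrder

/-- An algebra with an expectation onto the functions on a compact space and a trace. For a MASA
`A` of a finite `M`: `R = M`, `Ω` is the character space of `A`, `ι` the inverse Gelfand map, `E`
the trace-preserving expectation and `μ` the trace on `A`. -/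
structure Env (R : Type) [Ring R] [StarRing R] [Algebra ℂ R] [StarModule ℂ R]
    (Ω : Type) [TopologicalSpace Ω] [CompactSpace Ω] [T2Space Ω] [TotallyDisconnectedSpace Ω] where
  /-- The functions as elements of the algebra. -/
  ι : C(Ω, ℂ) →⋆ₐ[ℂ] R
  /-- The conditional expectation. -/
  E : R →ₗ[ℂ] C(Ω, ℂ)
  E_ι : ∀ a, E (ι a) = a
  E_left : ∀ a x, E (ι a * x) = a * E x
  E_right : ∀ a x, E (x * ι a) = E x * a
  E_star : ∀ x, E (star x) = star (E x)
  E_nonneg : ∀ x ω, 0 ≤ E (star x * x) ω
  bounded : ∀ x, ∃ C : ℝ, 0 ≤ C ∧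
    ∀ y ω, E (star y * (star x * x) * y) ω ≤ (C : ℂ) ^ 2 * E (star y * y) ω
  /-- The trace on the functions. -/
  μ : C(Ω, ℂ) →ₗ[ℂ] ℂ
  μ_nonneg : ∀ a : C(Ω, ℂ), (∀ ω, 0 ≤ a ω) → 0 ≤ μ a
  μ_one : μ 1 = 1
  trace : ∀ x y, μ (E (x * y)) = μ (E (y * x))

/-- A clopen partition: a locally constant labelling by a finite set. -/
structure Part (Ω : Type) [TopologicalSpace Ω] where
  /-- The number of pieces. -/
  n : ℕ
  /-- The piece of a point. -/
  cell : LocallyConstant Ω (Fin n)

namespace Part

variable {Ω : Type} [TopologicalSpace Ω]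

/-- `Q` refines `P`. -/
def Refines (Q P : Part Ω) : Prop := ∀ ω ω', Q.cell ω = Q.cell ω' → P.cell ω = P.cell ω'

/-- The indicator of a piece. -/
noncomputable def ind (P : Part Ω) (c : Fin P.n) : C(Ω, ℂ) :=
  ⟨fun ω => if P.cell ω = c then 1 else 0,
    (P.cell.isLocallyConstant.comp fun d => if d = c then (1 : ℂ) else 0).continuous⟩

theorem refines_refl (P : Part Ω) : P.Refines P := fun _ _ h => h

theorem Refines.trans {P Q S : Part Ω} (h : S.Refines Q) (h' : Q.Refines P) : S.Refines P :=
  fun ω ω' e => h' ω ω' (h ω ω' e)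

/-- The common refinement. -/
noncomputable def inter (P Q : Part Ω) : Part Ω where
  n := P.n * Q.n
  cell := ⟨fun ω => finProdFinEquiv (P.cell ω, Q.cell ω),
    (P.cell.isLocallyConstant.prodMk Q.cell.isLocallyConstant).comp finProdFinEquiv⟩

theorem inter_left (P Q : Part Ω) : (P.inter Q).Refines P := fun _ _ h =>
  congrArg Prod.fst (finProdFinEquiv.injective h)

theorem inter_right (P Q : Part Ω) : (P.inter Q).Refines Q := fun _ _ h =>
  congrArg Prod.snd (finProdFinEquiv.injective h)

/-- The trivial partition. -/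
def one : Part Ω := ⟨1, LocallyConstant.const Ω 0⟩

/-- For all sufficiently fine partitions. -/
def Fine (Q : Part Ω → Prop) : Prop := ∃ P₀ : Part Ω, ∀ P : Part Ω, P.Refines P₀ → Q P

theorem Fine.and {Q Q' : Part Ω → Prop} (h : Fine Q) (h' : Fine Q') :
    Fine fun P => Q P ∧ Q' P := by
  obtain ⟨P, hP⟩ := h
  obtain ⟨P', hP'⟩ := h'
  exact ⟨P.inter P', fun S hS => ⟨hP S (hS.trans (inter_left _ _)),
    hP' S (hS.trans (inter_right _ _))⟩⟩

theorem Fine.mono {Q Q' : Part Ω → Prop} (h : Fine Q) (hQ : ∀ P, Q P → Q' P) : Fine Q' := by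
  obtain ⟨P, hP⟩ := h
  exact ⟨P, fun S hS => hQ S (hP S hS)⟩

theorem Fine.exists {Q : Part Ω → Prop} (h : Fine Q) : ∃ P, Q P :=
  let ⟨P, hP⟩ := h; ⟨P, hP P (refines_refl P)⟩

end Part

namespace Env

variable {R : Type} [Ring R] [StarRing R] [Algebra ℂ R] [StarModule ℂ R]
  {Ω : Type} [TopologicalSpace Ω] [CompactSpace Ω] [T2Space Ω] [TotallyDisconnectedSpace Ω]
  (V : Env R Ω)

/-- The trace. -/
noncomputable def τ (x : R) : ℂ := V.μ (V.E x)

/-- The squared 2-norm. -/
noncomputable def sq (x : R) : ℝ := (V.τ (star x * x)).re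

/-- The element of a piece. -/
noncomputable def proj (P : Part Ω) (c : Fin P.n) : R := V.ι (P.ind c)

/-- The pinching by a partition. -/
noncomputable def pinch (P : Part Ω) (x : R) : R := ∑ c, V.proj P c * x * V.proj P c

/-- The pinchings converge to the expectation in 2-norm. -/
def DiagonalLimit : Prop :=
  ∀ x : R, ∀ η : ℝ, 0 < η → Part.Fine fun P => V.sq (V.pinch P x - V.ι (V.E x)) ≤ η

/-- A normalising unitary with its homeomorphism of `Ω`. -/
structure Mover where
  /-- The unitary. -/
  u : R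
  mem_unitary : u ∈ unitary R
  /-- The action. -/
  T : Ω ≃ₜ Ω
  conj : ∀ a : C(Ω, ℂ), u * V.ι a * star u = V.ι (a.comp (T : C(Ω, Ω)))
  E_conj : ∀ x, V.E (u * x * star u) = (V.E x).comp (T : C(Ω, Ω))

/-- The mass at the atoms of the fibres of the bimodule of `x`, at a partition. -/
noncomputable def gauss (P : Part Ω) (x : R) : ℝ :=
  ∑ c, (V.μ (V.E (x * V.proj P c * star x) ^ 2)).re

/-- No atoms in the fibres of the bimodule of `x`. -/
def Atomless (x : R) : Prop := ∀ η : ℝ, 0 < η → Part.Fine fun P => V.gauss P x ≤ η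

/-- `x` is orthogonal to every `a * u` with `u` a normalising unitary. -/
def OrthNormaliser (x : R) : Prop :=
  ∀ (g : V.Mover) (a : C(Ω, ℂ)), V.τ (star (V.ι a * g.u) * x) = 0

/-- The lemma for one letter: orthogonality to the normaliser gives atomless fibres. -/
def AtomlessStatement : Prop := ∀ x : R, V.OrthNormaliser x → V.Atomless x

end Env

end Vale.Agent.P078.All
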