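import Vale.Agent.P078.All.Basic

/-!
Basic facts on the interface: the trace, the 2-norm, movers and finite sums over the normaliser.
-/

namespace Vale.Agent.P078.All

open scoped ComplexOrder

variable {Ω : Type} [TopologicalSpace Ω] [CompactSpace Ω] [T2Space Ω] [TotallyDisconnectedSpace Ω]
  {R : Type} [Ring R] [StarRing R] [Algebra ℂ R] [StarModule ℂ R]

namespace Env

variable {V : Env R Ω}

theorem μ_im (a : C(Ω, ℂ)) (ha : ∀ ω, (a ω).im = 0) : (V.μ a).im = 0 := by
  set b : C(Ω, ℂ) := a + (‖a‖ : ℂ) • 1 with hb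
  have h1 : 0 ≤ V.μ b := V.μ_nonneg b fun ω => by
    have := (neg_le_abs (a ω).re).trans ((Complex.abs_re_le_norm (a ω)).trans (a.norm_coe_le_norm ω))
    rw [Complex.nonneg_iff]
    exact ⟨by simp [hb]; linarith, by simp [hb, ha ω]⟩
  rw [hb, map_add, map_smul, V.μ_one, Complex.nonneg_iff] at h1
  simpa using h1.2.symm

theorem μ_conj (a : C(Ω, ℂ)) : V.μ (star a) = star (V.μ a) := by
  have h1 := μ_im (V := V) (a + star a) fun ω => by simp
  have h2 := μ_im (V := V) (Complex.I • (a - star a)) fun ω => by simp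
  rw [map_smul, map_sub, smul_eq_mul] at h2
  rw [map_add] at h1
  refine Complex.ext ?_ ?_
  · simp only [Complex.mul_im, Complex.I_re, Complex.I_im, Complex.sub_re, zero_mul, zero_add,
      one_mul] at h2
    simpa using (sub_eq_zero.1 h2).symm
  · rw [Complex.add_im] at h1
    simp only [RCLike.star_def, Complex.conj_im]
    linarith

theorem τ_star (x : R) : V.τ (star x) = star (V.τ x) := by
  rw [τ, τ, V.E_star, μ_conj]

theorem τ_comm (x y : R) : V.τ (x * y) = V.τ (y * x) := V.trace x y

theorem τ_nonneg (x : R) : 0 ≤ V.τ (star x * x) := V.μ_nonneg _ (V.E_nonneg x)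

theorem τ_sub (x y : R) : V.τ (x - y) = V.τ x - V.τ y := by rw [τ, τ, τ, map_sub, map_sub]

theorem τ_smul (c : ℂ) (x : R) : V.τ (c • x) = c * V.τ x := by
  rw [τ, τ, map_smul, map_smul, smul_eq_mul]

variable (V) in
/-- The inner product of the trace. -/
@[reducible] noncomputable def preCore : PreInnerProductSpace.Core ℂ R where
  inner x y := V.τ (star x * y)
  conj_inner_symm x y := by
    change star (V.τ (star y * x)) = V.τ (star x * y)
    rw [← τ_star, star_mul, star_star]
  re_inner_nonneg x := (Complex.nonneg_iff.1 (τ_nonneg x)).1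
  add_left x y z := by
    change V.τ (star (x + y) * z) = _
    rw [star_add, add_mul, V.τ_add]
  smul_left x y r := by
    change V.τ (star (r • x) * y) = _
    rw [star_smul, smul_mul_assoc, τ_smul]
    rfl

theorem norm_τ_sq_le (x y : R) : ‖V.τ (star x * y)‖ ^ 2 ≤ V.sq x * V.sq y := by
  have h := @InnerProductSpace.Core.inner_mul_inner_self_le ℂ R _ _ _ V.preCore x y
  change ‖V.τ (star x * y)‖ * ‖V.τ (star y * x)‖ ≤ V.sq x * V.sq y at h
  rwa [show V.τ (star y * x) = star (V.τ (star x * y)) by rw [← τ_star, star_mul, star_star],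
    norm_star, ← _root_.sq] at h

namespace Mover

theorem comm (g : V.Mover) (a : C(Ω, ℂ)) : g.u * V.ι a = V.ι (a.comp (g.T : C(Ω, Ω))) * g.u := by
  rw [← g.conj, mul_assoc, (Unitary.mem_iff.1 g.mem_unitary).1, mul_one]

variable (V) in
/-- The trivial mover. -/
noncomputable def one : V.Mover where
  u := 1
  mem_unitary := one_mem _
  T := Homeomorph.refl Ω
  conj a := by simp
  E_conj x := by simp

/-- The composition of two movers. -/
noncomputable def mul (g h : V.Mover) : V.Mover where
  u := g.u * h.u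
  mem_unitary := mul_mem g.mem_unitary h.mem_unitary
  T := g.T.trans h.T
  conj a := by
    rw [star_mul, show g.u * h.u * V.ι a * (star h.u * star g.u) =
      g.u * (h.u * V.ι a * star h.u) * star g.u by simp only [mul_assoc], h.conj, g.conj]
    rfl
  E_conj x := by
    rw [star_mul, show g.u * h.u * x * (star h.u * star g.u) =
      g.u * (h.u * x * star h.u) * star g.u by simp only [mul_assoc], g.E_conj, h.E_conj]
    rfl

theorem comp_symm (g : V.Mover) (a : C(Ω, ℂ)) :
    (a.comp (g.T.symm : C(Ω, Ω))).comp (g.T : C(Ω, Ω)) = a := by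
  ext ω; simp

/-- The inverse mover. -/
noncomputable def inv (g : V.Mover) : V.Mover where
  u := star g.u
  mem_unitary := Unitary.star_mem g.mem_unitary
  T := g.T.symm
  conj a := by
    have h := g.conj (a.comp (g.T.symm : C(Ω, Ω)))
    rw [comp_symm] at h
    rw [star_star, ← h]
    simp only [mul_assoc, (Unitary.mem_iff.1 g.mem_unitary).1, mul_one]
    rw [← mul_assoc, (Unitary.mem_iff.1 g.mem_unitary).1, one_mul]
  E_conj x := by
    have h := g.E_conj (star g.u * x * g.u)
    rw [show g.u * (star g.u * x * g.u) * star g.u = x by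
      simp only [mul_assoc, (Unitary.mem_iff.1 g.mem_unitary).2, mul_one]
      rw [← mul_assoc, (Unitary.mem_iff.1 g.mem_unitary).2, one_mul]] at h
    rw [star_star, h]
    ext ω; simp

end Mover

theorem isNSum_mover (a : C(Ω, ℂ)) (g : V.Mover) : V.IsNSum (V.ι a * g.u) :=
  ⟨1, fun _ => a, fun _ => g, by simp⟩

theorem isNSum_one : V.IsNSum 1 := by
  simpa [Mover.one] using isNSum_mover (V := V) 1 (Mover.one V)

theorem IsNSum.add {x y : R} (hx : V.IsNSum x) (hy : V.IsNSum y) : V.IsNSum (x + y) := by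
  obtain ⟨N, a, g, rfl⟩ := hx
  obtain ⟨N', a', g', rfl⟩ := hy
  exact ⟨N + N', Fin.append a a', Fin.append g g', by simp [Fin.sum_univ_add]⟩

theorem IsNSum.sum {κ : Type*} (s : Finset κ) {x : κ → R} (h : ∀ i ∈ s, V.IsNSum (x i)) :
    V.IsNSum (∑ i ∈ s, x i) := by
  classical
  induction s using Finset.induction with
  | empty => exact ⟨0, Fin.elim0, Fin.elim0, by simp⟩
  | insert i s hi ih =>
    rw [Finset.sum_insert hi]
    exact (h i (Finset.mem_insert_self i s)).add
      (ih fun j hj => h j (Finset.mem_insert_of_mem hj))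

theorem ι_mover_mul (a b : C(Ω, ℂ)) (g h : V.Mover) :
    V.ι a * g.u * (V.ι b * h.u) = V.ι (a * b.comp (g.T : C(Ω, Ω))) * (g.mul h).u := by
  change _ = _ * (g.u * h.u)
  rw [map_mul, mul_assoc, ← mul_assoc g.u, g.comm]
  simp only [mul_assoc]

theorem star_ι_mover (a : C(Ω, ℂ)) (g : V.Mover) :
    star (V.ι a * g.u) = V.ι ((star a).comp (g.T.symm : C(Ω, Ω))) * g.inv.u := by
  rw [star_mul, ← map_star]
  exact g.inv.comm (star a)

theorem IsNSum.mul {x y : R} (hx : V.IsNSum x) (hy : V.IsNSum y) : V.IsNSum (x * y) := by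
  obtain ⟨N, a, g, rfl⟩ := hx
  obtain ⟨N', a', g', rfl⟩ := hy
  rw [Finset.sum_mul]
  refine IsNSum.sum _ fun i _ => ?_
  rw [Finset.mul_sum]
  refine IsNSum.sum _ fun j _ => ?_
  rw [ι_mover_mul]
  exact isNSum_mover _ _

theorem IsNSum.star {x : R} (hx : V.IsNSum x) : V.IsNSum (star x) := by
  obtain ⟨N, a, g, rfl⟩ := hx
  rw [star_sum]
  refine IsNSum.sum _ fun i _ => ?_
  rw [star_ι_mover]
  exact isNSum_mover _ _

theorem orth_iff {x : R} :
    V.OrthNormaliser x ↔ ∀ n, V.IsNSum n → V.τ (Star.star n * x) = 0 := by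
  refine ⟨fun h n hn => ?_, fun h g a => h _ (isNSum_mover a g)⟩
  obtain ⟨N, a, g, rfl⟩ := hn
  rw [star_sum, Finset.sum_mul, V.τ_sum]
  exact Finset.sum_eq_zero fun i _ => h (g i) (a i)

theorem OrthNormaliser.τ_eq_zero {x : R} (hx : V.OrthNormaliser x) : V.τ x = 0 := by
  simpa using orth_iff.1 hx 1 isNSum_one

theorem OrthNormaliser.star {x : R} (hx : V.OrthNormaliser x) :
    V.OrthNormaliser (Star.star x) := by
  refine orth_iff.2 fun n hn => ?_
  rw [← star_mul, τ_star, τ_comm]
  have h := orth_iff.1 hx _ hn.star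
  rw [star_star] at h
  rw [h, star_zero]

theorem OrthNormaliser.nsum_mul {x m : R} (hx : V.OrthNormaliser x) (hm : V.IsNSum m) :
    V.OrthNormaliser (m * x) := by
  refine orth_iff.2 fun n hn => ?_
  rw [← mul_assoc, show Star.star n * m = Star.star (Star.star m * n) by rw [star_mul, star_star]]
  exact orth_iff.1 hx _ (hm.star.mul hn)

/-- An element of the 2-norm closure of the finite sums over the normaliser. -/
def InN (V : Env R Ω) (x : R) : Prop := ∀ η : ℝ, 0 < η → ∃ n, V.IsNSum n ∧ V.sq (x - n) ≤ η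

theorem OrthNormaliser.mul_inN {x m : R} (hx : V.OrthNormaliser x) (hm : V.InN m) :
    V.OrthNormaliser (x * m) := by
  refine orth_iff.2 fun n hn => ?_
  obtain ⟨C, hC⟩ : ∃ C, V.Bdd (Star.star (Star.star n * x)) C :=
    let ⟨C, h0, h⟩ := V.bounded (Star.star (Star.star n * x)); ⟨C, h0, h⟩
  have key : ∀ k, V.IsNSum k → V.τ (Star.star n * (x * k)) = 0 := by
    intro k hk
    rw [← mul_assoc, τ_comm, ← mul_assoc,
      show k * Star.star n = Star.star (n * Star.star k) by rw [star_mul, star_star]]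
    exact orth_iff.1 hx _ (hn.mul hk.star)
  by_contra hne
  have hpos : 0 < ‖V.τ (Star.star n * (x * m))‖ := norm_pos_iff.2 hne
  set A := V.sq (Star.star (Star.star n * x)) with hA
  have hA0 : 0 ≤ A := V.sq_nonneg _
  obtain ⟨k, hk, hsq⟩ := hm (‖V.τ (Star.star n * (x * m))‖ ^ 2 / (2 * (A + 1))) (by positivity)
  have h := norm_τ_sq_le (V := V) (Star.star (Star.star n * x)) (m - k)
  rw [star_star, mul_sub, τ_sub, mul_assoc, mul_assoc, key k hk, sub_zero] at h
  have h2 := h.trans (mul_le_mul_of_nonneg_left hsq hA0)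
  rw [mul_div_assoc', le_div_iff₀ (by positivity)] at h2
  nlinarith [mul_pos hpos hpos]

end Env

end Vale.Agent.P078.All
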