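import Vale.Agent.P078.All.Seeds

/-!
The compression statement: a random projection of mean `ρ`, read off the seeds, compresses an
element orthogonal to the normaliser to norm `2 √ρ` in every even moment.
-/

namespace Vale.Agent.P078.All

open scoped ComplexOrder

variable {Ω : Type} [TopologicalSpace Ω] [CompactSpace Ω] [T2Space Ω] [TotallyDisconnectedSpace Ω]
  {R : Type} [Ring R] [StarRing R] [Algebra ℂ R] [StarModule ℂ R]

namespace Env

variable (V : Env R Ω)

/-- Left multiplication by `x` has norm at most `C`. -/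
def Bdd (x : R) (C : ℝ) : Prop :=
  0 ≤ C ∧ ∀ y ω, V.E (star y * (star x * x) * y) ω ≤ (C : ℂ) ^ 2 * V.E (star y * y) ω

/-- A finite sum of elements `a * u` with `u` a normalising unitary. -/
def IsNSum (x : R) : Prop :=
  ∃ (N : ℕ) (a : Fin N → C(Ω, ℂ)) (g : Fin N → V.Mover), x = ∑ i, V.ι (a i) * (g i).u

/-- Every element splits into a bounded 2-norm limit of finite sums over the normaliser and a part
orthogonal to them. -/
def NormaliserSplit : Prop :=
  ∀ x : R, ∃ x₀ : R, V.OrthNormaliser (x - x₀) ∧ ∃ C : ℝ, ∀ η : ℝ, 0 < η →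
    ∃ n : R, V.IsNSum n ∧ V.Bdd n C ∧ V.sq (x₀ - n) ≤ η

end Env

/-- A projection of `ι C(Ω)` read off the decided seeds at finitely many translates. -/
structure SeedProj (V : Env R Ω) (S : Type) [Fintype S] where
  /-- The number of translates. -/
  M : ℕ
  /-- The translates. -/
  g : Fin M → V.Mover
  /-- The rule. -/
  rule : LocallyConstant Ω ((Fin M → S) → Bool)

namespace SeedProj

variable {V : Env R Ω} {S : Type} [Fintype S] [Nonempty S] (p : SeedProj V S)

/-- The indicator at a state; undecided points get an arbitrary seed. -/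
noncomputable def val (s : State Ω S) : C(Ω, ℂ) :=
  ⟨fun ω => if p.rule ω (fun j => (s ((p.g j).T ω)).getD (Classical.arbitrary S)) then 1 else 0,
    ((p.rule.isLocallyConstant.prodMk
      (IsLocallyConstant.iff_eventually_eq _ |>.2 fun ω => by
        have h : ∀ᶠ y in nhds ω, ∀ j, s ((p.g j).T y) = s ((p.g j).T ω) :=
          Filter.eventually_all.2 fun j => ((s.isLocallyConstant.comp_continuous
            (p.g j).T.continuous).eventually_eq ω)
        filter_upwards [h] with y hy
        funext j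
        simp only [hy j])).comp
      fun q : ((Fin p.M → S) → Bool) × (Fin p.M → S) =>
        if q.1 q.2 then (1 : ℂ) else 0).continuous⟩

open Classical in
/-- At every point the rule holds with probability `ρ` under independent uniform seeds at the
distinct translates. -/
def HasMean (ρ : ℝ) : Prop :=
  ∀ ω, (∑ π : Fin p.M → S with (∀ j k, (p.g j).T ω = (p.g k).T ω → π j = π k),
      if p.rule ω π then (1 : ℝ) else 0) =
    ρ * ({π : Fin p.M → S | ∀ j k, (p.g j).T ω = (p.g k).T ω → π j = π k} : Finset _).card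

end SeedProj

/-- The compression statement. -/
def CompressionStatement (V : Env R Ω) : Prop :=
  ∀ (S : Type) [Fintype S] [Nonempty S] (p : SeedProj V S) (ρ : ℝ), 0 ≤ ρ → p.HasMean ρ →
    ∀ (y : R) (C : ℝ), star y = y → V.OrthNormaliser y → V.Bdd y C →
    ∀ (k : ℕ), 0 < k → ∀ η : ℝ, 0 < η →
      ∃ T₀ : ℝ, 0 < T₀ ∧ ∀ T : ℝ, T₀ ≤ T → ∃ θ₀ : ℝ, 0 < θ₀ ∧ ∀ θ : ℝ, 0 < θ → θ < θ₀ → θ ≤ 1 →
        Ev ⌈T / θ⌉₊ fun Ps =>
          run θ Ps (fun s => (V.τ ((V.ι (p.val s) * y * V.ι (p.val s)) ^ (2 * k))).re)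
            (State.empty Ω S) ≤ ρ * (2 * C * Real.sqrt ρ) ^ (2 * k) + η

end Vale.Agent.P078.All
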