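import Vale.Agent.P078.All.StageTau

/-!
The mean change of the fibre mass of a product in one stage.
-/

namespace Vale.Agent.P078.All

open scoped ComplexOrder ComplexConjugate
open Moments

set_option linter.unusedSectionVars false
set_option linter.unusedSimpArgs false

variable {R : Type} [Ring R] [StarRing R] [Algebra ℂ R] [StarModule ℂ R]
  {Ω : Type} [TopologicalSpace Ω] [CompactSpace Ω] [T2Space Ω] [TotallyDisconnectedSpace Ω]

/-- Conjugation on the starred copies. -/
def copyConj (a : Fin 4) (z : ℂ) : ℂ := if a = 1 ∨ a = 3 then conj z else z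

theorem copyConj_copyConj (a : Fin 4) (z : ℂ) : copyConj a (copyConj a z) = z := by
  unfold copyConj; split_ifs <;> simp

theorem norm_copyConj (a : Fin 4) (z : ℂ) : ‖copyConj a z‖ = ‖z‖ := by
  unfold copyConj; split_ifs <;> simp

theorem copyConj_prod {I : Type*} (a : Fin 4) (s : Finset I) (f : I → ℂ) :
    copyConj a (∏ i ∈ s, f i) = ∏ i ∈ s, copyConj a (f i) := by
  unfold copyConj; split_ifs <;> simp

theorem copyConj_sgn (a : Fin 4) (b : Bool) : copyConj a (sgn b) = sgn b := by
  unfold copyConj; cases b <;> simp [sgn]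

namespace Env

variable (V : Env R Ω)

/-- The four-word form of a family. -/
noncomputable def quadF (P : Part Ω) (X : Fin 4 → R) : ℂ := V.quad P (X 0) (X 1) (X 2) (X 3)

theorem quad_sum_left {ι : Type*} [Fintype ι] (P : Part Ω) (κ : ι → ℂ) (Y : ι → R)
    (X₁ X₂ X₃ : R) :
    V.quad P (∑ c, κ c • Y c) X₁ X₂ X₃ = ∑ c, κ c * V.quad P (Y c) X₁ X₂ X₃ := by
  simp only [quad, Finset.mul_sum]
  rw [Finset.sum_comm]
  refine Finset.sum_congr rfl fun e _ => ?_
  simp only [Finset.sum_mul, map_sum, smul_mul_assoc, map_smul, smul_eq_mul]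

theorem quadF_update_sum {ι : Type*} [Fintype ι] (P : Part Ω) (X : Fin 4 → R) (a : Fin 4)
    (κ : ι → ℂ) (Y : ι → R) :
    V.quadF P (Function.update X a (∑ c, copyConj a (κ c) • Y c)) =
      ∑ c, κ c * V.quadF P (Function.update X a (Y c)) := by
  fin_cases a
  · simp [quadF, copyConj, quad_sum_left]
  · simp only [quadF, copyConj]
    simp
    rw [V.quad_conj P (∑ c, conj (κ c) • Y c) (X 0) (X 3) (X 2), quad_sum_left, map_sum]
    refine Finset.sum_congr rfl fun c _ => ?_
    rw [map_mul, Complex.conj_conj, ← quad_conj]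
  · simp only [quadF, copyConj]
    simp
    rw [← V.quad_swap P (X 0) (X 1), quad_sum_left]
    refine Finset.sum_congr rfl fun c _ => ?_
    rw [quad_swap]
  · simp only [quadF, copyConj]
    simp
    rw [← V.quad_swap P (X 0) (X 1), V.quad_conj P (∑ c, conj (κ c) • Y c) (X 2) (X 1) (X 0),
      quad_sum_left, map_sum]
    refine Finset.sum_congr rfl fun c _ => ?_
    rw [map_mul, Complex.conj_conj, ← quad_conj, quad_swap]

theorem norm_quadF_le {C : ℝ} {X : Fin 4 → R} (P : Part Ω) (a : Fin 4)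
    (h : ∀ b, b ≠ a → V.Bdd (star (X b)) C) :
    ‖V.quadF P X‖ ≤ C * C * C * Real.sqrt (V.sq (X a)) := by
  fin_cases a
  · exact V.norm_quad_le (h 1 (by decide)) (h 2 (by decide)) (h 3 (by decide)) P
  · rw [quadF, ← Complex.norm_conj, ← quad_conj]
    exact V.norm_quad_le (h 0 (by decide)) (h 3 (by decide)) (h 2 (by decide)) P
  · rw [quadF, ← quad_swap]
    exact V.norm_quad_le (h 3 (by decide)) (h 0 (by decide)) (h 1 (by decide)) P
  · rw [quadF, ← quad_swap, ← Complex.norm_conj, ← quad_conj]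
    exact V.norm_quad_le (h 2 (by decide)) (h 1 (by decide)) (h 0 (by decide)) P

theorem quadF_sum {ι : Type*} [Fintype ι] [DecidableEq ι] (P : Part Ω) (g : Fin 4 → ι → ℂ)
    (Y : Fin 4 → ι → R) :
    V.quadF P (fun a => ∑ c, copyConj a (g a c) • Y a c) =
      ∑ f : Fin 4 → ι, (∏ a, g a (f a)) * V.quadF P (fun a => Y a (f a)) := by
  have e : ∀ (v : Fin 4 → ι → ℂ) (a : Fin 4) (z : ι → ℂ),
      (fun b => ∑ c, copyConj b (Function.update v a z b c) • Y b c) =
        Function.update (fun b => ∑ c, copyConj b (v b c) • Y b c) a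
          (∑ c, copyConj a (z c) • Y a c) := by
    intro v a z
    funext b
    by_cases hb : b = a
    · subst hb; simp
    · simp [Function.update_of_ne hb]
  let Φ : MultilinearMap ℂ (fun _ : Fin 4 => ι → ℂ) ℂ :=
    { toFun := fun v => V.quadF P fun a => ∑ c, copyConj a (v a c) • Y a c
      map_update_add' := by
        intro inst v a x y
        obtain rfl : inst = instDecidableEqFin 4 := Subsingleton.elim _ _
        simp only [e, quadF_update_sum, Pi.add_apply, add_mul, Finset.sum_add_distrib]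
      map_update_smul' := by
        intro inst v a r x
        obtain rfl : inst = instDecidableEqFin 4 := Subsingleton.elim _ _
        simp only [e, quadF_update_sum, Pi.smul_apply, smul_eq_mul, mul_assoc,
          ← Finset.mul_sum] }
  have hΦ : ∀ v, Φ v = V.quadF P fun a => ∑ c, copyConj a (v a c) • Y a c := fun v => rfl
  have hg : ∀ a, ∑ c, g a c • (Pi.single c 1 : ι → ℂ) = g a := fun a => by
    funext d
    simp [Pi.single_apply]
  have h := Φ.map_sum fun a c => g a c • (Pi.single c 1 : ι → ℂ)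
  simp only [hg] at h
  rw [← hΦ]
  refine h.trans (Finset.sum_congr rfl fun f _ => ?_)
  rw [Φ.map_smul_univ, smul_eq_mul, hΦ]
  congr 2
  funext a
  rw [Finset.sum_eq_single (f a)]
  · simp [copyConj]
  · intro c _ hc
    simp [copyConj, hc]
  · simp

theorem gauss_le_of_bdd {x : R} {C : ℝ} (h : V.Bdd (star x) C) (P : Part Ω) :
    V.gauss P x ≤ C ^ 4 := by
  rw [gauss_eq, ← map_sum]
  refine le_trans (V.μR_mono (g := ContinuousMap.const Ω (C ^ 4)) fun ω => ?_)
    (le_of_eq (V.μR_const _))
  · simp only [ContinuousMap.sum_apply, ContinuousMap.mul_apply, ContinuousMap.const_apply]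
    have h0 := fun c => V.fib_ind_nonneg x P c ω
    have h1 := V.re_E_self_star_le h ω
    rw [← V.sum_fib x P ω] at h1
    calc ∑ c, V.fib x (P.ind c) ω * V.fib x (P.ind c) ω
        ≤ (∑ c, V.fib x (P.ind c) ω) ^ 2 := by
          simpa only [← pow_two] using Finset.sum_sq_le_sq_sum_of_nonneg fun c _ => h0 c
      _ ≤ (C ^ 2) ^ 2 := pow_le_pow_left₀ (Finset.sum_nonneg fun c _ => h0 c) h1 2
      _ = C ^ 4 := by ring

theorem absC_E_swap (x y : R) (P : Part Ω) (e : Fin P.n) :
    absC (V.E (x * V.proj P e * star y)) = absC (V.E (y * V.proj P e * star x)) := by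
  rw [← V.star_E_mul x y]
  ext ω
  simp

theorem norm_quad_le_sum (P : Part Ω) (X₀ X₁ X₂ X₃ : R) :
    ‖V.quad P X₀ X₁ X₂ X₃‖ ≤ ∑ d, V.μR (absC (V.E (X₀ * V.proj P d * star X₁)) *
      absC (V.E (X₂ * V.proj P d * star X₃))) := by
  refine (norm_sum_le _ _).trans (Finset.sum_le_sum fun d _ => (V.norm_μ_le _).trans (le_of_eq ?_))
  congr 1
  ext ω
  simp

/-- The bound of the four-word form by one word from each expectation. -/
theorem norm_quadF_le_cross (P : Part Ω) (X : Fin 4 → R) {u v : Fin 4} (hu : u = 0 ∨ u = 1)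
    (hv : v = 2 ∨ v = 3) :
    ‖V.quadF P X‖ ≤ ∑ d, V.μR (absC (V.E (X u * V.proj P d * star (X (if u = 0 then 1 else 0)))) *
      absC (V.E (X v * V.proj P d * star (X (if v = 2 then 3 else 2))))) := by
  refine (V.norm_quad_le_sum P _ _ _ _).trans (le_of_eq ?_)
  rcases hu with rfl | rfl <;> rcases hv with rfl | rfl <;>
    simp [V.absC_E_swap (X 1) (X 0), V.absC_E_swap (X 3) (X 2)]

end Env

variable {V : Env R Ω} {S : Type} [Fintype S] (b : ℕ → R) (q : ℕ → Mono V S) {n : ℕ}

/-- The four copies at values of their sites. -/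
noncomputable def copies (w : Fin 4 × Sites q n → C(Ω, ℂ)) (a : Fin 4) : R :=
  prodMap b q fun i => w (a, i)

/-- The values of one stage in the four copies. -/
noncomputable def slot4 (s : State Ω S) (P : Part Ω) (i : Fin 4 × Sites q n)
    (o : Option (Fin P.n)) : C(Ω, ℂ) :=
  slotVal (siteOf q i.2) s P o

/-- All suffixes give pinchings close to the expectations, relative to a fixed partition `e`. -/
def Pinch2OK (n : ℕ) (s : State Ω S) (η : ℝ) (e P : Part Ω) : Prop :=
  ∀ i j : Sites q n, ∀ d : Fin e.n,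
    V.sq (V.pinch P (star (siteOf q i).g.u *
        (chainVal (fun k => b (k + ((i.1 : ℕ) + 1))) (fun k => q (k + ((i.1 : ℕ) + 1))) s
            (n - ((i.1 : ℕ) + 1)) * V.proj e d *
          star (chainVal (fun k => b (k + ((j.1 : ℕ) + 1))) (fun k => q (k + ((j.1 : ℕ) + 1))) s
            (n - ((j.1 : ℕ) + 1)))) * (siteOf q j).g.u) -
      V.ι (V.E (star (siteOf q i).g.u *
        (chainVal (fun k => b (k + ((i.1 : ℕ) + 1))) (fun k => q (k + ((i.1 : ℕ) + 1))) s
            (n - ((i.1 : ℕ) + 1)) * V.proj e d *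
          star (chainVal (fun k => b (k + ((j.1 : ℕ) + 1))) (fun k => q (k + ((j.1 : ℕ) + 1))) s
            (n - ((j.1 : ℕ) + 1)))) * (siteOf q j).g.u))) ≤ η

/-- The translated stage partition nearly attains the fibre masses of the prefixes. -/
def PrefixOK (n : ℕ) (s : State Ω S) (η : ℝ) (P : Part Ω) : Prop :=
  ∀ i : Sites q n, V.gauss (P.move (siteOf q i).g.T) (chainVal b q s i.1) ≤
    V.gv (chainVal b q s i.1) + η

/-- A fixed partition nearly attains the fibre masses of the suffixes. -/
def SuffixOK (n : ℕ) (s : State Ω S) (η : ℝ) (e : Part Ω) : Prop :=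
  ∀ i : Sites q n, V.gauss e (chainVal (fun k => b (k + ((i.1 : ℕ) + 1)))
      (fun k => q (k + ((i.1 : ℕ) + 1))) s (n - ((i.1 : ℕ) + 1))) ≤
    V.gv (chainVal (fun k => b (k + ((i.1 : ℕ) + 1))) (fun k => q (k + ((i.1 : ℕ) + 1))) s
      (n - ((i.1 : ℕ) + 1))) + η

theorem sqrt_mul_sqrt_le {a a' g η M : ℝ} (hg : 0 ≤ g) (hη : 0 ≤ η) (hM : 0 ≤ M)
    (h : a ≤ g + η) (h' : a' ≤ M ^ 4) :
    Real.sqrt (Real.sqrt a * Real.sqrt a') ≤
      M * (Real.sqrt (Real.sqrt g) + Real.sqrt (Real.sqrt η)) := by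
  have sadd : ∀ {x y : ℝ}, 0 ≤ x → 0 ≤ y → Real.sqrt (x + y) ≤ Real.sqrt x + Real.sqrt y := by
    intro x y hx hy
    refine (Real.sqrt_le_left (by positivity)).2 ?_
    rw [add_sq, Real.sq_sqrt hx, Real.sq_sqrt hy]
    nlinarith [Real.sqrt_nonneg x, Real.sqrt_nonneg y]
  rw [Real.sqrt_mul (Real.sqrt_nonneg _), mul_comm M]
  refine mul_le_mul ?_ ?_ (Real.sqrt_nonneg _) (by positivity)
  · exact (Real.sqrt_le_sqrt ((Real.sqrt_le_sqrt h).trans (sadd hg hη))).trans
      (sadd (Real.sqrt_nonneg _) (Real.sqrt_nonneg _))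
  · refine (Real.sqrt_le_left hM).2 ((Real.sqrt_le_left (by positivity)).2 ?_)
    rwa [← pow_mul]

variable [DecidableEq (Sites q n)]

/-- The hypothesis giving the bounds of the intervals. -/
def ChainBd (n : ℕ) (C : ℝ) : Prop :=
  ∀ w : Sites q n → C(Ω, ℂ), (∀ i, SiteOK q i (w i)) → ∀ i l, i + l ≤ n →
    V.Bdd (V.seg (fun k => b (k + i)) (fun k => wval q w (k + i)) l) C ∧
    V.Bdd (star (V.seg (fun k => b (k + i)) (fun k => wval q w (k + i)) l)) C ∧
    (∀ k ω, ‖wval q w k ω‖ ≤ C)

variable {b q}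

theorem ChainBd.bdd_prod {C : ℝ} (hC : ChainBd b q n C) {w : Sites q n → C(Ω, ℂ)}
    (hw : ∀ i, SiteOK q i (w i)) : V.Bdd (star (prodMap b q w)) C := by
  simpa [prodMap_apply] using (hC w hw 0 n (by omega)).2.1

theorem ChainBd.bdd_chainVal {C : ℝ} (hC : ChainBd b q n C) (s : State Ω S) {i l : ℕ}
    (h : i + l ≤ n) :
    V.Bdd (star (chainVal (fun k => b (k + i)) (fun k => q (k + i)) s l)) C := by
  have := (hC (fun x => siteVal (siteOf q x) s) (fun x => good_siteVal q x s) i l h).2.1
  rwa [show V.seg (fun k => b (k + i)) (fun k => wval q (fun x : Sites q n =>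
      siteVal (siteOf q x) s) (k + i)) l = chainVal (fun k => b (k + i)) (fun k => q (k + i)) s l
    from Env.seg_congr fun k hk => wval_siteVal q s (by omega)] at this

/-- A product with one mark and no other change, split at the mark. -/
theorem prodMap_mark_pure {C : ℝ} (hC : ChainBd b q n C) {s : State Ω S} {w : Sites q n → C(Ω, ℂ)}
    {i : Sites q n} (hw : ∀ l, l ≠ i → w l = siteVal (siteOf q l) s)
    (hg : ∀ l, SiteOK q l (w l)) (P : Part Ω) :
    ∃ a : R, V.Bdd a C ∧ (∀ f : C(Ω, ℂ), a * V.ι f = V.ι f * a) ∧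
      V.Bdd (chainVal b q s i.1 * a) (C * C) ∧
      V.Bdd (a * chainVal (fun k => b (k + ((i.1 : ℕ) + 1))) (fun k => q (k + ((i.1 : ℕ) + 1))) s
        (n - ((i.1 : ℕ) + 1))) (C * C) ∧
      ∀ c : Fin P.n, prodMap b q (Function.update w i (slotVal (siteOf q i) s P (some c))) =
        chainVal b q s i.1 * a * V.ι (cellVal (siteOf q i) P c) *
          chainVal (fun k => b (k + ((i.1 : ℕ) + 1))) (fun k => q (k + ((i.1 : ℕ) + 1))) s
            (n - ((i.1 : ℕ) + 1)) := by
  have hi := i.1.2
  have hgu : ∀ l, SiteOK q l (Function.update w i (openVal (siteOf q i) s) l) := fun l => by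
    by_cases h : l = i
    · subst h; rw [Function.update_self]; exact good_openVal q l s
    · rw [Function.update_of_ne h]; exact hg l
  have hv : ∀ k, k < n → k ≠ (i.1 : ℕ) → wval q w k = (q k).val s := fun k hk hne =>
    wval_eq_val q hk fun l hl => hw l fun e => hne (by rw [← hl, e])
  have e1 : V.seg b (wval q w) i.1 = chainVal b q s i.1 :=
    Env.seg_congr fun k hk => hv k (by omega) (by omega)
  have e2 : V.seg (fun k => b (k + ((i.1 : ℕ) + 1))) (fun k => wval q w (k + ((i.1 : ℕ) + 1)))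
      (n - ((i.1 : ℕ) + 1)) = chainVal (fun k => b (k + ((i.1 : ℕ) + 1)))
      (fun k => q (k + ((i.1 : ℕ) + 1))) s (n - ((i.1 : ℕ) + 1)) :=
    Env.seg_congr fun k hk => hv _ (by omega) (by omega)
  have hC0 : 0 ≤ C := (hC w hg 0 0 (Nat.zero_le _)).1.1
  have ha : V.Bdd (V.ι (wval q (Function.update w i (openVal (siteOf q i) s)) i.1)) C :=
    V.bdd_ι hC0 ((hC _ hgu 0 0 (Nat.zero_le _)).2.2 _)
  refine ⟨_, ha, fun f => by rw [← map_mul, ← map_mul, mul_comm], ?_, ?_, fun c => ?_⟩
  · rw [← e1]
    exact Env.Bdd.mul (by simpa using (hC w hg 0 i.1 (by omega)).1) ha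
  · rw [← e2]
    exact Env.Bdd.mul ha (hC w hg _ _ (by omega)).1
  · rw [prodMap_mark, e1, e2]

/-- Two marks in one copy. -/
theorem quad_pair_le {C η : ℝ} (hC : ChainBd b q n C) {s : State Ω S} {P : Part Ω}
    (hP : PinchOK b q n s η P) (e : Part Ω) (a : Fin 4) {i j : Sites q n}
    (hij : (i.1 : ℕ) < j.1) {w : Fin 4 × Sites q n → C(Ω, ℂ)}
    (hw : ∀ x : Fin 4 × Sites q n, SiteOK q x.2 (w x))
    (hmid : ∀ l : Sites q n, (i.1 : ℕ) < l.1 → (l.1 : ℕ) < j.1 → w (a, l) = siteVal (siteOf q l) s)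
    {κ : Fin P.n → ℂ} (hκ : ∀ c, ‖κ c‖ ≤ 1) :
    ‖∑ c, κ c * V.quadF e (copies b q (Finset.piecewise {(a, i), (a, j)}
        (fun x => slot4 q s P x (some c)) w))‖ ≤
      C * C * C * (C ^ 4 * (Real.sqrt η + smallG b q n s)) := by
  have hX : ∀ c, copies b q (Finset.piecewise {(a, i), (a, j)}
      (fun x => slot4 q s P x (some c)) w) = Function.update (copies b q w) a (prodMap b q
        (Finset.piecewise {i, j} (fun l => slotVal (siteOf q l) s P (some c))
          fun l => w (a, l))) := by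
    intro c
    funext b'
    by_cases hb : b' = a
    · subst hb
      rw [Function.update_self, copies]
      congr 1
      funext l
      by_cases hl : l ∈ ({i, j} : Finset (Sites q n))
      · rw [Finset.piecewise_eq_of_mem _ _ _ hl, Finset.piecewise_eq_of_mem _ _ _
          (by simpa using hl)]
        rfl
      · rw [Finset.piecewise_eq_of_notMem _ _ _ hl, Finset.piecewise_eq_of_notMem _ _ _
          (by simpa using hl)]
    · rw [Function.update_of_ne hb, copies, copies]
      congr 1
      funext l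
      rw [Finset.piecewise_eq_of_notMem _ _ _ (by simp [hb])]
  simp only [hX]
  rw [← V.quadF_update_sum]
  refine (V.norm_quadF_le (C := C) e a fun b' hb => ?_).trans ?_
  · rw [Function.update_of_ne hb]
    exact hC.bdd_prod fun l => hw (b', l)
  · rw [Function.update_self]
    have hC0 : 0 ≤ C := (hC.bdd_prod fun l => hw (a, l)).1
    refine mul_le_mul_of_nonneg_left ?_ (mul_nonneg (mul_nonneg hC0 hC0) hC0)
    refine (sqrt_sq_sum_pair_le hC hP hij (fun l => hw (a, l)) hmid fun c => ?_).trans ?_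
    · rw [norm_copyConj]; exact hκ c
    · refine mul_le_mul_of_nonneg_left (add_le_add le_rfl ?_) (by positivity)
      have := j.1.2
      exact le_smallG b q s (by omega) (by omega)

/-- One mark in each word of one expectation. -/
theorem quad_opposite_le {C η η' : ℝ} (hC : ChainBd b q n C) (hη' : 0 ≤ η') {s : State Ω S}
    {e P : Part Ω} (hP : Pinch2OK b q n s η e P) (he : SuffixOK b q n s η' e) {i j : Sites q n}
    {w₀ w₁ : Sites q n → C(Ω, ℂ)} (h₀ : ∀ l, l ≠ i → w₀ l = siteVal (siteOf q l) s)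
    (h₁ : ∀ l, l ≠ j → w₁ l = siteVal (siteOf q l) s) (g₀ : ∀ l, SiteOK q l (w₀ l))
    (g₁ : ∀ l, SiteOK q l (w₁ l)) {X₂ X₃ : R} (h₂ : V.Bdd (star X₂) C) (h₃ : V.Bdd (star X₃) C)
    {κ : Fin P.n → ℂ} (hκ : ∀ c, ‖κ c‖ ≤ 1) :
    ‖∑ c, κ c * V.quad e (prodMap b q (Function.update w₀ i (slotVal (siteOf q i) s P (some c))))
        (prodMap b q (Function.update w₁ j (slotVal (siteOf q j) s P (some c)))) X₂ X₃‖ ≤
      C * C * (C * C) * (C * C) *
        (e.n * Real.sqrt η + C * (smallG b q n s + Real.sqrt (Real.sqrt η'))) := by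
  obtain ⟨a, -, -, hL, -, ea⟩ := prodMap_mark_pure hC h₀ g₀ P
  obtain ⟨a', -, -, hL', -, ea'⟩ := prodMap_mark_pure hC h₁ g₁ P
  have hC0 : 0 ≤ C := h₂.1
  simp only [ea, ea']
  refine (V.opposite_le (siteOf q i).g (siteOf q j).g zero_le_one hκ hL hL' h₂ h₃
    (hP i j)).trans ?_
  rw [mul_one]
  refine mul_le_mul_of_nonneg_left (add_le_add le_rfl ?_) (by positivity)
  have := i.1.2
  have := j.1.2
  refine (sqrt_mul_sqrt_le (V.gv_nonneg _) hη' hC0 (he i)
    (V.gauss_le_of_bdd (hC.bdd_chainVal s (by omega)) e)).trans ?_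
  exact mul_le_mul_of_nonneg_left (add_le_add (le_smallG b q s (by omega) (by omega)) le_rfl) hC0

/-- One mark in each expectation. -/
theorem quad_cross_le {C η : ℝ} (hC : ChainBd b q n C) (hη : 0 ≤ η) {s : State Ω S}
    {e P : Part Ω} (hP : PrefixOK b q n s η P) {i j : Sites q n}
    {w₀ w₁ : Sites q n → C(Ω, ℂ)} (h₀ : ∀ l, l ≠ i → w₀ l = siteVal (siteOf q l) s)
    (h₁ : ∀ l, l ≠ j → w₁ l = siteVal (siteOf q l) s) (g₀ : ∀ l, SiteOK q l (w₀ l))
    (g₁ : ∀ l, SiteOK q l (w₁ l)) {Y₀ Y₁ : R} (k₀ : V.Bdd (star Y₀) C) (k₁ : V.Bdd (star Y₁) C) :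
    ∑ c, ∑ d, V.μR
      (Env.absC (V.E (prodMap b q (Function.update w₀ i (slotVal (siteOf q i) s P (some c))) *
          V.proj e d * star Y₀)) *
        Env.absC (V.E (prodMap b q (Function.update w₁ j (slotVal (siteOf q j) s P (some c))) *
          V.proj e d * star Y₁))) ≤
      C * C * C * (C * C * C) * (C * (smallG b q n s + Real.sqrt (Real.sqrt η))) := by
  obtain ⟨a, -, hac, -, hW, ea⟩ := prodMap_mark_pure hC h₀ g₀ P
  obtain ⟨a', -, hac', -, hW', ea'⟩ := prodMap_mark_pure hC h₁ g₁ P
  have hC0 : 0 ≤ C := k₀.1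
  simp only [ea, ea', mul_assoc (chainVal b q s _) a, mul_assoc (chainVal b q s _) a', hac, hac']
  simp only [← mul_assoc]
  have h := V.cross_le (P := P) (e := e) (L := chainVal b q s i.1) (L' := chainVal b q s j.1)
    (siteOf q i).g.T (siteOf q j).g.T hW hW' k₀ k₁
  simp only [← mul_assoc] at h
  refine le_trans h ?_
  rw [mul_assoc _ C (_ + _)]
  refine mul_le_mul_of_nonneg_left
    ((sqrt_mul_sqrt_le (V.gv_nonneg _) hη hC0 (hP i)
      (V.gauss_le_of_bdd ?_ _)).trans ?_) (by positivity)
  · simpa using hC.bdd_chainVal s (i := 0) (l := (j.1 : ℕ)) (by omega)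
  · refine mul_le_mul_of_nonneg_left (add_le_add ?_ le_rfl) hC0
    simpa using le_smallG b q (m := n) s (i := 0) i.1.2 (by omega)

omit [DecidableEq (Sites q n)] in
variable (b q) in
/-- The mean fibre mass grows by the fibre masses of shorter intervals times `θ`, up to `θ²`. -/
theorem gv_stage_le [Nonempty S] (hD : V.DiagonalLimit) (n : ℕ) :
    ∃ K : ℝ, 0 ≤ K ∧ ∀ θ : ℝ, 0 ≤ θ → θ ≤ 1 → ∀ s : State Ω S, ∀ δ : ℝ, 0 < δ →
      Part.Fine fun P =>
        avg θ P (fun x => V.gv (chainVal b q (s.next P x) n)) ≤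
          V.gv (chainVal b q s n) + K * (θ * (smallG b q n s + δ) + θ ^ 2) + δ := by
  classical
  obtain ⟨C, hC1, hC⟩ := exists_chain_bd b q n
  have hC' : ChainBd b q n C := hC
  set h : Fin 4 × Sites q n → S → ℂ := fun x σ => copyConj x.1 ((siteOf q x.2).h σ)
  have hC0 : (0 : ℝ) ≤ C := zero_le_one.trans hC1
  set K₀ : ℝ := C ^ 7 * 4
  refine ⟨momBd h * (2 ^ Fintype.card (Fin 4 × Sites q n)) * K₀ + quadBd h * C ^ 4,
    add_nonneg (mul_nonneg (mul_nonneg (zero_le_one.trans (one_le_momBd h)) (by positivity))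
      (by positivity)) (mul_nonneg (quadBd_nonneg h) (by positivity)), fun θ h0 h1 s δ hδ => ?_⟩
  obtain ⟨e, he0, hes⟩ : ∃ e : Part Ω, V.gauss e (chainVal b q s n) ≤ V.gv (chainVal b q s n) + δ ∧
      SuffixOK b q n s (min (δ ^ 4) 1) e :=
    (((V.fine_gauss_le _ hδ)).and (Part.Fine.forall fun i : Sites q n =>
      V.fine_gauss_le _ (lt_min (pow_pos hδ 4) one_pos))).exists
  set η : ℝ := min (min (δ ^ 4) 1) ((δ / (e.n + 1)) ^ 2) with hη
  have hη0 : 0 < η := lt_min (lt_min (pow_pos hδ 4) one_pos) (by positivity)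
  have hη4 : Real.sqrt (Real.sqrt η) ≤ δ := by
    refine (Real.sqrt_le_left hδ.le).2 ((Real.sqrt_le_left (by positivity)).2 ?_)
    rw [← pow_mul]
    exact (min_le_left _ _).trans (min_le_left _ _)
  have hηe : e.n * Real.sqrt η ≤ δ := by
    have h1 : Real.sqrt η ≤ δ / (e.n + 1) :=
      (Real.sqrt_le_left (by positivity)).2 (min_le_right _ _)
    calc (e.n : ℝ) * Real.sqrt η ≤ e.n * (δ / (e.n + 1)) :=
          mul_le_mul_of_nonneg_left h1 (Nat.cast_nonneg _)
      _ ≤ δ := by
        rw [mul_div_assoc', div_le_iff₀ (by positivity)]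
        nlinarith
  have hη4' : Real.sqrt (Real.sqrt (min (δ ^ 4) 1)) ≤ δ := by
    refine (Real.sqrt_le_left hδ.le).2 ((Real.sqrt_le_left (by positivity)).2 ?_)
    rw [← pow_mul]
    exact min_le_left _ _
  have hη2 : Real.sqrt η ≤ δ := by
    have h1 : Real.sqrt η ≤ δ / (e.n + 1) :=
      (Real.sqrt_le_left (by positivity)).2 (min_le_right _ _)
    exact h1.trans (div_le_self hδ.le (le_add_of_nonneg_left (Nat.cast_nonneg _)))
  have f1 : Part.Fine (Pinch2OK b q n s η e) :=
    Part.Fine.forall fun _ => Part.Fine.forall fun _ => Part.Fine.forall fun _ => hD _ η hη0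
  have f2 : Part.Fine (PrefixOK b q n s η) :=
    Part.Fine.forall fun i => (V.fine_gauss_le _ hη0).move _
  refine ((((fine_separates q n).and (fine_pinchOK b q hD n s hη0)).and f1).and f2).mono
    fun P hP => ?_
  obtain ⟨⟨⟨hsep, hpin⟩, hpin2⟩, hpre⟩ := hP
  set Φ : (Fin 4 × Sites q n → C(Ω, ℂ)) → ℂ := fun w => V.quadF e (copies b q w)
  set A : (Fin 4 × Sites q n → Option (Fin P.n)) → ℂ := fun r =>
    Φ fun x => slot4 q s P x (r x)
  have hexp : ∀ z : Fin 4 × Sites q n → Option (Fin P.n) → ℂ,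
      ∑ r, A r * ∏ x, z x (r x) = V.quadF e fun a => prodMap b q fun i =>
        ∑ o, copyConj a (z (a, i) o) • slotVal (siteOf q i) s P o := by
    intro z
    have e1 : ∀ a, prodMap b q (fun i => ∑ o, copyConj a (z (a, i) o) • slotVal (siteOf q i) s P o) =
        ∑ r : Sites q n → Option (Fin P.n), copyConj a (∏ i, z (a, i) (r i)) •
          prodMap b q fun i => slotVal (siteOf q i) s P (r i) := by
      intro a
      rw [MultilinearMap.map_sum]
      refine Finset.sum_congr rfl fun r _ => ?_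
      rw [MultilinearMap.map_smul_univ, copyConj_prod]
    simp only [e1]
    rw [V.quadF_sum]
    refine Fintype.sum_equiv (Equiv.curry _ _ _) _ _ fun r => ?_
    rw [mul_comm, Fintype.prod_prod_type]
    rfl
  have hnext : ∀ x, V.quadF e (fun _ => chainVal b q (s.next P x) n) =
      ∑ r, (∏ y, (r y).elim 1 fun c => (x c).elim 0 (h y)) * A r := fun x => by
    simp only [mul_comm _ (A _)]
    rw [hexp fun y o => o.elim 1 fun c => (x c).elim 0 (h y)]
    congr 1
    funext a
    rw [← prodMap_siteVal b q]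
    simp only [siteVal_next]
    congr 1
    funext i
    refine Finset.sum_congr rfl fun o _ => ?_
    congr 1
    rcases o with _ | c
    · simp [copyConj]
    · rcases hxc : x c with _ | σ
      · simp [hxc, copyConj]
      · simp [h, hxc, copyConj_copyConj]
  have hnone : A (fun _ => none) = V.quadF e fun _ => chainVal b q s n := by
    simp only [A, Φ, slot4, slotVal]
    congr 1
    funext a
    exact prodMap_siteVal b q s
  have hA : Bounded A (C ^ 4) := by
    intro z hz
    rw [hexp]
    have hg : ∀ a (i : Sites q n),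
        SiteOK q i (∑ o, copyConj a (z (a, i) o) • slotVal (siteOf q i) s P o) :=
      fun a i => good_sum_slotVal q i s P fun o => (norm_copyConj a _).trans_le (hz _ o)
    refine (V.norm_quadF_le (C := C) e 0 fun a _ => hC'.bdd_prod (hg a)).trans ?_
    rw [show C ^ 4 = C * C * C * C by ring]
    refine mul_le_mul_of_nonneg_left (V.sqrt_sq_le_of_bdd ?_) (by positivity)
    simpa [prodMap_apply] using (hC _ (hg 0) 0 n (by omega)).1
  have hJ : ∀ J : Finset (Fin 4 × Sites q n), 2 ≤ J.card →
      ‖∑ c, A (cst J c)‖ ≤ K₀ * (δ + smallG b q n s) := by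
    intro J hJ2
    have hsm := smallG_nonneg b q n s
    have hb0 : 0 ≤ K₀ * (δ + smallG b q n s) :=
      mul_nonneg (by positivity) (add_nonneg hδ.le hsm)
    have hAc : ∀ c, A (cst J c) = Φ (J.piecewise (fun x => slot4 q s P x (some c))
        fun x => siteVal (siteOf q x.2) s) := fun c => by
      simp only [A]
      rw [cst_slot J c fun x o => slot4 q s P x o]
      rfl
    have hC67 : C ^ 6 ≤ C ^ 7 := pow_le_pow_right₀ hC1 (by omega)
    have hlin : ∀ (w : Fin 4 × Sites q n → C(Ω, ℂ)) (x : Fin 4 × Sites q n)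
        (ε : Fin P.n → Bool),
        Φ (Function.update w x (∑ d, sgn (ε d) • slot4 q s P x (some d))) =
          ∑ d, sgn (ε d) * Φ (Function.update w x (slot4 q s P x (some d))) := by
      intro w x ε
      obtain ⟨a, l⟩ := x
      have e2 : ∀ v, copies b q (Function.update w (a, l) v) = Function.update (copies b q w) a
          (prodMap b q (Function.update (fun i => w (a, i)) l v)) := by
        intro v
        funext b'
        by_cases hb : b' = a
        · subst hb
          rw [Function.update_self, copies]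
          congr 1
          funext i
          by_cases hi : i = l
          · subst hi; simp
          · rw [Function.update_of_ne hi, Function.update_of_ne (by simp [hi])]
        · rw [Function.update_of_ne hb, copies, copies]
          congr 1
          funext i
          rw [Function.update_of_ne (by simp [hb])]
      simp only [Φ, e2, MultilinearMap.map_update_sum, MultilinearMap.map_update_smul]
      rw [← V.quadF_update_sum]
      simp [copyConj_sgn]
    have hred := fun J' : Finset (Fin 4 × Sites q n) => norm_sum_piecewise_le (J' := J') (β := K₀ * (δ + smallG b q n s)) Φ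
      (fun x d => slot4 q s P x (some d)) (fun x v => SiteOK q x.2 v) hlin
      (fun x ε => good_sum_sgn q x.2 s P ε) (w₀ := fun x => siteVal (siteOf q x.2) s)
    simp only [hAc]
    by_cases hsame : ∃ x ∈ J, ∃ y ∈ J, x ≠ y ∧ x.1 = y.1 ∧ x.2.1 = y.2.1
    · obtain ⟨⟨a, i⟩, hi, ⟨a', j⟩, hj, hij, ha, hk⟩ := hsame
      obtain rfl : a = a' := ha
      rw [Finset.sum_eq_zero fun c _ => ?_, norm_zero]
      · exact hb0
      · have hne : i ≠ j := fun e => hij (by rw [e])
        have hz : copies b q (J.piecewise (fun x => slot4 q s P x (some c))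
            fun x => siteVal (siteOf q x.2) s) a = 0 :=
          prodMap_eq_zero b q hsep hne hk (Finset.piecewise_eq_of_mem _ _ _ hi)
            (Finset.piecewise_eq_of_mem _ _ _ hj)
        have h0' := V.norm_quadF_le (C := C) (X := copies b q (J.piecewise
          (fun x => slot4 q s P x (some c)) fun x => siteVal (siteOf q x.2) s)) e a fun a' _ =>
          hC'.bdd_prod fun l => by
            simp only [Finset.piecewise]
            split_ifs
            · simpa [slot4, Fintype.sum_option] using good_sum_slotVal q l s P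
                (a := fun o => if o = some c then 1 else 0)
                (fun o => by split_ifs <;> simp)
            · exact good_siteVal q l s
        rw [hz] at h0'
        have : V.sq (0 : R) = 0 := by simp [Env.sq, Env.τ]
        rw [this, Real.sqrt_zero, mul_zero] at h0'
        exact norm_le_zero_iff.1 h0'
    push Not at hsame
    by_cases hpair : ∃ x ∈ J, ∃ y ∈ J, x ≠ y ∧ x.1 = y.1
    · obtain ⟨⟨a, i₁⟩, hi₁, ⟨a', i₂⟩, hi₂, hne12, ha⟩ := hpair
      obtain rfl : a = a' := ha
      set Ja := J.filter fun x => x.1 = a with hJa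
      have h1a : (a, i₁) ∈ Ja := by simp [hJa, hi₁]
      have h2a : (a, i₂) ∈ Ja := by simp [hJa, hi₂]
      obtain ⟨⟨a₁, i⟩, hxi, hmin⟩ :=
        Finset.exists_min_image Ja (fun x => (x.2.1 : ℕ)) ⟨_, h1a⟩
      obtain ⟨hiJ, ha₁⟩ := Finset.mem_filter.1 hxi
      subst ha₁
      obtain ⟨⟨a₂, j⟩, hxj, hmin'⟩ := Finset.exists_min_image (Ja.erase (a₁, i))
        (fun x => (x.2.1 : ℕ)) (by
          rcases eq_or_ne (a₁, i₁) (a₁, i) with h | h
          · exact ⟨(a₁, i₂), Finset.mem_erase.2 ⟨fun e => hne12 (h.trans e.symm), h2a⟩⟩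
          · exact ⟨(a₁, i₁), Finset.mem_erase.2 ⟨h, h1a⟩⟩)
      obtain ⟨hji, hxj'⟩ := Finset.mem_erase.1 hxj
      obtain ⟨hjJ, ha₂⟩ := Finset.mem_filter.1 hxj'
      subst ha₂
      have hlt : (i.1 : ℕ) < j.1 :=
        lt_of_le_of_ne (hmin _ hxj') fun e => hsame _ hiJ _ hjJ (Ne.symm hji) rfl (Fin.ext e)
      refine hred {(a₂, i), (a₂, j)} (fun x => good_siteVal q x.2 s) J
        (by simp [Finset.insert_subset_iff, hiJ, hjJ]) fun w hw1 hw2 κ hκ => ?_
      refine (quad_pair_le hC' hpin e a₂ hlt hw2 (fun l h1 h2 => hw1 _ fun hl => ?_) hκ).trans ?_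
      · have := hmin' (a₂, l) (Finset.mem_erase.2 ⟨fun e => absurd
          (congrArg (fun x : Fin 4 × Sites q n => (x.2.1 : ℕ)) e) (by simp only; omega),
          by simp [hJa, hl]⟩)
        simp only at this
        omega
      · rw [show C * C * C * (C ^ 4 * (Real.sqrt η + smallG b q n s)) =
          C ^ 7 * (Real.sqrt η + smallG b q n s) by ring]
        simp only [K₀]
        nlinarith [mul_nonneg (pow_nonneg hC0 7) (add_nonneg hδ.le hsm),
          mul_le_mul_of_nonneg_left hη2 (pow_nonneg hC0 7)]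
    push Not at hpair
    have honly : ∀ {a : Fin 4} {i l : Sites q n}, (a, i) ∈ J → l ≠ i → (a, l) ∉ J :=
      fun hi hl hlJ => hpair _ hlJ _ hi (fun e => hl (Prod.ext_iff.1 e).2) rfl
    have hwsite : ∀ {w : Fin 4 × Sites q n → C(Ω, ℂ)} {a : Fin 4} {i : Sites q n},
        (∀ x, x ∉ J → w x = siteVal (siteOf q x.2) s) → (a, i) ∈ J →
        ∀ l, l ≠ i → w (a, l) = siteVal (siteOf q l) s :=
      fun hw hi l hl => hw _ (honly hi hl)
    have hmark : ∀ (J' : Finset (Fin 4 × Sites q n)) (w : Fin 4 × Sites q n → C(Ω, ℂ)) (c : Fin P.n)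
        {a : Fin 4} {i : Sites q n}, (a, i) ∈ J' → (∀ l, (a, l) ∈ J' → l = i) →
        copies b q (J'.piecewise (fun x => slot4 q s P x (some c)) w) a =
          prodMap b q (Function.update (fun l => w (a, l)) i
            (slotVal (siteOf q i) s P (some c))) := by
      intro J' w c a i hi honly'
      rw [copies]
      congr 1
      funext l
      by_cases hl : l = i
      · subst hl
        rw [Finset.piecewise_eq_of_mem _ _ _ hi, Function.update_self]
        rfl
      · rw [Finset.piecewise_eq_of_notMem _ _ _ fun h => hl (honly' l h), Function.update_of_ne hl]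
    have hfree : ∀ (J' : Finset (Fin 4 × Sites q n)) (w : Fin 4 × Sites q n → C(Ω, ℂ)) (c : Fin P.n)
        {a : Fin 4}, (∀ l, (a, l) ∉ J') →
        copies b q (J'.piecewise (fun x => slot4 q s P x (some c)) w) a = copies b q w a := by
      intro J' w c a ha
      rw [copies, copies]
      congr 1
      funext l
      rw [Finset.piecewise_eq_of_notMem _ _ _ (ha l)]
    have hg4 : ∀ {w : Fin 4 × Sites q n → C(Ω, ℂ)}, (∀ x, SiteOK q x.2 (w x)) →
        ∀ a, V.Bdd (star (copies b q w a)) C := fun hw a => hC'.bdd_prod fun l => hw (a, l)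
    have hK1 : C * C * (C * C) * (C * C) * (δ + C * (smallG b q n s + δ)) ≤
        K₀ * (δ + smallG b q n s) := by
      rw [show C * C * (C * C) * (C * C) * (δ + C * (smallG b q n s + δ)) =
        C ^ 6 * δ + C ^ 7 * (smallG b q n s + δ) by ring]
      simp only [K₀]
      nlinarith [mul_le_mul_of_nonneg_right hC67 hδ.le,
        mul_nonneg (pow_nonneg hC0 7) (add_nonneg hδ.le hsm)]
    have hmk : ∀ {u v : Fin 4} {i j : Sites q n} (w : Fin 4 × Sites q n → C(Ω, ℂ)) (c : Fin P.n),
        u ≠ v →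
        copies b q (Finset.piecewise {(u, i), (v, j)} (fun x => slot4 q s P x (some c)) w) u =
            prodMap b q (Function.update (fun l => w (u, l)) i
              (slotVal (siteOf q i) s P (some c))) ∧
          copies b q (Finset.piecewise {(u, i), (v, j)} (fun x => slot4 q s P x (some c)) w) v =
            prodMap b q (Function.update (fun l => w (v, l)) j
              (slotVal (siteOf q j) s P (some c))) ∧
          ∀ a, a ≠ u → a ≠ v →
            copies b q (Finset.piecewise {(u, i), (v, j)} (fun x => slot4 q s P x (some c)) w) a =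
              copies b q w a := by
      intro u v i j w c huv
      refine ⟨hmark _ w c (by simp) fun l hl => ?_, hmark _ w c (by simp) fun l hl => ?_,
        fun a hu hv => hfree _ w c fun l hl => ?_⟩
      · simpa [huv] using hl
      · simpa [Ne.symm huv] using hl
      · simp [hu, hv] at hl
    obtain ⟨⟨a₁, i₁⟩, hx, ⟨a₂, i₂⟩, hy, hxy⟩ := Finset.one_lt_card.1 hJ2
    have hne : a₁ ≠ a₂ := hpair _ hx _ hy hxy
    by_cases hcross : ∃ u v : Fin 4, (u = 0 ∨ u = 1) ∧ (v = 2 ∨ v = 3) ∧
        ∃ i j, (u, i) ∈ J ∧ (v, j) ∈ J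
    · obtain ⟨u, v, hu, hv, i, j, hui, hvj⟩ := hcross
      have huv : u ≠ v := by rcases hu with rfl | rfl <;> rcases hv with rfl | rfl <;> decide
      refine hred {(u, i), (v, j)} (fun x => good_siteVal q x.2 s) J
        (by simp [Finset.insert_subset_iff, hui, hvj]) fun w hw1 hw2 κ hκ => ?_
      have hu' : (if u = 0 then (1 : Fin 4) else 0) ≠ u ∧
          (if u = 0 then (1 : Fin 4) else 0) ≠ v := by
        rcases hu with rfl | rfl <;> rcases hv with rfl | rfl <;> decide
      have hv' : (if v = 2 then (3 : Fin 4) else 2) ≠ u ∧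
          (if v = 2 then (3 : Fin 4) else 2) ≠ v := by
        rcases hu with rfl | rfl <;> rcases hv with rfl | rfl <;> decide
      refine ((norm_sum_le _ _).trans (Finset.sum_le_sum fun c _ => ?_)).trans
        ((quad_cross_le (C := C) (e := e) hC' hη0.le hpre (i := i) (j := j)
          (w₀ := fun l => w (u, l)) (w₁ := fun l => w (v, l))
          (hwsite hw1 hui) (hwsite hw1 hvj) (fun l => hw2 (u, l)) (fun l => hw2 (v, l))
          (hg4 hw2 (if u = 0 then 1 else 0)) (hg4 hw2 (if v = 2 then 3 else 2))).trans ?_)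
      · rw [norm_mul]
        refine (mul_le_of_le_one_left (norm_nonneg _) (hκ c)).trans
          ((V.norm_quadF_le_cross e _ hu hv).trans (le_of_eq ?_))
        obtain ⟨e1, e2, e3⟩ := hmk (i := i) (j := j) w c huv
        simp only [e1, e2, e3 _ hu'.1 hu'.2, e3 _ hv'.1 hv'.2]
      · refine le_trans ?_ hK1
        have : C * C * C * (C * C * C) = C * C * (C * C) * (C * C) := by ring
        rw [this]
        refine mul_le_mul_of_nonneg_left ?_ (by positivity)
        exact (mul_le_mul_of_nonneg_left (add_le_add le_rfl hη4) hC0).trans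
          (le_add_of_nonneg_left hδ.le)
    · -- both words of the first, or of the second, expectation
      obtain ⟨u, v, i, j, hui, hvj, huv⟩ : ∃ (u v : Fin 4) (i j : Sites q n),
          (u, i) ∈ J ∧ (v, j) ∈ J ∧ (u = 0 ∧ v = 1 ∨ u = 2 ∧ v = 3) := by
        push Not at hcross
        fin_cases a₁ <;> fin_cases a₂ <;> first
          | exact absurd rfl hne
          | (refine ⟨_, _, _, _, hx, hy, ?_⟩; simp; done)
          | (refine ⟨_, _, _, _, hy, hx, ?_⟩; simp; done)
          | (have := fun p p' => hcross _ _ p p' _ _ hx hy; simp at this; done)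
          | (have := fun p p' => hcross _ _ p p' _ _ hy hx; simp at this; done)
      refine hred {(u, i), (v, j)} (fun x => good_siteVal q x.2 s) J
        (by simp [Finset.insert_subset_iff, hui, hvj]) fun w hw1 hw2 κ hκ => ?_
      have main : ∀ X₂ X₃ : R, V.Bdd (star X₂) C → V.Bdd (star X₃) C →
          ‖∑ c, κ c * V.quad e
            (prodMap b q (Function.update (fun l => w (u, l)) i
              (slotVal (siteOf q i) s P (some c))))
            (prodMap b q (Function.update (fun l => w (v, l)) j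
              (slotVal (siteOf q j) s P (some c)))) X₂ X₃‖ ≤ K₀ * (δ + smallG b q n s) :=
        fun X₂ X₃ h₂ h₃ => (quad_opposite_le hC' (le_min (pow_nonneg hδ.le 4) zero_le_one) hpin2 hes
          (hwsite hw1 hui) (hwsite hw1 hvj) (fun l => hw2 (u, l)) (fun l => hw2 (v, l))
          h₂ h₃ hκ).trans <| le_trans (mul_le_mul_of_nonneg_left (add_le_add hηe
            (mul_le_mul_of_nonneg_left (add_le_add le_rfl hη4') hC0)) (by positivity)) hK1
      rcases huv with ⟨rfl, rfl⟩ | ⟨rfl, rfl⟩
      · refine le_of_eq_of_le (congrArg _ (Finset.sum_congr rfl fun c _ => ?_))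
          (main _ _ (hg4 hw2 2) (hg4 hw2 3))
        obtain ⟨e1, e2, e3⟩ := hmk (u := 0) (v := 1) (i := i) (j := j) w c (by decide)
        simp only [Φ, Env.quadF, e1, e2, e3 2 (by decide) (by decide), e3 3 (by decide) (by decide)]
      · refine le_of_eq_of_le (congrArg _ (Finset.sum_congr rfl fun c _ => ?_))
          (main _ _ (hg4 hw2 0) (hg4 hw2 1))
        obtain ⟨e1, e2, e3⟩ := hmk (u := 2) (v := 3) (i := i) (j := j) w c (by decide)
        simp only [Φ, Env.quadF, e1, e2, e3 0 (by decide) (by decide), e3 1 (by decide) (by decide)]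
        rw [V.quad_swap]
  have hsumJ : ∑ J : Finset (Fin 4 × Sites q n) with 2 ≤ J.card, ‖∑ c, A (cst J c)‖ ≤
      2 ^ Fintype.card (Fin 4 × Sites q n) * (K₀ * (δ + smallG b q n s)) := by
    refine (Finset.sum_le_card_nsmul _ _ _ fun J hJ' => hJ J (Finset.mem_filter.1 hJ').2).trans ?_
    rw [nsmul_eq_mul]
    refine mul_le_mul_of_nonneg_right ?_
      (mul_nonneg (by positivity) (add_nonneg hδ.le (smallG_nonneg b q n s)))
    refine le_trans (Nat.cast_le.2 (Finset.card_filter_le _ _)) (le_of_eq ?_)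
    simp
  have hh : ∀ y : Fin 4 × Sites q n, ∑ σ, h y σ = 0 := by
    intro y
    simp only [h, copyConj]
    split_ifs
    · rw [← map_sum, (siteOf q y.2).sum_h, map_zero]
    · exact (siteOf q y.2).sum_h
  have havg := norm_avg_sub_le h0 h1 P hh hA
  simp only [← hnext, hnone] at havg
  have hle : avg θ P (fun x => V.gv (chainVal b q (s.next P x) n)) ≤
      (avg θ P (fun x => V.quadF e fun _ => chainVal b q (s.next P x) n)).re := by
    simp only [avg, Complex.re_sum, smul_eq_mul, Complex.real_smul, Complex.re_ofReal_mul]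
    refine Finset.sum_le_sum fun x _ => mul_le_mul_of_nonneg_left ?_
      (Finset.prod_nonneg fun c _ => cellProb_nonneg h0 h1 _)
    exact (V.gv_le _ e).trans (le_of_eq (V.gauss_eq_quad e _))
  have hre := (Complex.re_le_norm _).trans havg
  rw [Complex.sub_re] at hre
  have hg0 : (V.quadF e fun _ => chainVal b q s n).re = V.gauss e (chainVal b q s n) :=
    (V.gauss_eq_quad e _).symm
  rw [hg0] at hre
  have hm : 0 ≤ momBd h := zero_le_one.trans (one_le_momBd h)
  have hsJ := mul_le_mul_of_nonneg_left hsumJ (mul_nonneg h0 hm)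
  nlinarith [mul_nonneg (mul_nonneg (mul_nonneg hm (pow_nonneg (zero_le_two (α := ℝ))
      (Fintype.card (Fin 4 × Sites q n)))) (show (0 : ℝ) ≤ K₀ by positivity)) (sq_nonneg θ),
    mul_nonneg (mul_nonneg (quadBd_nonneg h) (pow_nonneg hC0 4))
      (mul_nonneg h0 (add_nonneg (smallG_nonneg b q n s) hδ.le))]

end Vale.Agent.P078.All
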