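import Vale.Agent.P078.All.SeedsBasic
import Vale.Agent.P078.All.StageGauss

/-!
Asymptotic freeness: the fibre masses of the inner intervals stay negligible over all stages, so
the mean trace of a word does.
-/

namespace Vale.Agent.P078.All

open Filter Topology

set_option linter.unusedSectionVars false

section Seeds

variable {Ω : Type} [TopologicalSpace Ω] [CompactSpace Ω] [T2Space Ω] [TotallyDisconnectedSpace Ω]
  {S : Type} [Fintype S] {θ : ℝ}

theorem norm_avg_le (h0 : 0 ≤ θ) (h1 : θ ≤ 1) (P : Part Ω) (f : (Fin P.n → Option S) → ℂ) :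
    ‖avg θ P f‖ ≤ avg θ P fun x => ‖f x‖ := by
  simp only [avg]
  refine (norm_sum_le _ _).trans (le_of_eq (Finset.sum_congr rfl fun x _ => ?_))
  rw [norm_smul, Real.norm_eq_abs,
    abs_of_nonneg (Finset.prod_nonneg fun c _ => cellProb_nonneg h0 h1 _), smul_eq_mul]

theorem avg_mono (h0 : 0 ≤ θ) (h1 : θ ≤ 1) (P : Part Ω) {f g : (Fin P.n → Option S) → ℝ}
    (h : ∀ x, f x ≤ g x) : avg θ P f ≤ avg θ P g := by
  simp only [avg]
  exact Finset.sum_le_sum fun x _ =>
    mul_le_mul_of_nonneg_left (h x) (Finset.prod_nonneg fun c _ => cellProb_nonneg h0 h1 _)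

theorem norm_run_le (h0 : 0 ≤ θ) (h1 : θ ≤ 1) : ∀ (Ps : List (Part Ω)) (f : State Ω S → ℂ)
    (s : State Ω S), ‖run θ Ps f s‖ ≤ run θ Ps (fun t => ‖f t‖) s
  | [], _, _ => le_rfl
  | P :: Ps, f, s =>
      (norm_avg_le h0 h1 P _).trans (avg_mono h0 h1 P fun _ => norm_run_le h0 h1 Ps f _)

/-- Only finitely many states occur, so one partition serves all of them. -/
theorem fine_run_le (h0 : 0 ≤ θ) (h1 : θ ≤ 1) {f : State Ω S → Part Ω → ℝ} {g : State Ω S → ℝ}
    (h : ∀ t, Part.Fine fun P => f t P ≤ g t) : ∀ (Ps : List (Part Ω)) (s : State Ω S),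
    Part.Fine fun P => run θ Ps (fun t => f t P) s ≤ run θ Ps g s
  | [], s => h s
  | P₀ :: Ps, s => by
      classical
      exact (Part.Fine.forall fun x : Fin P₀.n → Option S =>
        fine_run_le h0 h1 h Ps (s.next P₀ x)).mono fun P hP => avg_mono h0 h1 P₀ hP

theorem Ev.finset {ι : Type*} {L : ℕ} (Q : ι → List (Part Ω) → Prop) :
    ∀ s : Finset ι, (∀ i ∈ s, Ev L (Q i)) → Ev L fun Ps => ∀ i ∈ s, Q i Ps := by
  classical
  intro s
  induction s using Finset.induction_on with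
  | empty => exact fun _ => Ev.of_forall fun Ps _ i hi => absurd hi (Finset.notMem_empty i)
  | @insert a s _ ih =>
    intro h
    refine ((h a (Finset.mem_insert_self _ _)).and
      (ih fun i hi => h i (Finset.mem_insert_of_mem hi))).mono fun Ps _ hP i hi => ?_
    rcases Finset.mem_insert.1 hi with rfl | hi
    exacts [hP.1, hP.2 i hi]

theorem run_finsetSum {ι X : Type*} [AddCommMonoid X] [Module ℝ X] [Nonempty S] (s : Finset ι)
    (f : ι → State Ω S → X) (Ps : List (Part Ω)) (t : State Ω S) :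
    run θ Ps (fun u => ∑ i ∈ s, f i u) t = ∑ i ∈ s, run θ Ps (f i) t := by
  classical
  induction s using Finset.induction_on with
  | empty => simp [run_const]
  | @insert a s ha ih => simp only [Finset.sum_insert ha, run_add, ih]

variable [Nonempty S]

/-- A mean growing by at most `G` per stage. -/
theorem ev_run_le (h0 : 0 ≤ θ) (h1 : θ ≤ 1) {F G : State Ω S → ℝ} (hF : F (State.empty Ω S) ≤ 0)
    (hstep : ∀ t, Part.Fine fun P => avg θ P (fun x => F (t.next P x)) ≤ F t + G t) {N : ℕ}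
    {β : ℝ} (hG : ∀ L, L ≤ N → Ev L fun Ps => run θ Ps G (State.empty Ω S) ≤ β) :
    ∀ L, L ≤ N → Ev L fun Ps => run θ Ps F (State.empty Ω S) ≤ L * β
  | 0, _ => by
      show F (State.empty Ω S) ≤ ((0 : ℕ) : ℝ) * β
      simpa using hF
  | L + 1, hL => by
      refine ((ev_run_le h0 h1 hF hstep hG L (by omega)).and (hG L (by omega))).mono
        fun Ps _ hP => ?_
      refine (fine_run_le h0 h1 hstep Ps (State.empty Ω S)).mono fun P hle => ?_
      show run θ (Ps ++ [P]) F (State.empty Ω S) ≤ _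
      rw [run_append]
      refine hle.trans ?_
      rw [run_add, Nat.cast_succ, add_mul, one_mul]
      exact add_le_add hP.1 hP.2

/-- A complex mean moving by at most `G` per stage. -/
theorem ev_norm_run_le (h0 : 0 ≤ θ) (h1 : θ ≤ 1) {F : State Ω S → ℂ} {G : State Ω S → ℝ}
    (hF : F (State.empty Ω S) = 0)
    (hstep : ∀ t, Part.Fine fun P => ‖avg θ P (fun x => F (t.next P x)) - F t‖ ≤ G t) {N : ℕ}
    {β : ℝ} (hG : ∀ L, L ≤ N → Ev L fun Ps => run θ Ps G (State.empty Ω S) ≤ β) :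
    ∀ L, L ≤ N → Ev L fun Ps => ‖run θ Ps F (State.empty Ω S)‖ ≤ L * β
  | 0, _ => by
      show ‖F (State.empty Ω S)‖ ≤ ((0 : ℕ) : ℝ) * β
      simp [hF]
  | L + 1, hL => by
      refine ((ev_norm_run_le h0 h1 hF hstep hG L (by omega)).and (hG L (by omega))).mono
        fun Ps _ hP => ?_
      refine (fine_run_le h0 h1 hstep Ps (State.empty Ω S)).mono fun P hle => ?_
      show ‖run θ (Ps ++ [P]) F (State.empty Ω S)‖ ≤ _
      rw [run_append]
      have e : (fun t => run θ [P] F t) =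
          fun t => F t + (avg θ P (fun x => F (t.next P x)) - F t) := by
        funext t
        simp [run]
      rw [e, run_add, Nat.cast_succ, add_mul, one_mul]
      exact (norm_add_le _ _).trans
        (add_le_add hP.1 (((norm_run_le h0 h1 Ps _ _).trans hle).trans hP.2))

end Seeds

variable {R : Type} [Ring R] [StarRing R] [Algebra ℂ R] [StarModule ℂ R]
  {Ω : Type} [TopologicalSpace Ω] [CompactSpace Ω] [T2Space Ω] [TotallyDisconnectedSpace Ω]
  {V : Env R Ω} {S : Type} [Fintype S]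

/-- The fourth root is at most `ε + x / ε ^ 3`. -/
theorem sqrt_sqrt_le {x ε : ℝ} (hx : 0 ≤ x) (hε : 0 < ε) :
    Real.sqrt (Real.sqrt x) ≤ ε + x / ε ^ 3 := by
  rcases le_total (Real.sqrt (Real.sqrt x)) ε with h | h
  · exact h.trans (le_add_of_nonneg_right (by positivity))
  · refine le_trans ?_ (le_add_of_nonneg_left hε.le)
    rw [le_div_iff₀ (by positivity)]
    have h4 : Real.sqrt (Real.sqrt x) ^ 4 = x := by
      rw [show Real.sqrt (Real.sqrt x) ^ 4 = (Real.sqrt (Real.sqrt x) ^ 2) ^ 2 by ring,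
        Real.sq_sqrt (Real.sqrt_nonneg x), Real.sq_sqrt hx]
    calc Real.sqrt (Real.sqrt x) * ε ^ 3
        ≤ Real.sqrt (Real.sqrt x) * Real.sqrt (Real.sqrt x) ^ 3 :=
          mul_le_mul_of_nonneg_left (pow_le_pow_left₀ hε.le h 3) (Real.sqrt_nonneg _)
      _ = x := by rw [← pow_succ']; exact h4

/-- The fibre mass of a chain stays below `η` during `⌈T/θ⌉` stages. -/
def SmallMean (b : ℕ → R) (q : ℕ → Mono V S) (n : ℕ) (T η θ : ℝ) : Prop :=
  ∀ L, L ≤ ⌈T / θ⌉₊ → Ev L fun Ps =>
    run θ Ps (fun t => V.gv (chainVal b q t n)) (State.empty Ω S) ≤ η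

variable [Nonempty S]

/-- The means of a sum of fourth roots of fibre masses over a finite set of intervals. -/
theorem ev_small {θ T ε η : ℝ} (h0 : 0 ≤ θ) (h1 : θ ≤ 1) (hε : 0 < ε) (b : ℕ → R)
    (q : ℕ → Mono V S) (I : Finset (ℕ × ℕ))
    (h : ∀ p ∈ I, SmallMean (fun k => b (k + p.1)) (fun k => q (k + p.1)) p.2 T η θ) {L : ℕ}
    (hL : L ≤ ⌈T / θ⌉₊) :
    Ev L fun Ps => run θ Ps (fun t => ∑ p ∈ I, Real.sqrt (Real.sqrt
        (V.gv (chainVal (fun k => b (k + p.1)) (fun k => q (k + p.1)) t p.2))))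
      (State.empty Ω S) ≤ I.card * (ε + η / ε ^ 3) := by
  refine (Ev.finset _ I fun p hp => h p hp L hL).mono fun Ps _ hP => ?_
  refine (run_mono h0 h1 Ps _ fun t => Finset.sum_le_sum fun p _ =>
    sqrt_sqrt_le (V.gv_nonneg _) hε).trans ?_
  rw [run_finsetSum, ← nsmul_eq_mul, ← Finset.sum_const]
  refine Finset.sum_le_sum fun p hp => ?_
  rw [run_add, run_const]
  refine add_le_add le_rfl ?_
  rw [show (fun t => V.gv (chainVal (fun k => b (k + p.1)) (fun k => q (k + p.1)) t p.2) / ε ^ 3) =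
    fun t => (ε ^ 3)⁻¹ • V.gv (chainVal (fun k => b (k + p.1)) (fun k => q (k + p.1)) t p.2) from
    funext fun t => by rw [smul_eq_mul, inv_mul_eq_div], run_smul, smul_eq_mul, inv_mul_eq_div]
  exact div_le_div_of_nonneg_right (hP p hp) (by positivity)

/-- The stages of a drift of order `θ`. -/
theorem drift_le {T θ ε K : ℝ} {m L : ℕ} (hT : 0 ≤ T) (h0 : 0 < θ) (h1 : θ ≤ 1) (hK : 0 ≤ K)
    (hε : 0 < ε) (hθε : θ ≤ ε) (hL : L ≤ ⌈T / θ⌉₊) :
    L * ((K + 1) * (θ * (m * (ε + ε ^ 4 / ε ^ 3)) + 2 * θ ^ 2)) ≤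
      (T + 1) * (K + 1) * (2 * m + 2) * ε := by
  have hL' : (L : ℝ) * θ ≤ T + 1 := by
    have h2 : (L : ℝ) ≤ T / θ + 1 :=
      (Nat.cast_le.2 hL).trans (Nat.ceil_lt_add_one (div_nonneg hT h0.le)).le
    calc (L : ℝ) * θ ≤ (T / θ + 1) * θ := mul_le_mul_of_nonneg_right h2 h0.le
      _ = T + θ := by rw [add_mul, div_mul_cancel₀ _ h0.ne', one_mul]
      _ ≤ T + 1 := by linarith
  rw [show ε + ε ^ 4 / ε ^ 3 = 2 * ε by field_simp; ring,
    show (L : ℝ) * ((K + 1) * (θ * (m * (2 * ε)) + 2 * θ ^ 2)) =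
      (L : ℝ) * θ * ((K + 1) * (2 * m * ε + 2 * θ)) by ring,
    show (T + 1) * (K + 1) * (2 * m + 2) * ε = (T + 1) * ((K + 1) * (2 * m * ε + 2 * ε)) by ring]
  exact mul_le_mul hL' (mul_le_mul_of_nonneg_left (by linarith) (by linarith)) (by positivity)
    (by linarith)

/-- The fibre masses of chains of atomless letters stay small. -/
theorem eventually_smallMean (hD : V.DiagonalLimit) : ∀ (n : ℕ) (b : ℕ → R) (q : ℕ → Mono V S),
    (∀ k, k ≤ n → V.Atomless (b k)) → ∀ T η : ℝ, 0 < T → 0 < η →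
      ∀ᶠ θ in 𝓝[>] (0 : ℝ), θ ≤ 1 → SmallMean b q n T η θ := by
  intro n
  induction n using Nat.strong_induction_on with
  | _ n ih =>
  intro b q hb T η hT hη
  rcases Nat.eq_zero_or_pos n with rfl | hn
  · refine Filter.Eventually.of_forall fun θ _ L _ => Ev.of_forall fun Ps _ => ?_
    rw [show (fun t : State Ω S => V.gv (chainVal b q t 0)) = fun _ => (0 : ℝ) from
      funext fun t => V.gv_le_of_atomless (hb 0 le_rfl), run_const]
    exact hη.le
  obtain ⟨K, hK, hstage⟩ := gv_stage_le b q hD n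
  set I : Finset (ℕ × ℕ) :=
    (Finset.range (n + 1) ×ˢ Finset.range n).filter (fun p => p.1 + p.2 ≤ n) with hI
  set ε : ℝ := η / ((T + 1) * (K + 1) * (2 * (I.card : ℝ) + 2)) with hεdef
  have hε : 0 < ε := by positivity
  have hI' : ∀ᶠ θ in 𝓝[>] (0 : ℝ), ∀ p ∈ I, θ ≤ 1 →
      SmallMean (fun k => b (k + p.1)) (fun k => q (k + p.1)) p.2 T (ε ^ 4) θ := by
    refine (eventually_all_finset I).2 fun p hp => ?_
    simp only [hI, Finset.mem_filter, Finset.mem_product, Finset.mem_range] at hp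
    exact ih p.2 (by omega) _ _ (fun k hk => hb _ (by omega)) T _ hT (pow_pos hε 4)
  filter_upwards [hI', eventually_nhdsWithin_of_eventually_nhds (eventually_le_nhds hε),
    self_mem_nhdsWithin] with θ hθI hθε (h0 : 0 < θ) h1
  intro L hL
  refine (ev_run_le (F := fun t => V.gv (chainVal b q t n))
    (G := fun t => (K + 1) * (θ * smallG b q n t + 2 * θ ^ 2)) h0.le h1 ?_ (fun t => ?_)
    (N := ⌈T / θ⌉₊) (β := (K + 1) * (θ * (I.card * (ε + ε ^ 4 / ε ^ 3)) + 2 * θ ^ 2))
    (fun L' hL' => ?_) L hL).mono fun Ps _ hP => hP.trans ?_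
  · simp only [chainVal_empty b q hn]
    refine (V.gv_le 0 Part.one).trans (le_of_eq ?_)
    simp [Env.gauss]
  · refine (hstage θ h0.le h1 t (θ ^ 2) (by positivity)).mono fun P hP => hP.trans ?_
    have hs := smallG_nonneg b q n t
    nlinarith [mul_nonneg h0.le hs, mul_nonneg (mul_nonneg hK (sq_nonneg θ)) (sub_nonneg.2 h1),
      sq_nonneg θ]
  · refine (ev_small h0.le h1 hε b q I (fun p hp => hθI p hp h1) hL').mono fun Ps _ hP => ?_
    simp only [← smul_eq_mul (K + 1), ← smul_eq_mul θ, run_smul, run_add, run_const]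
    simp only [smul_eq_mul]
    have hG : smallG b q n = fun t => ∑ p ∈ I, Real.sqrt (Real.sqrt
        (V.gv (chainVal (fun k => b (k + p.1)) (fun k => q (k + p.1)) t p.2))) := rfl
    rw [hG]
    exact mul_le_mul_of_nonneg_left (add_le_add (mul_le_mul_of_nonneg_left hP h0.le) le_rfl)
      (by linarith)
  · refine (drift_le hT.le h0 h1 hK hε hθε hL).trans (le_of_eq ?_)
    rw [hεdef]
    field_simp

/-- Words with inner letters orthogonal to the normaliser have negligible mean trace. -/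
theorem freeStatement (hD : V.DiagonalLimit) (hA : V.AtomlessStatement) : FreeStatement V := by
  intro S _ _ w T η hT hη
  classical
  set b : ℕ → R := fun i =>
    if i = 0 then w.v else if h : i - 1 < w.n then w.b ⟨i - 1, h⟩ else w.v' with hb
  set q : ℕ → Mono V S := fun k => w.q ⟨min k w.n, by omega⟩ with hq
  have hval : ∀ s, w.val s = chainVal b q s (w.n + 1) := by
    intro s
    have key : ∀ m, (hm : m ≤ w.n) → V.seg b (fun k => (q k).val s) m * V.ι ((q m).val s) =
        w.v * (w.q 0).elem s *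
          (List.ofFn fun i : Fin m => w.b (i.castLE hm) * (w.q (i.castLE hm).succ).elem s).prod := by
      intro m
      induction m with
      | zero => intro _; simp [hb, hq, Mono.elem]
      | succ m ihm =>
        intro hm
        rw [Env.seg_succ, ihm (by omega), List.ofFn_succ', List.concat_eq_append, List.prod_append,
          List.prod_singleton]
        simp only [hb, hq, Nat.succ_ne_zero, if_false, Nat.add_sub_cancel, dif_pos (show m < w.n
          by omega), min_eq_left hm, Mono.elem, mul_assoc]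
        rfl
    rw [chainVal, Env.seg_succ, key w.n le_rfl, Word.val]
    simp [hb]
  obtain ⟨K, hK, hstage⟩ := tau_stage_le b q hD (w.n + 1)
  set I : Finset (ℕ × ℕ) := (Finset.range (w.n + 1) ×ˢ Finset.range (w.n + 1)).filter
    (fun p => 1 ≤ p.1 ∧ p.1 + p.2 < w.n + 1) with hI
  set ε : ℝ := η / ((T + 1) * (K + 1) * (2 * (I.card : ℝ) + 2)) with hεdef
  have hε : 0 < ε := by positivity
  have hI' : ∀ᶠ θ in 𝓝[>] (0 : ℝ), ∀ p ∈ I, θ ≤ 1 →
      SmallMean (fun k => b (k + p.1)) (fun k => q (k + p.1)) p.2 T (ε ^ 4) θ := by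
    refine (eventually_all_finset I).2 fun p hp => ?_
    simp only [hI, Finset.mem_filter, Finset.mem_product, Finset.mem_range] at hp
    refine eventually_smallMean hD p.2 _ _ (fun k hk => ?_) T _ hT (pow_pos hε 4)
    simp only [hb, show k + p.1 ≠ 0 by omega, if_false, dif_pos (show k + p.1 - 1 < w.n by omega)]
    exact hA _ (w.orth _)
  obtain ⟨θ₀, hθ₀, hsub⟩ := mem_nhdsGT_iff_exists_Ioo_subset.1
    (hI'.and (eventually_nhdsWithin_of_eventually_nhds (eventually_le_nhds hε)))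
  refine ⟨θ₀, hθ₀, fun θ h0 hθ h1 => ?_⟩
  obtain ⟨hθI, hθε⟩ := hsub ⟨h0, hθ⟩
  refine (ev_norm_run_le (F := fun t => V.τ (w.val t))
    (G := fun t => (K + 1) * (θ * smallI b q (w.n + 1) t + 2 * θ ^ 2)) h0.le h1 ?_ (fun t => ?_)
    (N := ⌈T / θ⌉₊) (β := (K + 1) * (θ * (I.card * (ε + ε ^ 4 / ε ^ 3)) + 2 * θ ^ 2))
    (fun L' hL' => ?_) ⌈T / θ⌉₊ le_rfl).mono fun Ps _ hP => hP.trans ?_
  · simp [hval, chainVal_empty b q (Nat.succ_pos _), Env.τ]
  · refine (hstage θ h0.le h1 t θ h0).mono fun P hP => ?_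
    simp only [hval]
    refine hP.trans ?_
    have hs := smallI_nonneg b q (w.n + 1) t
    nlinarith [mul_nonneg h0.le hs, sq_nonneg θ]
  · refine (ev_small h0.le h1 hε b q I (fun p hp => hθI p hp h1) hL').mono fun Ps _ hP => ?_
    simp only [← smul_eq_mul (K + 1), ← smul_eq_mul θ, run_smul, run_add, run_const]
    simp only [smul_eq_mul]
    have hG : smallI b q (w.n + 1) = fun t => ∑ p ∈ I,
        Real.sqrt (Real.sqrt
          (V.gv (chainVal (fun k => b (k + p.1)) (fun k => q (k + p.1)) t p.2))) := rfl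
    rw [hG]
    exact mul_le_mul_of_nonneg_left (add_le_add (mul_le_mul_of_nonneg_left hP h0.le) le_rfl)
      (by linarith)
  · refine (drift_le hT.le h0 h1 hK hε hθε le_rfl).trans (le_of_eq ?_)
    rw [hεdef]
    field_simp

end Vale.Agent.P078.All
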