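import Vale.Agent.P078.All.Seeds

/-!
Basic facts on the means over stages: linearity, monotonicity, the mass of undecided points, and
the quantifier over sufficiently fine stages.
-/

namespace Vale.Agent.P078.All

variable {Ω : Type} [TopologicalSpace Ω] {S : Type}

section Ev

theorem Part.Fine.of_forall {Q : Part Ω → Prop} (h : ∀ P, Q P) : Part.Fine Q :=
  ⟨Part.one, fun P _ => h P⟩

theorem Ev.mono : ∀ {L : ℕ} {Q Q' : List (Part Ω) → Prop},
    Ev L Q → (∀ Ps, Ps.length = L → Q Ps → Q' Ps) → Ev L Q'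
  | 0, _, _, h, hQ => hQ [] rfl h
  | L + 1, _, _, h, hQ => Ev.mono (L := L) h fun Ps hl hP =>
      hP.mono fun P => hQ (Ps ++ [P]) (by simp [hl])

theorem Ev.of_forall : ∀ {L : ℕ} {Q : List (Part Ω) → Prop},
    (∀ Ps, Ps.length = L → Q Ps) → Ev L Q
  | 0, _, h => h [] rfl
  | L + 1, Q, h => Ev.of_forall (L := L) fun Ps hl =>
      Part.Fine.of_forall fun P => h (Ps ++ [P]) (by simp [hl])

theorem Ev.and : ∀ {L : ℕ} {Q Q' : List (Part Ω) → Prop},
    Ev L Q → Ev L Q' → Ev L fun Ps => Q Ps ∧ Q' Ps
  | 0, _, _, h, h' => ⟨h, h'⟩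
  | L + 1, _, _, h, h' => Ev.mono (L := L) (Ev.and (L := L) h h') fun _ _ hP => hP.1.and hP.2

end Ev

theorem State.next_apply (s : State Ω S) (P : Part Ω) (x : Fin P.n → Option S) (ω : Ω) :
    s.next P x ω = (s ω).orElse fun _ => x (P.cell ω) := rfl

theorem State.empty_apply (ω : Ω) : State.empty Ω S ω = none := rfl

variable [Fintype S] {θ : ℝ}

theorem cellProb_nonneg (h0 : 0 ≤ θ) (h1 : θ ≤ 1) (o : Option S) : 0 ≤ cellProb θ o := by
  cases o with
  | none => exact sub_nonneg.2 h1
  | some _ => exact div_nonneg h0 (Nat.cast_nonneg _)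

theorem sum_cellProb [Nonempty S] : ∑ o : Option S, cellProb θ o = 1 := by
  simp [cellProb]
  field_simp
  ring

section Module

variable {X Y : Type*} [AddCommMonoid X] [Module ℝ X] [AddCommMonoid Y] [Module ℝ Y]

theorem avg_add (P : Part Ω) (f g : (Fin P.n → Option S) → X) :
    avg θ P (fun x => f x + g x) = avg θ P f + avg θ P g := by
  simp [avg, smul_add, Finset.sum_add_distrib]

theorem avg_smul (P : Part Ω) (c : ℝ) (f : (Fin P.n → Option S) → X) :
    avg θ P (fun x => c • f x) = c • avg θ P f := by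
  simp [avg, Finset.smul_sum, smul_comm c]

theorem map_avg (φ : X →ₗ[ℝ] Y) (P : Part Ω) (f : (Fin P.n → Option S) → X) :
    φ (avg θ P f) = avg θ P fun x => φ (f x) := by
  simp [avg]

theorem avg_const [Nonempty S] (P : Part Ω) (a : X) :
    avg θ P (fun _ : Fin P.n → Option S => a) = a := by
  classical
  rw [avg, ← Finset.sum_smul, ← Fintype.prod_sum (fun _ o => cellProb θ o)]
  simp only [sum_cellProb, Finset.prod_const_one, one_smul]

theorem run_add : ∀ (Ps : List (Part Ω)) (f g : State Ω S → X) (s : State Ω S),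
    run θ Ps (fun t => f t + g t) s = run θ Ps f s + run θ Ps g s
  | [], _, _, _ => rfl
  | P :: Ps, f, g, s => by simp only [run, run_add Ps, avg_add]

theorem run_smul : ∀ (Ps : List (Part Ω)) (c : ℝ) (f : State Ω S → X) (s : State Ω S),
    run θ Ps (fun t => c • f t) s = c • run θ Ps f s
  | [], _, _, _ => rfl
  | P :: Ps, c, f, s => by simp only [run, run_smul Ps, avg_smul]

theorem map_run (φ : X →ₗ[ℝ] Y) : ∀ (Ps : List (Part Ω)) (f : State Ω S → X) (s : State Ω S),
    φ (run θ Ps f s) = run θ Ps (fun t => φ (f t)) s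
  | [], _, _ => rfl
  | P :: Ps, f, s => by simp only [run, map_avg, map_run φ Ps]

theorem run_const [Nonempty S] (a : X) : ∀ (Ps : List (Part Ω)) (s : State Ω S),
    run θ Ps (fun _ => a) s = a
  | [], _ => rfl
  | P :: Ps, s => by simp only [run, run_const a Ps, avg_const]

theorem run_append : ∀ (Ps Ps' : List (Part Ω)) (f : State Ω S → X) (s : State Ω S),
    run θ (Ps ++ Ps') f s = run θ Ps (fun t => run θ Ps' f t) s
  | [], _, _, _ => rfl
  | P :: Ps, Ps', f, s => by simp only [List.cons_append, run, run_append Ps Ps']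

theorem run_congr : ∀ (Ps : List (Part Ω)) {f g : State Ω S → X} (s : State Ω S),
    (∀ t, f t = g t) → run θ Ps f s = run θ Ps g s := by
  intro _ _ _ _ h
  rw [funext h]

end Module

theorem avg_nonneg (h0 : 0 ≤ θ) (h1 : θ ≤ 1) (P : Part Ω) {f : (Fin P.n → Option S) → ℝ}
    (hf : ∀ x, 0 ≤ f x) : 0 ≤ avg θ P f := by
  rw [avg]
  exact Finset.sum_nonneg fun x _ =>
    mul_nonneg (Finset.prod_nonneg fun c _ => cellProb_nonneg h0 h1 _) (hf x)

theorem run_nonneg (h0 : 0 ≤ θ) (h1 : θ ≤ 1) : ∀ (Ps : List (Part Ω)) {f : State Ω S → ℝ}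
    (s : State Ω S), (∀ t, 0 ≤ f t) → 0 ≤ run θ Ps f s
  | [], _, s, h => h s
  | P :: Ps, f, s, h => avg_nonneg h0 h1 P fun _ => run_nonneg h0 h1 Ps _ h

theorem run_mono (h0 : 0 ≤ θ) (h1 : θ ≤ 1) (Ps : List (Part Ω)) {f g : State Ω S → ℝ}
    (s : State Ω S) (h : ∀ t, f t ≤ g t) : run θ Ps f s ≤ run θ Ps g s := by
  have h2 := run_nonneg h0 h1 Ps s fun t => sub_nonneg.2 (h t)
  have h3 : run θ Ps (fun t => g t - f t) s + run θ Ps f s = run θ Ps g s := by
    rw [← run_add]
    simp
  linarith

/-- The indicator of an undecided point. -/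
noncomputable def undecided (s : State Ω S) (ω : Ω) : ℝ := if (s ω).isNone then 1 else 0

theorem avg_undecided [Nonempty S] (s : State Ω S) (P : Part Ω) (ω : Ω) :
    avg θ P (fun x => undecided (s.next P x) ω) = (1 - θ) * undecided s ω := by
  classical
  rcases h : s ω with _ | a
  · have hx : ∀ x, s.next P x ω = x (P.cell ω) := fun x => by rw [State.next_apply, h]; rfl
    simp only [undecided, hx, h]
    rw [avg]
    calc ∑ x : Fin P.n → Option S,
          (∏ c, cellProb θ (x c)) • (if (x (P.cell ω)).isNone then (1 : ℝ) else 0)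
        = ∑ x : Fin P.n → Option S, ∏ c, (cellProb θ (x c) *
            if c = P.cell ω then (if (x c).isNone then (1 : ℝ) else 0) else 1) := by
          refine Finset.sum_congr rfl fun x _ => ?_
          rw [Finset.prod_mul_distrib, Finset.prod_ite_eq' Finset.univ (P.cell ω)]
          simp
      _ = ∏ c, ∑ o : Option S, (cellProb θ o *
            if c = P.cell ω then (if o.isNone then (1 : ℝ) else 0) else 1) :=
          (Fintype.prod_sum fun c o => cellProb θ o *
            if c = P.cell ω then (if o.isNone then (1 : ℝ) else 0) else 1).symm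
      _ = (1 - θ) * if (none : Option S).isNone then (1 : ℝ) else 0 := by
          rw [Finset.prod_eq_single (P.cell ω) (fun c _ hc => by simp only [if_neg hc, mul_one, sum_cellProb])
            (by simp)]
          simp [cellProb]
  · simp only [undecided, State.next_apply, h, Option.orElse_some, Option.isNone_some,
      Bool.false_eq_true, if_false, mul_zero]
    exact avg_const P 0

theorem run_undecided [Nonempty S] : ∀ (Ps : List (Part Ω)) (s : State Ω S) (ω : Ω),
    run θ Ps (fun t => undecided t ω) s = (1 - θ) ^ Ps.length * undecided s ω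
  | [], _, _ => by simp [run]
  | P :: Ps, s, ω => by
      simp only [run, run_undecided Ps, ← smul_eq_mul ((1 - θ) ^ Ps.length), avg_smul,
        avg_undecided]
      simp [pow_succ, mul_assoc]

/-- The mass of undecided points after `⌈T/θ⌉` stages. -/
theorem run_undecided_le [Nonempty S] {T : ℝ} (hθ : 0 < θ) (h1 : θ ≤ 1) (Ps : List (Part Ω))
    (hl : Ps.length = ⌈T / θ⌉₊) (ω : Ω) :
    run θ Ps (fun t => undecided t ω) (State.empty Ω S) ≤ Real.exp (-T) := by
  rw [run_undecided, hl]
  simp only [undecided, State.empty_apply, Option.isNone_none, if_true, mul_one]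
  refine (pow_le_pow_left₀ (sub_nonneg.2 h1) (Real.one_sub_le_exp_neg θ) _).trans ?_
  rw [← Real.exp_nat_mul, Real.exp_le_exp]
  have := Nat.le_ceil (T / θ)
  rw [div_le_iff₀ hθ] at this
  linarith

end Vale.Agent.P078.All
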