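import Vale.Agent.P078.All.EnvBasic
import Vale.Agent.P078.All.SeedsBasic

/-!
The random 2-norm space of the seeds, the filter of fine stages, and the families that are
uniformly bounded or negligible.
-/

namespace Vale.Agent.P078.All

open Filter Topology
open scoped ComplexOrder InnerProductSpace

/-- An index: the mass `T`, the rate `θ` and the partitions of the stages. -/
structure Idx (Ω : Type) [TopologicalSpace Ω] where
  /-- The total mass. -/
  T : ℝ
  /-- The rate. -/
  θ : ℝ
  pos : 0 < θ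
  le_one : θ ≤ 1
  /-- The stages. -/
  Ps : List (Part Ω)

/-- `θ` small given `T` large, and the stages fine, each given the earlier ones. -/
def seedFilter (Ω : Type) [TopologicalSpace Ω] : Filter (Idx Ω) where
  sets := {Q | ∃ T₀ : ℝ, 0 < T₀ ∧ ∀ T : ℝ, T₀ ≤ T → ∃ θ₀ : ℝ, 0 < θ₀ ∧
    ∀ θ : ℝ, ∀ h : 0 < θ, θ < θ₀ → ∀ h1 : θ ≤ 1,
      Ev ⌈T / θ⌉₊ fun Ps => (⟨T, θ, h, h1, Ps⟩ : Idx Ω) ∈ Q}
  univ_sets := ⟨1, one_pos, fun _ _ => ⟨1, one_pos, fun _ _ _ _ => Ev.of_forall fun _ _ => trivial⟩⟩
  sets_of_superset := by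
    rintro Q Q' ⟨T₀, hT₀, h⟩ hsub
    refine ⟨T₀, hT₀, fun T hT => ?_⟩
    obtain ⟨θ₀, hθ₀, h'⟩ := h T hT
    exact ⟨θ₀, hθ₀, fun θ hp hlt h1 => (h' θ hp hlt h1).mono fun Ps _ hP => hsub hP⟩
  inter_sets := by
    rintro Q Q' ⟨T₀, hT₀, h⟩ ⟨T₀', -, h'⟩
    refine ⟨max T₀ T₀', lt_of_lt_of_le hT₀ (le_max_left _ _), fun T hT => ?_⟩
    obtain ⟨θ₀, hθ₀, g⟩ := h T ((le_max_left _ _).trans hT)
    obtain ⟨θ₀', hθ₀', g'⟩ := h' T ((le_max_right _ _).trans hT)
    exact ⟨min θ₀ θ₀', lt_min hθ₀ hθ₀', fun θ hp hlt h1 =>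
      (g θ hp (hlt.trans_le (min_le_left _ _)) h1).and
        (g' θ hp (hlt.trans_le (min_le_right _ _)) h1)⟩

section
variable {Ω : Type} [TopologicalSpace Ω]

theorem eventually_length :
    ∀ᶠ i : Idx Ω in seedFilter Ω, i.Ps.length = ⌈i.T / i.θ⌉₊ :=
  ⟨1, one_pos, fun _ _ => ⟨1, one_pos, fun _ _ _ _ => Ev.of_forall fun _ hl => hl⟩⟩

theorem eventually_mass (a : ℝ) : ∀ᶠ i : Idx Ω in seedFilter Ω, a ≤ i.T :=
  ⟨max a 1, lt_of_lt_of_le one_pos (le_max_right _ _), fun _ hT =>
    ⟨1, one_pos, fun _ _ _ _ => Ev.of_forall fun _ _ => (le_max_left _ _).trans hT⟩⟩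

theorem tendsto_exp_mass :
    Tendsto (fun i : Idx Ω => Real.exp (-i.T)) (seedFilter Ω) (𝓝 0) := by
  refine Real.tendsto_exp_neg_atTop_nhds_zero.comp ?_
  exact tendsto_atTop.2 eventually_mass

/-- The mean over the stages of an index, from nothing chosen. -/
noncomputable def mean {S : Type} [Fintype S] {X : Type*} [AddCommMonoid X] [Module ℝ X]
    (i : Idx Ω) (f : State Ω S → X) : X :=
  run i.θ i.Ps f (State.empty Ω S)

end

variable {Ω : Type} [TopologicalSpace Ω] [CompactSpace Ω] [T2Space Ω] [TotallyDisconnectedSpace Ω]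
  {R : Type} [Ring R] [StarRing R] [Algebra ℂ R] [StarModule ℂ R]

/-- Functions of the state, seen as vectors at an index. -/
def Vec (_V : Env R Ω) (S : Type) (_i : Idx Ω) : Type := State Ω S → R

variable {V : Env R Ω} {S : Type} [Fintype S] [Nonempty S]

instance (i : Idx Ω) : AddCommGroup (Vec V S i) := inferInstanceAs (AddCommGroup (State Ω S → R))

noncomputable instance (i : Idx Ω) : Module ℂ (Vec V S i) :=
  inferInstanceAs (Module ℂ (State Ω S → R))

variable (V S) in
/-- The inner product: the mean trace. -/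
@[reducible] noncomputable def vecCore (i : Idx Ω) :
    PreInnerProductSpace.Core ℂ (Vec V S i) where
  inner x y := mean i fun s => V.τ (star (x s) * y s)
  conj_inner_symm x y := by
    change Complex.conjAe.toLinearMap (mean i fun s => V.τ (star (y s) * x s)) = _
    rw [mean, map_run]
    refine run_congr _ _ fun s => ?_
    change star (V.τ (star (y s) * x s)) = _
    rw [← Env.τ_star, star_mul, star_star]
  re_inner_nonneg x := by
    change 0 ≤ Complex.reLm (mean i fun s => V.τ (star (x s) * x s))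
    rw [mean, map_run]
    exact run_nonneg i.pos.le i.le_one _ _ fun s => V.sq_nonneg (x s)
  add_left x y z := by
    change mean i (fun s => V.τ (star (x s + y s) * z s)) = _
    rw [mean, mean, mean, ← run_add]
    exact run_congr _ _ fun s => by rw [star_add, add_mul, V.τ_add]
  smul_left x y r := by
    change mean i (fun s => V.τ (star (r • x s) * y s)) =
      LinearMap.mulLeft ℝ ((starRingEnd ℂ) r) (mean i fun s => V.τ (star (x s) * y s))
    rw [mean, mean, map_run]
    exact run_congr _ _ fun s => by rw [star_smul, smul_mul_assoc, Env.τ_smul]; rfl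

noncomputable instance (i : Idx Ω) : SeminormedAddCommGroup (Vec V S i) :=
  @InnerProductSpace.Core.toSeminormedAddCommGroup ℂ (Vec V S i) _ _ _ (vecCore V S i)

noncomputable instance (i : Idx Ω) : InnerProductSpace ℂ (Vec V S i) :=
  InnerProductSpace.ofCore (vecCore V S i)

omit [Nonempty S] in
theorem vec_inner (i : Idx Ω) (x y : Vec V S i) :
    ⟪x, y⟫_ℂ = mean i fun s => V.τ (star (x s) * y s) := rfl

omit [Nonempty S] in
theorem vec_norm_sq (i : Idx Ω) (x : Vec V S i) :
    ‖x‖ ^ 2 = mean i fun s => V.sq (x s) := by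
  have h : (⟪x, x⟫_ℂ).re = ‖x‖ ^ 2 := inner_self_eq_norm_sq (𝕜 := ℂ) x
  rw [← h, vec_inner]
  change Complex.reLm _ = _
  rw [mean, map_run]
  rfl

variable (V S) in
/-- A function of the state as a vector. -/
def toVec (i : Idx Ω) : (State Ω S → R) →ₗ[ℂ] Vec V S i := LinearMap.id

omit [Nonempty S] in
theorem toVec_norm_le (i : Idx Ω) {f g : State Ω S → R} {C : ℝ} (hC : 0 ≤ C)
    (h : ∀ s, V.sq (f s) ≤ C ^ 2 * V.sq (g s)) : ‖toVec V S i f‖ ≤ C * ‖toVec V S i g‖ := by
  refine le_of_pow_le_pow_left₀ two_ne_zero (by positivity) ?_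
  rw [mul_pow, vec_norm_sq, vec_norm_sq, ← smul_eq_mul]
  refine (run_mono i.pos.le i.le_one _ _ h).trans (le_of_eq ?_)
  exact run_smul _ _ _ _

theorem norm_toVec_one (i : Idx Ω) : ‖toVec V S i 1‖ = 1 := by
  have h : ‖toVec V S i 1‖ ^ 2 = 1 := by
    rw [vec_norm_sq]
    change mean i (fun _ => V.sq 1) = 1
    rw [mean, run_const, Env.sq, star_one, one_mul, ← map_one V.ι, V.τ_ι, V.μ_one,
      Complex.one_re]
  rw [← abs_norm]
  exact (abs_eq_abs.2 (Or.inl rfl)).trans (by
    rw [abs_norm]; nlinarith [norm_nonneg (toVec V S i 1)])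

variable (V) in
/-- Uniformly bounded on both sides. -/
def UBdd (f : State Ω S → R) : Prop :=
  ∃ C : ℝ, 0 ≤ C ∧ ∀ s y, V.sq (f s * y) ≤ C ^ 2 * V.sq y ∧ V.sq (y * f s) ≤ C ^ 2 * V.sq y

variable (V) in
/-- Negligible in the mean 2-norm. -/
def Small (f : State Ω S → R) : Prop :=
  Tendsto (fun i => ‖toVec V S i f‖) (seedFilter Ω) (𝓝 0)

omit [Fintype S] [Nonempty S] in
theorem Env.sq_add_le (x y : R) : V.sq (x + y) ≤ 2 * V.sq x + 2 * V.sq y := by
  have h1 : V.sq (x + y) + V.sq (x - y) = 2 * V.sq x + 2 * V.sq y := by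
    simp only [Env.sq, star_add, star_sub, add_mul, mul_add, sub_mul, mul_sub, V.τ_add,
      Env.τ_sub, Complex.add_re, Complex.sub_re]
    ring
  linarith [V.sq_nonneg (x - y)]

omit [Nonempty S] [Fintype S] in
theorem ubdd_const (x : R) : UBdd V (fun _ : State Ω S => x) := by
  obtain ⟨C, hC⟩ := V.bounded x
  obtain ⟨D, hD⟩ := V.bounded (star x)
  refine ⟨max C D, hC.1.trans (le_max_left _ _), fun s y => ⟨?_, ?_⟩⟩
  · exact (V.sq_mul_le hC y).trans (mul_le_mul_of_nonneg_right
      (pow_le_pow_left₀ hC.1 (le_max_left _ _) 2) (V.sq_nonneg y))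
  · exact (V.sq_mul_right_le hD y).trans (mul_le_mul_of_nonneg_right
      (pow_le_pow_left₀ hD.1 (le_max_right _ _) 2) (V.sq_nonneg y))

omit [Nonempty S] [Fintype S] in
theorem UBdd.mul {f g : State Ω S → R} (hf : UBdd V f) (hg : UBdd V g) : UBdd V (f * g) := by
  obtain ⟨C, hC, h⟩ := hf
  obtain ⟨D, hD, h'⟩ := hg
  refine ⟨C * D, mul_nonneg hC hD, fun s y => ⟨?_, ?_⟩⟩
  · rw [Pi.mul_apply, mul_assoc, mul_pow, mul_assoc]
    exact (h s _).1.trans (mul_le_mul_of_nonneg_left (h' s y).1 (pow_two_nonneg C))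
  · rw [Pi.mul_apply, ← mul_assoc y, mul_pow, mul_comm (C ^ 2)]
    refine (h' s _).2.trans ?_
    rw [mul_assoc]
    exact mul_le_mul_of_nonneg_left (h s y).2 (pow_two_nonneg D)

omit [Nonempty S] [Fintype S] in
theorem UBdd.add {f g : State Ω S → R} (hf : UBdd V f) (hg : UBdd V g) : UBdd V (f + g) := by
  obtain ⟨C, hC, h⟩ := hf
  obtain ⟨D, hD, h'⟩ := hg
  refine ⟨2 * (C + D), by linarith, fun s y => ⟨?_, ?_⟩⟩
  · rw [Pi.add_apply, add_mul]
    nlinarith [Env.sq_add_le (V := V) (f s * y) (g s * y), (h s y).1, (h' s y).1, V.sq_nonneg y,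
      mul_nonneg (mul_nonneg hC hD) (V.sq_nonneg y), mul_nonneg (pow_two_nonneg C) (V.sq_nonneg y),
      mul_nonneg (pow_two_nonneg D) (V.sq_nonneg y)]
  · rw [Pi.add_apply, mul_add]
    nlinarith [Env.sq_add_le (V := V) (y * f s) (y * g s), (h s y).2, (h' s y).2, V.sq_nonneg y,
      mul_nonneg (mul_nonneg hC hD) (V.sq_nonneg y), mul_nonneg (pow_two_nonneg C) (V.sq_nonneg y),
      mul_nonneg (pow_two_nonneg D) (V.sq_nonneg y)]

omit [Nonempty S] [Fintype S] in
theorem UBdd.smul {f : State Ω S → R} (hf : UBdd V f) (c : ℂ) : UBdd V (c • f) := by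
  have h : c • f = (fun _ => algebraMap ℂ R c) * f := by
    funext s
    simp [Algebra.smul_def]
  rw [h]
  exact (ubdd_const _).mul hf

omit [Nonempty S] [Fintype S] in
theorem UBdd.sub {f g : State Ω S → R} (hf : UBdd V f) (hg : UBdd V g) : UBdd V (f - g) := by
  simpa [sub_eq_add_neg] using hf.add (hg.smul (-1))

omit [Nonempty S] [Fintype S] in
theorem UBdd.star {f : State Ω S → R} (hf : UBdd V f) : UBdd V (Star.star f) := by
  obtain ⟨C, hC, h⟩ := hf
  refine ⟨C, hC, fun s y => ⟨?_, ?_⟩⟩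
  · have h1 := (h s (Star.star y)).2
    rwa [V.sq_star y, ← V.sq_star, star_mul, star_star] at h1
  · have h1 := (h s (Star.star y)).1
    rwa [V.sq_star y, ← V.sq_star, star_mul, star_star] at h1

omit [Nonempty S] in
theorem Small.add {f g : State Ω S → R} (hf : Small V f) (hg : Small V g) : Small V (f + g) :=
  squeeze_zero (fun _ => norm_nonneg _)
    (g := fun i => ‖toVec V S i f‖ + ‖toVec V S i g‖)
    (fun i => by rw [map_add]; exact norm_add_le _ _) (by simpa using Tendsto.add hf hg)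

omit [Nonempty S] in
theorem small_zero : Small V (0 : State Ω S → R) := by
  simpa [Small] using tendsto_const_nhds

omit [Nonempty S] in
theorem Small.smul {f : State Ω S → R} (hf : Small V f) (c : ℂ) : Small V (c • f) := by
  simpa [Small, norm_smul] using Tendsto.const_mul ‖c‖ hf

omit [Nonempty S] in
theorem Small.mul_left {f g : State Ω S → R} (hf : UBdd V f) (hg : Small V g) :
    Small V (f * g) := by
  obtain ⟨C, hC, h⟩ := hf
  refine squeeze_zero (fun _ => norm_nonneg _)
    (fun i => toVec_norm_le i hC fun s => (h s (g s)).1) ?_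
  simpa using Tendsto.const_mul C hg

omit [Nonempty S] in
theorem Small.mul_right {f g : State Ω S → R} (hf : Small V f) (hg : UBdd V g) :
    Small V (f * g) := by
  obtain ⟨C, hC, h⟩ := hg
  refine squeeze_zero (fun _ => norm_nonneg _)
    (fun i => toVec_norm_le i hC fun s => (h s (f s)).2) ?_
  simpa using Tendsto.const_mul C hf

omit [Nonempty S] in
theorem Small.star {f : State Ω S → R} (hf : Small V f) : Small V (Star.star f) := by
  refine squeeze_zero (fun _ => norm_nonneg _)
    (fun i => toVec_norm_le i zero_le_one (g := f) fun s => ?_) ?_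
  · simp [V.sq_star]
  · simpa [Small] using hf

/-- A negligible family has negligible mean trace. -/
theorem Small.mean_trace {f : State Ω S → R} (hf : Small V f) :
    Tendsto (fun i => mean i fun s => V.τ (f s)) (seedFilter Ω) (𝓝 0) := by
  refine squeeze_zero_norm (fun i => ?_) hf
  have h := norm_inner_le_norm (𝕜 := ℂ) (toVec V S i 1) (toVec V S i f)
  rw [norm_toVec_one, one_mul, vec_inner] at h
  refine le_of_eq_of_le ?_ h
  refine congrArg norm (congrArg (mean i) (funext fun s => ?_))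
  change _ = V.τ (Star.star (1 : R) * f s)
  rw [star_one, one_mul]

/-- The undecided mass at finitely many translates, as a function on `Ω`. -/
noncomputable def undecidedSum {K : ℕ} (g : Fin K → V.Mover) (s : State Ω S) : C(Ω, ℂ) :=
  ∑ j, (⟨fun ω => (undecided s ((g j).T ω) : ℂ),
      ((s.isLocallyConstant.comp_continuous (g j).T.continuous).comp
        fun o : Option S => (((if o.isNone then 1 else 0 : ℝ)) : ℂ)).continuous⟩ : C(Ω, ℂ))

omit [Fintype S] [Nonempty S] in
theorem undecidedSum_apply {K : ℕ} (g : Fin K → V.Mover) (s : State Ω S) (ω : Ω) :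
    undecidedSum g s ω = ((∑ j, undecided s ((g j).T ω) : ℝ) : ℂ) := by
  simp [undecidedSum, ContinuousMap.coe_sum, Finset.sum_apply]
  rfl

/-- A bound by the undecided mass at finitely many translates makes a family negligible. -/
theorem small_of_undecided {d : State Ω S → C(Ω, ℂ)} {K : ℕ} (g : Fin K → V.Mover) {C : ℝ}
    (hd : ∀ s ω, ‖d s ω‖ ^ 2 ≤ C * ∑ j, undecided s ((g j).T ω)) :
    Small V fun s => V.ι (d s) := by
  have hC : ∀ i : Idx Ω, i.Ps.length = ⌈i.T / i.θ⌉₊ →
      ‖toVec V S i fun s => V.ι (d s)‖ ^ 2 ≤ |C| * (K * Real.exp (-i.T)) := by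
    intro i hl
    rw [vec_norm_sq]
    let D : State Ω S → C(Ω, ℂ) := undecidedSum g
    let φ : C(Ω, ℂ) →ₗ[ℝ] ℝ := Complex.reLm.comp (V.μ.restrictScalars ℝ)
    have hφ : ∀ a b : C(Ω, ℂ), (∀ ω, a ω ≤ b ω) → φ a ≤ φ b := by
      intro a b h
      have := (Complex.nonneg_iff.1 (V.μ_nonneg (b - a) fun ω => by
        simpa using h ω)).1
      rw [map_sub, Complex.sub_re] at this
      exact sub_nonneg.1 this
    have h1 : ∀ s, V.sq (V.ι (d s)) ≤ φ (|C| • D s) := by
      intro s
      rw [Env.sq, ← map_star, ← map_mul, V.τ_ι]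
      refine hφ _ _ fun ω => ?_
      have h := (hd s ω).trans (mul_le_mul_of_nonneg_right (le_abs_self C)
        (Finset.sum_nonneg fun j _ => by unfold undecided; split <;> norm_num))
      simp only [ContinuousMap.mul_apply, ContinuousMap.star_apply, RCLike.star_def,
        Complex.conj_mul', D, ContinuousMap.smul_apply, undecidedSum_apply, Complex.real_smul,
        ← Complex.ofReal_mul, ← Complex.ofReal_pow]
      exact Complex.real_le_real.2 h
    refine (run_mono i.pos.le i.le_one _ _ h1).trans ?_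
    rw [← map_run φ, run_smul, map_smul, smul_eq_mul]
    refine mul_le_mul_of_nonneg_left ?_ (abs_nonneg C)
    refine (hφ _ (((K * Real.exp (-i.T) : ℝ) : ℂ) • 1) fun ω => ?_).trans (le_of_eq ?_)
    · let ev : C(Ω, ℂ) →ₗ[ℝ] ℂ :=
        { toFun := fun f => f ω, map_add' := fun _ _ => rfl, map_smul' := fun _ _ => rfl }
      change ev (run i.θ i.Ps D (State.empty Ω S)) ≤ _
      rw [map_run ev]
      have h2 : ∀ s, ev (D s) = Complex.ofRealLI.toLinearMap (∑ j, undecided s ((g j).T ω)) := by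
        intro s
        exact undecidedSum_apply g s ω
      rw [run_congr _ _ h2, ← map_run]
      simp only [ContinuousMap.smul_apply, ContinuousMap.one_apply, smul_eq_mul, mul_one]
      refine Complex.real_le_real.2 ?_
      have h3 : run i.θ i.Ps (fun s => ∑ j, undecided s ((g j).T ω)) (State.empty Ω S) =
          ∑ j, run i.θ i.Ps (fun s => undecided s ((g j).T ω)) (State.empty Ω S) := by
        induction (Finset.univ : Finset (Fin K)) using Finset.induction with
        | empty => simpa using run_const (0 : ℝ) i.Ps (State.empty Ω S)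
        | insert j t hj ih => simp only [Finset.sum_insert hj, run_add, ih]
      rw [h3, Algebra.algebraMap_self, RingHom.id_apply]
      refine ((Finset.sum_le_sum fun j _ => run_undecided_le (S := S) i.pos i.le_one i.Ps hl _).trans
        (le_of_eq ?_) :)
      simp
    · simp only [φ, LinearMap.comp_apply, LinearMap.restrictScalars_apply, map_smul, V.μ_one,
        smul_eq_mul, mul_one, Complex.reLm_coe, Complex.ofReal_re]
  have hlim : Tendsto (fun i : Idx Ω => Real.sqrt (|C| * (K * Real.exp (-i.T)))) (seedFilter Ω)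
      (𝓝 0) := by
    simpa using ((tendsto_exp_mass.const_mul (K : ℝ)).const_mul |C|).sqrt
  refine squeeze_zero' (Eventually.of_forall fun _ => norm_nonneg _) ?_ hlim
  filter_upwards [eventually_length] with i hl
  exact Real.le_sqrt_of_sq_le (hC i hl)

end Vale.Agent.P078.All
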