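import Vale.Agent.P078.All.EnvBasic

/-!
Local rules on the seeds at finitely many translates are, where everything is decided, a coefficient
plus a combination of centred monomials at distinct translates.
-/

namespace Vale.Agent.P078.All

variable {Ω : Type} [TopologicalSpace Ω] [CompactSpace Ω] [T2Space Ω] [TotallyDisconnectedSpace Ω]
  {R : Type} [Ring R] [StarRing R] [Algebra ℂ R] [StarModule ℂ R]

/-- The fixed point sets of the movers are open. -/
def Env.FixOpen (V : Env R Ω) : Prop := ∀ g : V.Mover, IsOpen {ω | g.T ω = ω}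

variable {V : Env R Ω}

theorem Env.FixOpen.isClopen_eq (hFix : V.FixOpen) (g h : V.Mover) :
    IsClopen {ω | g.T ω = h.T ω} := by
  refine ⟨isClosed_eq g.T.continuous h.T.continuous, ?_⟩
  convert hFix (g.mul h.inv) using 1
  ext ω
  constructor
  · intro hω
    change h.T.symm (g.T ω) = ω
    rw [show g.T ω = h.T ω from hω, Homeomorph.symm_apply_apply]
  · intro hω
    have : h.T.symm (g.T ω) = ω := hω
    calc g.T ω = h.T (h.T.symm (g.T ω)) := (h.T.apply_symm_apply _).symm
      _ = h.T ω := by rw [this]

variable (V) in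
/-- The combinations of values of monomials. -/
noncomputable def valSpan (S : Type) [Fintype S] : Submodule ℂ (State Ω S → C(Ω, ℂ)) :=
  Submodule.span ℂ (Set.range fun q : Mono V S => q.val)

variable {S : Type} [Fintype S]

theorem Mono.val_apply (q : Mono V S) (s : State Ω S) (ω : Ω) :
    q.val s ω = q.coef ω * ∏ j, (s ((q.site j).g.T ω)).elim 0 (q.site j).h := by
  simp [Mono.val]

theorem local_poly [Nonempty S] (hFix : V.FixOpen) {K : ℕ} (g : Fin K → V.Mover)
    (F : Ω → (Fin K → S) → ℂ) (hF : ∀ π, Continuous fun ω => F ω π) :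
    ∃ m : C(Ω, ℂ), ∃ P ∈ valSpan V S,
      (∀ ω, ∀ t : Finset (Fin K → S),
        (∀ π, π ∈ t ↔ ∀ j k, (g j).T ω = (g k).T ω → π j = π k) →
        ∑ π ∈ t, F ω π = m ω * t.card) ∧
      ∀ s ω π, (∀ j, s ((g j).T ω) = some (π j)) → F ω π = m ω + P s ω := by
  classical
  have hcl : ∀ j k : Fin K, IsClopen {ω | (g j).T ω = (g k).T ω} := fun j k =>
    hFix.isClopen_eq (g j) (g k)
  -- the representative of each translate
  let rep : Ω → Fin K → Fin K := fun ω j => Fin.find (fun k => (g k).T ω = (g j).T ω) ⟨j, rfl⟩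
  have hrep : ∀ ω j, (g (rep ω j)).T ω = (g j).T ω := fun ω j =>
    Fin.find_spec (p := fun k => (g k).T ω = (g j).T ω) ⟨j, rfl⟩
  have hrep_eq : ∀ ω j k, (g j).T ω = (g k).T ω ↔ rep ω j = rep ω k := by
    intro ω j k
    refine ⟨fun h => ?_, fun h => ?_⟩
    · simp only [rep, h]
    · rw [← hrep ω j, h, hrep ω k]
  have hlc : IsLocallyConstant rep := by
    refine IsLocallyConstant.iff_eventually_eq rep |>.2 fun ω => ?_
    have h : ∀ᶠ z in nhds ω, ∀ j k : Fin K,
        ((g j).T z = (g k).T z) = ((g j).T ω = (g k).T ω) := by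
      refine Filter.eventually_all.2 fun j => Filter.eventually_all.2 fun k => ?_
      by_cases hjk : (g j).T ω = (g k).T ω
      · filter_upwards [(hcl j k).isOpen.mem_nhds hjk] with z hz
        exact propext ⟨fun _ => hjk, fun _ => hz⟩
      · filter_upwards [(hcl j k).compl.isOpen.mem_nhds hjk] with z hz
        exact propext ⟨fun h => absurd h hz, fun h => absurd h hjk⟩
    filter_upwards [h] with z hz
    funext j
    simp only [rep, hz]
  let Z : (Fin K → Fin K) → LocallyConstant Ω Bool := fun r =>
    ⟨fun ω => decide (rep ω = r), hlc.comp fun e => decide (e = r)⟩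
  let ind : (Fin K → Fin K) → C(Ω, ℂ) := fun r =>
    ⟨fun ω => if rep ω = r then 1 else 0, (hlc.comp fun e => if e = r then (1:ℂ) else 0).continuous⟩
  let Fc : (Fin K → S) → C(Ω, ℂ) := fun π => ⟨fun ω => F ω π, hF π⟩
  let J : (Fin K → Fin K) → Finset (Fin K) := fun r => Finset.univ.filter fun j => r j = j
  let Cn : (Fin K → Fin K) → Finset (Fin K → S) := fun r =>
    Finset.univ.filter fun π => ∀ j, π (r j) = π j
  let h1 : S → S → ℂ := fun a b => (if b = a then 1 else 0) - 1 / (Fintype.card S : ℂ)
  have hS : (Fintype.card S : ℂ) ≠ 0 := Nat.cast_ne_zero.2 Fintype.card_ne_zero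
  have hh1 : ∀ a, ∑ b, h1 a b = 0 := by
    intro a
    simp [h1, Finset.sum_sub_distrib]
  let coef : (Fin K → Fin K) → (Fin K → S) → Finset (Fin K) → C(Ω, ℂ) := fun r σ U =>
    ((1 / (Fintype.card S : ℂ)) ^ ((J r).card - U.card)) • (ind r * Fc σ)
  have hdist : ∀ r ω, rep ω = r → ∀ j ∈ J r, ∀ k ∈ J r, (g j).T ω = (g k).T ω → j = k := by
    intro r ω hr j hj k hk h
    simp only [J, Finset.mem_filter, Finset.mem_univ, true_and] at hj hk
    rw [hrep_eq, hr, hj, hk] at h
    exact h
  -- the terms
  let term : (Fin K → Fin K) → (Fin K → S) → Finset (Fin K) → State Ω S → C(Ω, ℂ) := fun r σ U s =>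
    coef r σ U * ∏ j ∈ U, (⟨fun ω => (s ((g j).T ω)).elim 0 (h1 (σ j)),
      ((s.isLocallyConstant.comp_continuous (g j).T.continuous).comp
        fun o : Option S => o.elim 0 (h1 (σ j))).continuous⟩ : C(Ω, ℂ))
  have hterm : ∀ r σ, ∀ U ∈ (J r).powerset, U.Nonempty → term r σ U ∈ valSpan V S := by
    intro r σ U hU hne
    obtain ⟨c, hc⟩ := Nat.exists_eq_add_one_of_ne_zero (Finset.card_pos.2 hne).ne'
    let e := U.orderEmbOfFin hc
    let q : Mono V S :=
      { m := c
        site := fun i => ⟨g (e i), h1 (σ (e i)), hh1 _⟩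
        coef := coef r σ U
        supp := Z r
        coef_off := fun ω hω => by
          have : rep ω ≠ r := by simpa [Z] using hω
          simp [coef, ind, this]
        distinct := fun i k hik ω hω h => by
          have hr : rep ω = r := by simpa [Z] using hω
          have hm : ∀ i, e i ∈ J r := fun i =>
            Finset.mem_powerset.1 hU (Finset.orderEmbOfFin_mem U hc i)
          exact hik (e.injective (hdist r ω hr _ (hm i) _ (hm k) h)) }
    refine Submodule.subset_span ⟨q, ?_⟩
    funext s
    ext ω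
    rw [Mono.val_apply]
    change coef r σ U ω * ∏ i, (s ((g (e i)).T ω)).elim 0 (h1 (σ (e i))) = _
    simp only [term, ContinuousMap.mul_apply, ContinuousMap.coe_prod, Finset.prod_apply,
      ContinuousMap.coe_mk]
    congr 1
    have himg : Finset.univ.image (fun i => e i) = U :=
      Finset.coe_injective (by simp [e])
    conv_rhs => rw [← himg, Finset.prod_image fun i _ k _ h => e.injective h]
  refine ⟨∑ r, ∑ σ ∈ Cn r, coef r σ ∅,
    ∑ r, ∑ σ ∈ Cn r, ∑ U ∈ (J r).powerset.filter (·.Nonempty), term r σ U,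
    Submodule.sum_mem _ fun r _ => Submodule.sum_mem _ fun σ _ => Submodule.sum_mem _ fun U hU =>
      hterm r σ U (Finset.mem_filter.1 hU).1 (Finset.mem_filter.1 hU).2, ?_, ?_⟩
  · intro ω t ht
    set r := rep ω with hr
    have hts : t = Cn r := by
      ext π
      simp only [ht, Cn, Finset.mem_filter, Finset.mem_univ, true_and]
      refine ⟨fun h j => h _ _ (hrep ω j), fun h j k hjk => ?_⟩
      rw [← h j, ← h k, hr, (hrep_eq ω j k).1 hjk]
    have hrr : ∀ j, r (r j) = r j := fun j => (hrep_eq ω _ _).1 (hrep ω j)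
    have hcard : t.card = Fintype.card S ^ (J r).card := by
      rw [hts, ← Fintype.card_coe (J r), ← Fintype.card_fun, ← Finset.card_univ]
      refine Finset.card_nbij' (fun π j => π j.1)
        (fun φ j => φ ⟨r j, by simp [J, hrr]⟩) (fun π _ => Finset.mem_univ _)
        (fun φ _ => by simp [Cn, hrr]) ?_ ?_
      · intro π hπ
        funext j
        exact (Finset.mem_filter.1 hπ).2 j
      · intro φ _
        funext j
        have hj : r j.1 = j.1 := (Finset.mem_filter.1 j.2).2
        simp [hj]
    rw [hcard, hts]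
    simp only [ContinuousMap.coe_sum, Finset.sum_apply]
    rw [Finset.sum_eq_single r (fun r' _ hr' => by simp [coef, ind, ← hr, Ne.symm hr']) (by simp),
      Finset.sum_mul]
    refine Finset.sum_congr rfl fun σ _ => ?_
    simp only [coef, ind, Fc, Finset.card_empty, Nat.sub_zero, ContinuousMap.smul_apply,
      ContinuousMap.mul_apply, ContinuousMap.coe_mk, ← hr, if_true, one_mul, smul_eq_mul,
      Nat.cast_pow]
    rw [mul_right_comm, ← mul_pow, one_div_mul_cancel hS, one_pow, one_mul]
  · intro s ω π hs
    set r := rep ω with hr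
    have hπ : ∀ j, π (r j) = π j := fun j => by
      have h := hs (r j)
      rw [hrep ω j, hs j] at h
      exact (Option.some_injective _ h).symm
    have hmem : π ∈ Cn r := by simpa [Cn] using hπ
    have hterm' : ∀ σ, ∀ U, term r σ U s ω =
        (1 / (Fintype.card S : ℂ)) ^ ((J r).card - U.card) * F ω σ *
          ∏ j ∈ U, h1 (σ j) (π j) := by
      intro σ U
      simp [term, coef, ind, Fc, ← hr, hs, mul_assoc]
    simp only [Finset.sum_apply, ContinuousMap.coe_sum]
    rw [Finset.sum_eq_single r (fun r' _ hr' => by simp [coef, ind, ← hr, Ne.symm hr']) (by simp),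
      Finset.sum_eq_single r (fun r' _ hr' => by simp [term, coef, ind, ← hr, Ne.symm hr'])
        (by simp), ← Finset.sum_add_distrib]
    have hexp : ∀ σ ∈ Cn r, coef r σ ∅ ω +
        ∑ U ∈ (J r).powerset.filter (·.Nonempty), term r σ U s ω =
        F ω σ * ∏ j ∈ J r, (if π j = σ j then 1 else 0) := by
      intro σ _
      have e : ∀ j, (if π j = σ j then (1 : ℂ) else 0) =
          h1 (σ j) (π j) + 1 / (Fintype.card S : ℂ) := fun j => by simp [h1]
      simp only [e]
      rw [Finset.prod_add, Finset.mul_sum,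
        ← Finset.sum_filter_add_sum_filter_not (J r).powerset (·.Nonempty), add_comm]
      congr 1
      · refine Finset.sum_congr rfl fun U hU => ?_
        rw [hterm', Finset.prod_const,
          Finset.card_sdiff_of_subset (Finset.mem_powerset.1 (Finset.mem_filter.1 hU).1)]
        ring
      · rw [show (J r).powerset.filter (fun U => ¬ U.Nonempty) = {∅} by
          ext U; simp +contextual [Finset.not_nonempty_iff_eq_empty]]
        simp [coef, ind, Fc, ← hr, Finset.prod_const]
        ring
    rw [Finset.sum_congr rfl hexp, Finset.sum_eq_single π ?_ (fun h => absurd hmem h)]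
    · simp
    · intro σ hσ hne
      obtain ⟨j, hj⟩ := Function.ne_iff.1 hne
      rw [Finset.prod_eq_zero (i := r j) ?_ ?_, mul_zero]
      · simpa [J] using (hrep_eq ω _ _).1 (hrep ω j)
      · rw [if_neg]
        rw [hπ j, (Finset.mem_filter.1 hσ).2 j]
        exact fun h => hj h.symm

end Vale.Agent.P078.All
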