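import Mathlib

/-!
Mean of a bounded multilinear expression in independent cell seeds: the constant, one-cell terms,
and an error quadratic in the probability of a decision.
-/

namespace Vale.Agent.P078.All.Moments

open Finset

/-- The sign of a bit. -/
def sgn (b : Bool) : ℂ := if b then 1 else -1

theorem norm_sgn (b : Bool) : ‖sgn b‖ = 1 := by cases b <;> simp [sgn]

theorem sum_sgn_mul_sgn {O : Type*} [Fintype O] [DecidableEq O] (a b : O) :
    (2 : ℂ) ^ Fintype.card O * (if a = b then 1 else 0) =
      ∑ ε : O → Bool, sgn (ε a) * sgn (ε b) := by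
  split_ifs with h
  · subst h
    have : ∀ ε : O → Bool, sgn (ε a) * sgn (ε a) = 1 := fun ε => by cases ε a <;> simp [sgn]
    simp [this]
  · rw [mul_zero]
    symm
    refine Finset.sum_involution (fun ε _ => Function.update ε a (!(ε a))) (fun ε _ => ?_)
      (fun ε _ _ => ?_) (fun ε _ => Finset.mem_univ _) (fun ε _ => ?_)
    · rw [Function.update_self, Function.update_of_ne (Ne.symm h)]
      cases ε a <;> cases ε b <;> simp [sgn]
    · intro e
      have := congrFun e a
      rw [Function.update_self] at this
      cases hεa : ε a <;> simp [hεa] at this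
    · simp

set_option linter.unusedSectionVars false

variable {I O : Type*} [Fintype I] [DecidableEq I] [Fintype O] [DecidableEq O]

/-- `A` is bounded by `B` against products of functions bounded by one. -/
def Bounded (A : (I → O) → ℂ) (B : ℝ) : Prop :=
  ∀ z : I → O → ℂ, (∀ i o, ‖z i o‖ ≤ 1) → ‖∑ r, A r * ∏ i, z i (r i)‖ ≤ B

/-- The indicator that two slots agree (`b = true`) or differ (`b = false`). -/
def rel (e : I × I × Bool) (r : I → O) : ℂ := if decide (r e.1 = r e.2.1) = e.2.2 then 1 else 0

theorem Bounded.nonneg {A : (I → O) → ℂ} {B : ℝ} (h : Bounded A B) : 0 ≤ B :=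
  (norm_nonneg _).trans (h (fun _ _ => 0) fun _ _ => by simp)

theorem Bounded.rel_list {A : (I → O) → ℂ} {B : ℝ} (h : Bounded A B) (L : List (I × I × Bool)) :
    ∀ z : I → O → ℂ, (∀ i o, ‖z i o‖ ≤ 1) →
      ‖∑ r, A r * (∏ i, z i (r i)) * (L.map fun e => rel e r).prod‖ ≤ 2 ^ L.length * B := by
  induction L with
  | nil => intro z hz; simpa using h z hz
  | cons e L ih =>
    obtain ⟨i, k, b⟩ := e
    intro z hz
    set X : (I → O) → ℂ := fun r => A r * (∏ i, z i (r i)) * (L.map fun e => rel e r).prod with hX
    have heq : ‖∑ r, X r * (if r i = r k then 1 else 0)‖ ≤ 2 ^ L.length * B := by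
      let z' : (O → Bool) → I → O → ℂ := fun ε j o =>
        z j o * (if j = i then sgn (ε o) else 1) * (if j = k then sgn (ε o) else 1)
      have hz' : ∀ ε j o, ‖z' ε j o‖ ≤ 1 := fun ε j o => by
        simp only [z', norm_mul]
        split_ifs <;> simp [norm_sgn, hz j o]
      have hprod : ∀ ε (r : I → O), ∏ j, z' ε j (r j) =
          (∏ j, z j (r j)) * (sgn (ε (r i)) * sgn (ε (r k))) := fun ε r => by
        simp only [z', Finset.prod_mul_distrib, Finset.prod_ite_eq', Finset.mem_univ, if_true]
        ring
      have e1 : (2 : ℂ) ^ Fintype.card O * (∑ r, X r * (if r i = r k then 1 else 0)) =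
          ∑ ε : O → Bool, ∑ r, A r * (∏ j, z' ε j (r j)) * (L.map fun e => rel e r).prod := by
        rw [Finset.mul_sum, Finset.sum_comm]
        refine Finset.sum_congr rfl fun r _ => ?_
        rw [mul_left_comm, sum_sgn_mul_sgn, Finset.mul_sum]
        refine Finset.sum_congr rfl fun ε _ => ?_
        rw [hprod]
        simp only [hX]
        ring
      have e2 : (2 : ℝ) ^ Fintype.card O * ‖∑ r, X r * (if r i = r k then 1 else 0)‖ ≤
          (2 : ℝ) ^ Fintype.card O * (2 ^ L.length * B) := by
        calc (2 : ℝ) ^ Fintype.card O * ‖∑ r, X r * (if r i = r k then 1 else 0)‖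
            = ‖(2 : ℂ) ^ Fintype.card O * (∑ r, X r * (if r i = r k then 1 else 0))‖ := by simp
          _ ≤ ∑ ε : O → Bool, ‖∑ r, A r * (∏ j, z' ε j (r j)) *
              (L.map fun e => rel e r).prod‖ := e1 ▸ norm_sum_le _ _
          _ ≤ ∑ _ε : O → Bool, 2 ^ L.length * B := Finset.sum_le_sum fun ε _ => ih _ (hz' ε)
          _ = _ := by simp
      exact le_of_mul_le_mul_left e2 (by positivity)
    have hB := mul_nonneg (pow_nonneg zero_le_two L.length : (0 : ℝ) ≤ 2 ^ L.length) h.nonneg
    cases b with
    | true =>
      have : ∀ r, A r * (∏ i, z i (r i)) * (((i, k, true) :: L).map fun e => rel e r).prod =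
          X r * (if r i = r k then 1 else 0) := fun r => by
        simp only [List.map_cons, List.prod_cons, rel, decide_eq_true_eq, hX]
        ring
      simp only [this, List.length_cons, pow_succ]
      linarith
    | false =>
      have : ∀ r, A r * (∏ i, z i (r i)) * (((i, k, false) :: L).map fun e => rel e r).prod =
          X r - X r * (if r i = r k then 1 else 0) := fun r => by
        simp only [List.map_cons, List.prod_cons, rel, decide_eq_false_iff_not, hX]
        split_ifs <;> ring
      simp only [this, Finset.sum_sub_distrib, List.length_cons, pow_succ]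
      refine (norm_sub_le _ _).trans ?_
      have := ih z hz
      simp only [hX] at heq ⊢
      linarith

variable {n : ℕ}

/-- The equalities and the empty slots of a choice of cells. -/
def kern (r : I → Option (Fin n)) : (I → I → Bool) × (I → Bool) :=
  (fun i k => decide (r i = r k), fun i => decide (r i = none))

/-- The blocks of slots sharing a cell. -/
def pattern (r : I → Option (Fin n)) : Finset (Finset I) :=
  (univ.filter fun i => r i ≠ none).image fun i => univ.filter fun k => r k = r i

/-- The slots `J` in the cell `c`. -/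
def cst (J : Finset I) (c : Fin n) : I → Option (Fin n) := fun i => if i ∈ J then some c else none

/-- The weight of a choice of cells. -/
def weight (m : Finset I → ℂ) (r : I → Option (Fin n)) : ℂ :=
  ∏ c, m (univ.filter fun i => r i = some c)

theorem pattern_congr {r r' : I → Option (Fin n)} (h : kern r = kern r') :
    pattern r = pattern r' := by
  simp only [kern, Prod.mk.injEq, funext_iff, decide_eq_decide] at h
  simp only [pattern, ne_eq, h.1, h.2]

theorem weight_eq_prod_pattern {m : Finset I → ℂ} (hm : m ∅ = 1) (r : I → Option (Fin n)) :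
    weight m r = ∏ b ∈ pattern r, m b := by
  set f : Fin n → Finset I := fun c => univ.filter fun i => r i = some c with hf
  have himg : pattern r = (univ.filter fun c => (f c).Nonempty).image f := by
    ext b
    simp only [pattern, mem_image, mem_filter, mem_univ, true_and]
    constructor
    · rintro ⟨i, hi, rfl⟩
      obtain ⟨c, hc⟩ := Option.ne_none_iff_exists'.1 hi
      exact ⟨c, ⟨i, by simp [hf, hc]⟩, by simp [hf, hc]⟩
    · rintro ⟨c, ⟨i, hi⟩, rfl⟩
      simp only [hf, mem_filter, mem_univ, true_and] at hi
      exact ⟨i, by simp [hi], by simp [hf, hi]⟩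
  rw [himg, prod_image]
  · rw [prod_filter_of_ne]
    · rfl
    · intro c _ hne
      rw [nonempty_iff_ne_empty]
      exact fun e => hne (by rw [e, hm])
  · intro c hc d _ hcd
    obtain ⟨i, hi⟩ := (mem_filter.1 hc).2
    have h2 : i ∈ f d := hcd ▸ hi
    simp only [hf, mem_filter, mem_univ, true_and] at hi h2
    exact Option.some.inj (hi.symm.trans h2)

theorem pattern_eq_empty_iff (r : I → Option (Fin n)) : pattern r = ∅ ↔ r = fun _ => none := by
  simp only [pattern, image_eq_empty, filter_eq_empty_iff, mem_univ, true_implies, not_not]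
  exact ⟨fun h => funext h, fun h i => congrFun h i⟩

theorem pattern_cst {J : Finset I} (hJ : J.Nonempty) (c : Fin n) : pattern (cst J c) = {J} := by
  have h1 : univ.filter (fun i => cst J c i ≠ none) = J := by ext i; simp [cst]
  rw [pattern, h1, Finset.image_congr (g := fun _ => J), Finset.image_const hJ]
  intro i hi
  ext k
  simp [cst, Finset.mem_coe.1 hi]

theorem exists_cst_of_card_eq_one {r : I → Option (Fin n)} (h : (pattern r).card = 1) :
    ∃ (J : Finset I) (c : Fin n), J.Nonempty ∧ r = cst J c := by
  obtain ⟨J, hJ⟩ := card_eq_one.1 h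
  obtain ⟨i₀, hi₀, hb⟩ : ∃ i, r i ≠ none ∧ (univ.filter fun k => r k = r i) = J := by
    have : J ∈ pattern r := by simp [hJ]
    simpa [pattern] using this
  obtain ⟨c, hc⟩ := Option.ne_none_iff_exists'.1 hi₀
  refine ⟨J, c, ⟨i₀, by simp [← hb]⟩, funext fun i => ?_⟩
  by_cases hi : r i = none
  · simp [cst, ← hb, hi, hc]
  · have : (univ.filter fun k => r k = r i) ∈ pattern r :=
      mem_image.2 ⟨i, by simp [hi], rfl⟩
    rw [hJ, mem_singleton] at this
    have hiJ : i ∈ J := this ▸ (by simp)
    have h2 : r i = r i₀ := by rw [← hb] at hiJ; simpa using hiJ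
    simp [cst, hiJ, h2, hc]

/-- The mean of a bounded expression: one-cell terms and a quadratic error. -/
theorem norm_sum_weight_le {A : (I → Option (Fin n)) → ℂ} {B : ℝ} (hA : Bounded A B)
    {m : Finset I → ℂ} {θ M : ℝ} (hθ : 0 ≤ θ) (hθ1 : θ ≤ 1) (hM : 1 ≤ M) (hm0 : m ∅ = 1)
    (hm1 : ∀ i, m {i} = 0) (hm : ∀ b, b.Nonempty → ‖m b‖ ≤ θ * M) :
    ‖∑ r, weight m r * A r - A fun _ => none‖ ≤
      θ * M * ∑ J : Finset I with 2 ≤ J.card, ‖∑ c, A (cst J c)‖ +
        θ ^ 2 * (M ^ Fintype.card I *
          Fintype.card ((I → I → Bool) × (I → Bool)) * 2 ^ (Fintype.card I ^ 2)) * B := by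
  classical
  have hB := hA.nonneg
  set p : (I → Option (Fin n)) → ℕ := fun r => (pattern r).card with hp
  set g : (I → Option (Fin n)) → ℂ := fun r => if 2 ≤ p r then weight m r else 0 with hg
  set N := Fintype.card I
  have hsplit : ∑ r, weight m r * A r - (A fun _ => none) =
      (∑ J : Finset I with 2 ≤ J.card, m J * ∑ c, A (cst J c)) + ∑ r, g r * A r := by
    have h1 : ∑ r, weight m r * A r = (∑ r with p r = 0, weight m r * A r) +
        (∑ r with p r = 1, weight m r * A r) + ∑ r, g r * A r := by
      rw [Finset.sum_filter, Finset.sum_filter, ← Finset.sum_add_distrib,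
        ← Finset.sum_add_distrib]
      refine Finset.sum_congr rfl fun r _ => ?_
      simp only [hg]
      rcases Nat.lt_or_ge (p r) 2 with h | h
      · interval_cases p r <;> simp
      · simp [show p r ≠ 0 by omega, show p r ≠ 1 by omega, h]
    have h2 : ∑ r with p r = 0, weight m r * A r = A fun _ => none := by
      have : (univ.filter fun r : I → Option (Fin n) => p r = 0) = {fun _ => none} := by
        ext r
        simp [hp, card_eq_zero, pattern_eq_empty_iff]
      rw [this, sum_singleton, weight_eq_prod_pattern hm0,
        (pattern_eq_empty_iff _).2 rfl, prod_empty, one_mul]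
    have h3 : ∑ r with p r = 1, weight m r * A r =
        ∑ J : Finset I with 2 ≤ J.card, m J * ∑ c, A (cst J c) := by
      have e1 : ∑ r with p r = 1, weight m r * A r =
          ∑ q ∈ (univ.filter fun J : Finset I => J.Nonempty) ×ˢ (univ : Finset (Fin n)),
            m q.1 * A (cst q.1 q.2) := by
        symm
        refine Finset.sum_bij (fun q _ => cst q.1 q.2) (fun q hq => ?_) (fun q hq q' hq' e => ?_)
          (fun r hr => ?_) (fun q hq => ?_)
        · simp only [mem_product, mem_filter, mem_univ, true_and, and_true] at hq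
          simp [hp, pattern_cst hq]
        · simp only [mem_product, mem_filter, mem_univ, true_and, and_true] at hq hq'
          have hJ : q.1 = q'.1 := by
            have := pattern_cst hq q.2
            rw [e, pattern_cst hq'] at this
            exact (singleton_inj.1 this).symm
          obtain ⟨i, hi⟩ := hq
          have hc := congrFun e i
          simp only [cst, hi, ← hJ, if_true, Option.some.injEq] at hc
          exact Prod.ext hJ hc
        · obtain ⟨J, c, hJ, rfl⟩ := exists_cst_of_card_eq_one (mem_filter.1 hr).2
          exact ⟨(J, c), by simp [hJ], rfl⟩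
        · simp only [mem_product, mem_filter, mem_univ, true_and, and_true] at hq
          rw [weight_eq_prod_pattern hm0, pattern_cst hq, prod_singleton]
      rw [e1, Finset.sum_product, Finset.sum_filter, Finset.sum_filter]
      refine Finset.sum_congr rfl fun J _ => ?_
      by_cases h2 : 2 ≤ J.card
      · rw [if_pos h2, if_pos (card_pos.1 (by omega)), Finset.mul_sum]
      · rw [if_neg h2]
        split_ifs with hne
        · obtain ⟨i, rfl⟩ := card_eq_one.1 (by have := card_pos.2 hne; omega : J.card = 1)
          simp [hm1]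
        · rfl
    rw [h1, h2, h3]
    ring
  rw [hsplit]
  refine (norm_add_le _ _).trans (add_le_add ?_ ?_)
  · refine (norm_sum_le _ _).trans ?_
    rw [Finset.mul_sum]
    refine Finset.sum_le_sum fun J hJ => ?_
    rw [norm_mul]
    exact mul_le_mul_of_nonneg_right (hm J (card_pos.1 (by
      have := (mem_filter.1 hJ).2; omega))) (norm_nonneg _)
  · rw [← Finset.sum_fiberwise univ kern fun r => g r * A r]
    refine (norm_sum_le _ _).trans ?_
    rw [show θ ^ 2 * (M ^ N * (Fintype.card ((I → I → Bool) × (I → Bool))) * 2 ^ (N ^ 2)) * B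
      = ∑ _K : (I → I → Bool) × (I → Bool), θ ^ 2 * M ^ N * (2 ^ (N ^ 2) * B) by simp; ring]
    refine Finset.sum_le_sum fun K _ => ?_
    by_cases hK : ∃ r₀ : I → Option (Fin n), kern r₀ = K ∧ 2 ≤ p r₀
    swap
    · rw [Finset.sum_eq_zero fun r hr => ?_, norm_zero]
      · positivity
      · simp only [hg]
        rw [if_neg fun h => hK ⟨r, (mem_filter.1 hr).2, h⟩, zero_mul]
    obtain ⟨r₀, hr₀, hp₀⟩ := hK
    have hw : ‖weight m r₀‖ ≤ θ ^ 2 * M ^ N := by
      rw [weight_eq_prod_pattern hm0, norm_prod]
      refine (Finset.prod_le_prod (fun b _ => norm_nonneg _) fun b hb => hm b ?_).trans ?_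
      · obtain ⟨i, hi, rfl⟩ := mem_image.1 hb
        exact ⟨i, by simp⟩
      · rw [prod_const, mul_pow]
        refine mul_le_mul (pow_le_pow_of_le_one hθ hθ1 hp₀) (pow_le_pow_right₀ hM ?_)
          (pow_nonneg (zero_le_one.trans hM) _) (pow_nonneg hθ _)
        exact card_image_le.trans (card_filter_le _ _)
    let L : List (I × I × Bool) :=
      (univ : Finset (I × I)).toList.map fun e => (e.1, e.2, K.1 e.1 e.2)
    let z : I → Option (Fin n) → ℂ := fun i o => if decide (o = none) = K.2 i then 1 else 0
    have hind : ∀ r, (∏ i, z i (r i)) * (L.map fun e => rel e r).prod =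
        if kern r = K then 1 else 0 := fun r => by
      simp only [L, List.map_map, Function.comp_def, rel, z]
      rw [Finset.prod_map_toList, Finset.prod_ite_zero, Finset.prod_ite_zero]
      simp only [prod_const_one, ite_zero_mul_ite_zero, mul_one]
      refine if_congr ⟨fun h => Prod.ext (funext fun i => funext fun k => h.2 (i, k) (mem_univ _))
        (funext fun i => h.1 i (mem_univ _)), ?_⟩ rfl rfl
      rintro rfl
      exact ⟨fun i _ => rfl, fun e _ => rfl⟩
    have hsum : ∑ r with kern r = K, g r * A r =
        weight m r₀ * ∑ r, A r * (∏ i, z i (r i)) * (L.map fun e => rel e r).prod := by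
      rw [Finset.mul_sum, Finset.sum_filter]
      refine Finset.sum_congr rfl fun r _ => ?_
      rw [mul_assoc (A r), hind]
      split_ifs with h
      · have hpat : pattern r = pattern r₀ := pattern_congr (h.trans hr₀.symm)
        have : g r = weight m r₀ := by
          simp only [hg, hp, hpat]
          rw [if_pos hp₀, weight_eq_prod_pattern hm0, weight_eq_prod_pattern hm0, hpat]
        rw [this]; ring
      · ring
    rw [hsum, norm_mul]
    have hL : L.length = N ^ 2 := by simp [L, N, sq]
    refine mul_le_mul hw ?_ (norm_nonneg _) (by positivity)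
    rw [← hL]
    exact hA.rel_list L z fun i o => by simp only [z]; split_ifs <;> simp

/-- The mean of a product of cell values is the product over cells of the moments. -/
theorem sum_prob_mul_eq_weight {X : Type*} [Fintype X] (π : X → ℂ) (η : I → X → ℂ)
    (r : I → Option (Fin n)) :
    ∑ x : Fin n → X, (∏ c, π (x c)) * ∏ i, (r i).elim 1 (fun c => η i (x c)) =
      weight (fun b => ∑ o, π o * ∏ i ∈ b, η i o) r := by
  classical
  rw [weight, Fintype.prod_sum]
  refine Finset.sum_congr rfl fun x _ => ?_
  rw [Finset.prod_mul_distrib]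
  congr 1
  have h1 : ∀ i, (r i).elim 1 (fun c => η i (x c)) = ∏ c, if r i = some c then η i (x c) else 1 := by
    intro i
    rcases r i with _ | c
    · simp
    · simp [Finset.prod_ite_eq]
  simp only [h1]
  rw [Finset.prod_comm]
  exact Finset.prod_congr rfl fun c _ => by rw [Finset.prod_filter]

end Vale.Agent.P078.All.Moments
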