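import Vale.Agent.P078.Cartan.OperatorPaving

/-!
Excess above a level: subadditivity, scaling, and the bound by an even moment of a pinching.
-/

namespace Vale.Agent.P078.All

open scoped InnerProductSpace ComplexOrder
open ContinuousLinearMap Vale.Agent.P078.Cartan

variable {H : Type} [NormedAddCommGroup H] [InnerProductSpace ℂ H] [CompleteSpace H]
variable {M : VonNeumannAlgebra H} {A : StarSubalgebra ℂ (H →L[ℂ] H)} {ι : Type} {η : ι → H}

/-- The excess of a sum is at most the sum of the excesses. -/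
theorem Phi_add_le (h : IsTrace M η) {a b : H →L[ℂ] H} (ha : a ∈ M) (hb : b ∈ M)
    (has : IsSelfAdjoint a) (hbs : IsSelfAdjoint b) (s t : ℝ) :
    Phi h (s + t) (a + b) ≤ Phi h s a + Phi h t b := by
  refine (Phi_le_of_le h (add_mem ha hb) (has.add hbs)
    (add_mem (posAbove_mem ha s) (posAbove_mem hb t)) (s + t) ?_).trans ?_
  · rw [map_add, add_sub_add_comm]
    exact add_le_add (sub_le_posAbove has s) (sub_le_posAbove hbs t)
  · rw [map_add]; exact norm_add_le _ _

/-- The excess is homogeneous. -/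
theorem Phi_smul_le (h : IsTrace M η) {a : H →L[ℂ] H} (ha : a ∈ M) (has : IsSelfAdjoint a)
    {c : ℝ} (hc : 0 ≤ c) (t : ℝ) : Phi h (c * t) ((c : ℂ) • a) ≤ c * Phi h t a := by
  have hs : IsSelfAdjoint ((c : ℂ) • a) := by
    rw [IsSelfAdjoint, star_smul, has.star_eq, RCLike.star_def, Complex.conj_ofReal]
  refine (Phi_le_of_le h (vn_smul_mem _ ha) hs (vn_smul_mem (c : ℂ) (posAbove_mem ha t)) _
    ?_).trans (le_of_eq ?_)
  · have e : (c : ℂ) • a - algebraMap ℝ (H →L[ℂ] H) (c * t)
        = c • (a - algebraMap ℝ (H →L[ℂ] H) t) := by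
      rw [smul_sub, Complex.coe_smul, Algebra.algebraMap_eq_smul_one, Algebra.algebraMap_eq_smul_one,
        smul_smul]
    rw [e, Complex.coe_smul]
    exact smul_le_smul_of_nonneg_left (sub_le_posAbove has t) hc
  · rw [map_smul, norm_smul, Complex.norm_real, Real.norm_of_nonneg hc]
    rfl

/-- The square of the excess is bounded by an even moment. -/
theorem Phi_sq_le_moment (h : IsTrace M η) {S : H →L[ℂ] H} (hS : S ∈ M) (hSs : IsSelfAdjoint S)
    {C t : ℝ} (hC : ‖S‖ ≤ C) (ht : 0 < t) (k : ℕ) :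
    Phi h t S ^ 2 ≤ C ^ 2 / t ^ (2 * k) * (tau h (S ^ (2 * k))).re := by
  have hC0 : 0 ≤ C := (norm_nonneg S).trans hC
  have hp : S ^ (2 * k) ∈ M := pow_mem hS _
  have hPs : IsSelfAdjoint (posAbove t S) := IsSelfAdjoint.of_nonneg (posAbove_nonneg t S)
  have e : Phi h t S ^ 2 = (tau h (posAbove t S * posAbove t S)).re := by
    conv_rhs => arg 1; arg 2; arg 1; rw [← hPs.star_eq]
    rw [tau_star_mul, Phi]
    exact (inner_self_eq_norm_sq (𝕜 := ℂ) _).symm
  have hle : posAbove t S * posAbove t S ≤ (C ^ 2 / t ^ (2 * k)) • S ^ (2 * k) := by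
    rw [posAbove, ← cfc_mul _ _ S, ← cfc_pow_id (R := ℝ) S (2 * k) hSs, ← cfc_smul _ _ S]
    refine cfc_mono fun s hs => ?_
    have hb := norm_apply_le_norm_cfc (fun s : ℝ => s) S hs
    rw [cfc_id' ℝ S, Real.norm_eq_abs] at hb
    rw [smul_eq_mul]
    rcases le_total s t with hst | hst
    · rw [max_eq_right (by linarith), zero_mul]
      exact mul_nonneg (by positivity) (Even.pow_nonneg (even_two_mul k) s)
    · rw [max_eq_left (by linarith)]
      have h1 : t ^ (2 * k) ≤ s ^ (2 * k) := pow_le_pow_left₀ ht.le hst _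
      have h2 : (s - t) * (s - t) ≤ C ^ 2 := by nlinarith [le_abs_self s]
      refine h2.trans ?_
      rw [div_mul_eq_mul_div, le_div_iff₀ (by positivity)]
      exact mul_le_mul_of_nonneg_left h1 (sq_nonneg C)
  rw [← Complex.coe_smul] at hle
  have := re_tau_mono h (mul_mem (posAbove_mem hS t) (posAbove_mem hS t))
    (vn_smul_mem _ hp) hle
  rw [e]
  refine this.trans (le_of_eq ?_)
  rw [tau, map_smul, inner_smul_right, Complex.re_ofReal_mul]
  rfl

/-- A power of a pinching is the sum of the powers of the blocks. -/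
theorem pinching_pow {r : ℕ} {p : Fin r → (H →L[ℂ] H)} (hp : IsPartition A p)
    (y : H →L[ℂ] H) : ∀ m : ℕ, pinching p y ^ (m + 1) = ∑ i, (p i * y * p i) ^ (m + 1)
  | 0 => by simp [pinching]
  | m + 1 => by
    rw [pow_succ, pinching_pow hp y m, Finset.sum_mul, pinching]
    refine Finset.sum_congr rfl fun i _ => ?_
    rw [Finset.mul_sum, Finset.sum_eq_single i, ← pow_succ]
    · intro j _ hj
      have : (p i * y * p i) * (p j * y * p j) = 0 := by
        rw [mul_assoc, ← mul_assoc (p i) (p j * y), ← mul_assoc (p i) (p j),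
          hp.orth i j (Ne.symm hj)]
        simp
      rw [pow_succ, mul_assoc, this, mul_zero]
    · simp

end Vale.Agent.P078.All
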