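import Vale.Agent.P078.All.OperatorRandom
import Vale.Agent.P078.All.OperatorMoment

/-!
So-paving of an arbitrary MASA of a finite algebra: the part in the algebra of the normaliser is
handled by every value of a random rule, the orthogonal part by some value.
-/

namespace Vale.Agent.P078.All

open scoped InnerProductSpace ComplexOrder
open ContinuousLinearMap Vale.Agent.P078.Cartan

variable {H : Type} [NormedAddCommGroup H] [InnerProductSpace ℂ H] [CompleteSpace H]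
variable {M : VonNeumannAlgebra H} {A : StarSubalgebra ℂ (H →L[ℂ] H)} {ι : Type} {η : ι → H}

/-- A split into a bounded limit of finite sums over the normaliser and an orthogonal part, with
the norm of the element. -/
def HasSplit (h : IsTrace M η) (A : StarSubalgebra ℂ (H →L[ℂ] H)) : Prop :=
  ∀ x ∈ M, IsSelfAdjoint x → ∃ z ∈ M, IsSelfAdjoint z ∧ ‖z‖ ≤ ‖x‖ ∧
    (∀ a ∈ A, ∀ u, IsNormaliser M A u → ⟪h.V (a * u), h.V (x - z)⟫_ℂ = 0) ∧
    ∀ g : ℝ, 0 < g → ∃ n ∈ spanN M A, IsSelfAdjoint n ∧ ‖n‖ ≤ ‖x‖ ∧ ‖h.V (z - n)‖ ≤ g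

/-- Some value of the seeds compresses an element orthogonal to the normaliser. -/
def HasCompressedSeeds [AbelianClosed A] (h : IsTrace M η) : Prop :=
  ∀ (r n : ℕ) (u : Fin n → H →L[ℂ] H) (hu : ∀ j, IsNormaliser M A (u j))
    (F : Spec A → (Fin n → Equiv.Perm (Fin r)) → Fin r), 0 < r →
    IsLocallyConstant F → (∀ ω σ π, F ω (fun j => σ * π j) = σ (F ω π)) →
    ∀ y ∈ M, IsSelfAdjoint y → ‖y‖ ≤ 1 →
    (∀ a ∈ A, ∀ v, IsNormaliser M A v → ⟪h.V (a * v), h.V y⟫_ℂ = 0) →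
    ∀ k : ℕ, 0 < k → ∀ e : ℝ, 0 < e →
      ∃ π : Spec A → Equiv.Perm (Fin r), IsLocallyConstant π ∧
        ∀ p : Fin r → (H →L[ℂ] H), IsPartition A p →
          (∀ (ω : Spec A) c,
            chi ω (p c) = if F ω (fun j => π (move (hu j) ω)) = c then 1 else 0) →
          (tau h (pinching p y ^ (2 * k))).re ≤ (2 / Real.sqrt r) ^ (2 * k) + e

/-- The expectation of an element orthogonal to the normaliser vanishes. -/
theorem expect_eq_zero_of_orth (hA : IsMasa M A) (h : IsTrace M η) {y : H →L[ℂ] H} (hy : y ∈ M)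
    (ho : ∀ a ∈ A, ∀ v, IsNormaliser M A v → ⟪h.V (a * v), h.V y⟫_ℂ = 0) : expect A y = 0 := by
  have hEA : expect A y ∈ A := expect_mem hA hy
  have h0 := ho _ hEA 1 IsNormaliser.one
  rw [mul_one, ← tau_star_mul, ← tau_mul_expect hA h (star_mem hEA) hy, tau_star_mul,
    inner_self_eq_zero] at h0
  refine h.faithful _ (expect_mem_vn hA hy) fun i => ?_
  rw [← V_apply h (expect A y) i, h0]
  rfl

/-- Pinchings keep self-adjoint contractions contractions. -/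
theorem norm_pinching_le_one {r : ℕ} {p : Fin r → (H →L[ℂ] H)} (hp : IsPartition A p)
    {y : H →L[ℂ] H} (hys : IsSelfAdjoint y) (hy1 : ‖y‖ ≤ 1) : ‖pinching p y‖ ≤ 1 := by
  have hS := pinching_isSelfAdjoint hp hys
  have hsand : ∀ i, star (p i) = p i := fun i => (hp.proj i).isSelfAdjoint.star_eq
  have key : ∀ w : H →L[ℂ] H, IsSelfAdjoint w → ‖w‖ ≤ 1 → pinching p w ≤ 1 := fun w hw hw1 => by
    have hle : w ≤ 1 := by
      rw [← map_one (algebraMap ℝ (H →L[ℂ] H))]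
      refine (le_algebraMap_iff_spectrum_le hw).2 fun t ht => ?_
      have h1 := norm_apply_le_norm_cfc (fun s : ℝ => s) w ht
      rw [cfc_id' ℝ w, Real.norm_eq_abs] at h1
      linarith [le_abs_self t]
    rw [← hp.sum_eq]
    refine Finset.sum_le_sum fun i _ => ?_
    simpa [hsand i, (hp.proj i).isIdempotentElem.eq] using
      star_left_conjugate_le_conjugate hle (p i)
  have hup := key y hys hy1
  have hlo := key (-y) hys.neg (by rwa [norm_neg])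
  rw [pinching_neg, neg_le] at hlo
  rw [← cfc_id' ℝ (pinching p y)]
  refine norm_cfc_le zero_le_one fun t ht => ?_
  rw [Real.norm_eq_abs, abs_le]
  rw [← map_one (algebraMap ℝ (H →L[ℂ] H))] at hup hlo
  rw [← map_neg] at hlo
  exact ⟨(algebraMap_le_iff_le_spectrum hS).1 hlo t ht,
    (le_algebraMap_iff_spectrum_le hS).1 hup t ht⟩

/-- A small even moment makes the excess above `5 / (2 √r)` small. -/
theorem Phi_le_of_moment (h : IsTrace M η) {S : H →L[ℂ] H} (hSM : S ∈ M) (hSs : IsSelfAdjoint S)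
    (hS1 : ‖S‖ ≤ 1) {lam d : ℝ} (hlam0 : 0 < lam) (hd : 0 ≤ d) {r k : ℕ}
    (hk : (4 / 5 : ℝ) ^ (2 * k) ≤ d ^ 2 / 2)
    (hmom : (tau h (S ^ (2 * k))).re ≤ (2 / Real.sqrt r) ^ (2 * k) + d ^ 2 / 2 * lam ^ (2 * k))
    (hlam : lam = 5 / (2 * Real.sqrt r)) : Phi h lam S ≤ d := by
  have h1 := Phi_sq_le_moment h hSM hSs hS1 hlam0 k
  rw [one_pow, one_div_mul_eq_div, le_div_iff₀ (pow_pos hlam0 _)] at h1
  have hsq : Real.sqrt r ≠ 0 := by
    intro e; rw [e, mul_zero, div_zero] at hlam; linarith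
  have e : (2 / Real.sqrt r) ^ (2 * k) = (4 / 5) ^ (2 * k) * lam ^ (2 * k) := by
    rw [← mul_pow, hlam]
    congr 1
    field_simp
    norm_num
  have h2 : Phi h lam S ^ 2 * lam ^ (2 * k) ≤ d ^ 2 * lam ^ (2 * k) := by
    refine (h1.trans hmom).trans ?_
    rw [e]
    nlinarith [mul_le_mul_of_nonneg_right hk (pow_nonneg hlam0.le (2 * k))]
  exact le_of_pow_le_pow_left₀ two_ne_zero hd (le_of_mul_le_mul_right h2 (pow_pos hlam0 _))

/-- So-paving of any MASA of a finite algebra from the random rule, the split and compression. -/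
theorem allSoPavable_all (hS : RandomSides) [AbelianClosed A] (hA : IsMasa M A)
    (hT : HasFiniteTrace M)
    (hsplit : ∀ (ι : Type) (η : ι → H) (h : IsTrace M η), HasSplit h A)
    (hcomp : ∀ (ι : Type) (η : ι → H) (h : IsTrace M η), HasCompressedSeeds (A := A) h)
    {ε : ℝ} {r : ℕ} (hr : 0 < r) (hε : 2 * (lvlTwo r + 5 / (2 * Real.sqrt r)) < ε) :
    AllSoPavable M A ε r := by
  intro x hx hxs F δ hδ
  obtain ⟨ι, η₀, hsum, hsym, hfaith⟩ := hT
  have hsq : (0 : ℝ) < Real.sqrt r := Real.sqrt_pos.2 (Nat.cast_pos.2 hr)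
  have hlvl : 0 ≤ lvlTwo r := by unfold lvlTwo; positivity
  have h52 : 0 ≤ 5 / (2 * Real.sqrt r) := by positivity
  have hε0 : 0 < ε := by linarith
  rcases eq_or_ne x 0 with hx0 | hx0
  · obtain ⟨p, hp⟩ := exists_trivial_partition (A := A) hr
    refine ⟨p, hp, 0, zero_mem A, IsSelfAdjoint.zero _, by simp, 1, one_mem M,
      IsStarProjection.one _, fun ξ _ => by simpa using hδ, ?_⟩
    simp [hx0, pinching]
  obtain ⟨m, hm⟩ : ∃ m : ℝ, m = ∑' i, ‖η₀ i‖ ^ 2 := ⟨_, rfl⟩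
  have hm0 : 0 < m := by
    refine lt_of_le_of_ne (hm ▸ tsum_nonneg fun i => sq_nonneg _) fun e => hx0 ?_
    refine hfaith x hx fun i => ?_
    have := (hasSum_zero_iff_of_nonneg fun i => sq_nonneg ‖η₀ i‖).1 (e ▸ hm ▸ hsum.hasSum)
    have h0 : η₀ i = 0 := by simpa using congrFun this i
    rw [h0, map_zero]
  obtain ⟨c, hc⟩ : ∃ c : ℝ, c = (Real.sqrt m)⁻¹ := ⟨_, rfl⟩
  have hc0 : 0 < c := hc ▸ by positivity
  have hc2 : ∀ v : H, ‖(c : ℂ) • v‖ ^ 2 = m⁻¹ * ‖v‖ ^ 2 := fun v => by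
    rw [norm_smul, mul_pow, Complex.norm_real, Real.norm_eq_abs, sq_abs, hc, inv_pow,
      Real.sq_sqrt hm0.le]
  have h : IsTrace M (fun i => (c : ℂ) • η₀ i) := by
    refine ⟨?_, ?_, fun z hz => ?_, fun z hz h0 => hfaith z hz fun i => ?_⟩
    · simp only [hc2]; exact hsum.mul_left _
    · simp only [hc2]; rw [tsum_mul_left, ← hm, inv_mul_cancel₀ hm0.ne']
    · simp only [map_smul, hc2, tsum_mul_left, hsym z hz]
    · have := h0 i
      rw [map_smul, smul_eq_zero] at this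
      exact this.resolve_left (by exact_mod_cast hc0.ne')
  -- the levels
  obtain ⟨s, hs0, hsε⟩ : ∃ s : ℝ, 0 < s ∧
      2 * (lvlTwo r + s + 5 / (2 * Real.sqrt r) + s) ≤ ε :=
    ⟨(ε / 2 - (lvlTwo r + 5 / (2 * Real.sqrt r))) / 2, by linarith, by linarith⟩
  obtain ⟨γ, hγ, hsmall⟩ := strong_small h F hδ
  obtain ⟨d, hd⟩ : ∃ d, d = s * γ / 6 := ⟨_, rfl⟩
  have hd0 : 0 < d := hd ▸ by positivity
  obtain ⟨lam, hlam⟩ : ∃ lam, lam = 5 / (2 * Real.sqrt r) := ⟨_, rfl⟩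
  have hlam0 : 0 < lam := hlam ▸ by positivity
  -- the split and the normalised parts
  obtain ⟨z, hzM, hzs, hzn, hzo, hzap⟩ := hsplit _ _ h x hx hxs
  have hmx : 0 < ‖x‖ := norm_pos_iff.2 hx0
  obtain ⟨n, hnS, hns, hnn, hnd⟩ := hzap (d * ‖x‖) (by positivity)
  have hnM := spanN_le hA hnS
  obtain ⟨a, ha⟩ : ∃ a, a = expect A x := ⟨_, rfl⟩
  have haA : a ∈ A := ha ▸ expect_mem hA hx
  have has : IsSelfAdjoint a := ha ▸ expect_isSelfAdjoint hxs
  have han : ‖a‖ ≤ ‖x‖ := ha ▸ expect_norm_le x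
  have hEy : expect A (x - z) = 0 := expect_eq_zero_of_orth hA h (sub_mem hx hzM) hzo
  have hEz : expect A z = a := by
    rw [expect_sub, sub_eq_zero] at hEy
    rw [ha, hEy]
  obtain ⟨b, hb⟩ : ∃ b : ℂ, b = (((2 * ‖x‖)⁻¹ : ℝ) : ℂ) := ⟨_, rfl⟩
  have hbs : starRingEnd ℂ b = b := by rw [hb, Complex.conj_ofReal]
  have hbn : ‖b‖ = (2 * ‖x‖)⁻¹ := by
    rw [hb, Complex.norm_real, Real.norm_of_nonneg (by positivity)]
  have hsa : ∀ w : H →L[ℂ] H, IsSelfAdjoint w → IsSelfAdjoint (b • w) := fun w hw => by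
    rw [IsSelfAdjoint, star_smul, hw.star_eq, RCLike.star_def, hbs]
  have hle1 : ∀ w : H →L[ℂ] H, ‖w‖ ≤ 2 * ‖x‖ → ‖b • w‖ ≤ 1 := fun w hw => by
    rw [norm_smul, hbn, inv_mul_le_iff₀ (by positivity), mul_one]
    exact hw
  obtain ⟨n₀, hn₀⟩ : ∃ n₀ : H →L[ℂ] H, n₀ = b • (n - expect A n) := ⟨_, rfl⟩
  obtain ⟨z₀, hz₀⟩ : ∃ z₀ : H →L[ℂ] H, z₀ = b • (z - a) := ⟨_, rfl⟩
  obtain ⟨y, hy⟩ : ∃ y : H →L[ℂ] H, y = b • (x - z) := ⟨_, rfl⟩
  have hn₀S : n₀ ∈ spanN M A := by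
    rw [hn₀]
    refine Submodule.smul_mem _ _ (sub_mem hnS ?_)
    have h1 := mem_spanN (M := M) (expect_mem hA hnM) IsNormaliser.one
    rwa [mul_one] at h1
  have hn₀s : IsSelfAdjoint n₀ := hn₀ ▸ hsa _ (hns.sub (expect_isSelfAdjoint hns))
  have hn₀1 : ‖n₀‖ ≤ 1 := hn₀ ▸ hle1 _ ((norm_sub_le _ _).trans (by
    have := expect_norm_le (A := A) n; linarith))
  have hn₀E : expect A n₀ = 0 := by
    rw [hn₀, expect_smul, expect_sub, expect_self hA (expect_mem hA hnM), sub_self, smul_zero]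
  have hz₀M : z₀ ∈ M := hz₀ ▸ vn_smul_mem _ (sub_mem hzM (hA.le _ haA))
  have hz₀s : IsSelfAdjoint z₀ := hz₀ ▸ hsa _ (hzs.sub has)
  have hzn₀ : ‖h.V (z₀ - n₀)‖ ≤ d := by
    have e : z₀ - n₀ = b • ((z - n) - expect A (z - n)) := by
      rw [hz₀, hn₀, expect_sub, hEz, ← smul_sub]
      congr 1
      abel
    rw [e, map_smul, norm_smul, hbn, inv_mul_le_iff₀ (by positivity), map_sub]
    refine (norm_sub_le _ _).trans ?_
    have := norm_V_expect_le hA h (sub_mem hzM hnM)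
    linarith
  have hyM : y ∈ M := hy ▸ vn_smul_mem _ (sub_mem hx hzM)
  have hys : IsSelfAdjoint y := hy ▸ hsa _ (hxs.sub hzs)
  have hy1 : ‖y‖ ≤ 1 := hy ▸ hle1 _ ((norm_sub_le _ _).trans (by linarith))
  have hyo : ∀ a' ∈ A, ∀ v, IsNormaliser M A v → ⟪h.V (a' * v), h.V y⟫_ℂ = 0 := fun a' ha' v hv =>
    by rw [hy, map_smul, inner_smul_right, hzo a' ha' v hv, mul_zero]
  -- the rule, then one value of the seeds
  obtain ⟨N, u, hu, G, hG, hGe, hkey⟩ := hS H M A ι _ hA h n₀ hn₀S hn₀s hn₀1 hn₀E r hr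
    (lvlTwo r + s) d (by linarith) hd0
  obtain ⟨k, hk0, hk⟩ : ∃ k : ℕ, 0 < k ∧ (4 / 5 : ℝ) ^ (2 * k) ≤ d ^ 2 / 2 := by
    obtain ⟨j, hj⟩ := exists_pow_lt_of_lt_one (show 0 < d ^ 2 / 2 by positivity)
      (show (4 / 5 : ℝ) < 1 by norm_num)
    exact ⟨j + 1, Nat.succ_pos _, (pow_le_pow_of_le_one (by norm_num) (by norm_num)
      (by omega)).trans hj.le⟩
  obtain ⟨π, hπ, hπp⟩ := hcomp _ _ h r N u hu G hr hG hGe y hyM hys hy1 hyo k hk0
    (d ^ 2 / 2 * lam ^ (2 * k)) (by positivity)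
  obtain ⟨p, hp, hκp⟩ := exists_colouring_partition
    (κ := fun ω => G ω fun j => π (move (hu j) ω)) (by
      refine (hG.prodMk ((IsLocallyConstant.iff_eventually_eq _).2 fun ω => ?_)).comp
        fun q : ((Fin N → Equiv.Perm (Fin r)) → Fin r) × (Fin N → Equiv.Perm (Fin r)) => q.1 q.2
      have h1 : ∀ᶠ w in nhds ω, ∀ j, π (move (hu j) w) = π (move (hu j) ω) :=
        Filter.eventually_all.2 fun j =>
          (hπ.comp_continuous (continuous_move (hu j))).eventually_eq ω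
      filter_upwards [h1] with w hw
      funext j
      exact hw j)
  obtain ⟨hside1, hside2⟩ := hkey π hπ p hp hκp
  have hmom := hπp p hp hκp
  have hpM : ∀ i, p i ∈ M := fun i => hA.le _ (hp.mem i)
  have hn₀M := spanN_le hA hn₀S
  -- the part in the normaliser
  have hpin : ∀ w₁ w₂ : H →L[ℂ] H, w₁ ∈ M → w₂ ∈ M → IsSelfAdjoint w₁ → IsSelfAdjoint w₂ →
      ‖h.V (w₁ - w₂)‖ ≤ d → Phi h (lvlTwo r + s) (pinching p w₂) ≤ d →
      Phi h (lvlTwo r + s) (pinching p w₁) ≤ 2 * d := fun w₁ w₂ h1 h2 h1s h2s hd12 hΦ => by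
    refine (Phi_lipschitz h (pinching_mem hA hp h1) (pinching_mem hA hp h2)
      (pinching_isSelfAdjoint hp h1s) (pinching_isSelfAdjoint hp h2s) _).trans ?_
    rw [← pinching_sub]
    have := norm_V_pinching_le h hpM hp.proj hp.orth (sub_mem h1 h2)
    linarith
  have hA1 := hpin z₀ n₀ hz₀M hn₀M hz₀s hn₀s hzn₀ hside1
  have hA2 := hpin (-z₀) (-n₀) (neg_mem hz₀M) (neg_mem hn₀M) hz₀s.neg hn₀s.neg
    (by rw [← neg_sub', map_neg, norm_neg]; exact hzn₀) hside2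
  -- the orthogonal part
  have hYn : ‖pinching p y‖ ≤ 1 := norm_pinching_le_one hp hys hy1
  have hB : ∀ S : H →L[ℂ] H, S ∈ M → IsSelfAdjoint S → ‖S‖ ≤ 1 →
      S ^ (2 * k) = pinching p y ^ (2 * k) → Phi h lam S ≤ d := fun S hSM hSs hS1 hSe =>
    Phi_le_of_moment h hSM hSs hS1 hlam0 hd0.le hk (by rw [hSe]; exact hmom) hlam
  have hYM := pinching_mem hA hp hyM
  have hYs := pinching_isSelfAdjoint hp hys
  have hB1 := hB (pinching p y) hYM hYs hYn rfl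
  have hB2 := hB (-pinching p y) (neg_mem hYM) hYs.neg (by rwa [norm_neg])
    ((even_two_mul k).neg_pow _)
  -- the sum
  obtain ⟨S, hSdef⟩ : ∃ S, S = pinching p (z₀ + y) := ⟨_, rfl⟩
  have hSM : S ∈ M := hSdef ▸ pinching_mem hA hp (add_mem hz₀M hyM)
  have hSs : IsSelfAdjoint S := hSdef ▸ pinching_isSelfAdjoint hp (hz₀s.add hys)
  have hΦ1 : Phi h (lvlTwo r + s + lam) S ≤ 3 * d := by
    rw [hSdef, pinching_add]
    exact (Phi_add_le h (pinching_mem hA hp hz₀M) hYM (pinching_isSelfAdjoint hp hz₀s) hYs _ _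
      ).trans (by linarith)
  have hΦ2 : Phi h (lvlTwo r + s + lam) (-S) ≤ 3 * d := by
    rw [hSdef, pinching_add, neg_add, ← pinching_neg p z₀]
    exact (Phi_add_le h (pinching_mem hA hp (neg_mem hz₀M)) (neg_mem hYM)
      (pinching_isSelfAdjoint hp hz₀s.neg) hYs.neg _ _).trans (by linarith)
  obtain ⟨q, hqM, hq, hqS, hqV⟩ := exists_compression h hSM hSs
    (by linarith : 0 ≤ lvlTwo r + s + lam) hs0
  refine ⟨p, hp, a, haA, has, han, q, hqM, hq, fun ξ hξ => ?_, ?_⟩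
  · refine hsmall _ (sub_mem (one_mem M) hqM) (norm_sa_proj_le hq.one_sub) ?_ ξ hξ
    have : s * ‖h.V (1 - q)‖ ≤ s * γ := by linarith
    exact le_of_mul_le_mul_left this hs0
  · have e : pinching p x - a = ((2 * ‖x‖ : ℝ) : ℂ) • S := by
      have : z₀ + y = b • (x - a) := by rw [hz₀, hy, ← smul_add]; congr 1; abel
      rw [hSdef, this, pinching_smul, pinching_sub, pinching_self hA hp haA, smul_smul, hb,
        ← Complex.ofReal_mul, mul_inv_cancel₀ (by positivity), Complex.ofReal_one, one_smul]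
    rw [e, mul_smul_comm, smul_mul_assoc, norm_smul, Complex.norm_real,
      Real.norm_of_nonneg (by positivity)]
    calc 2 * ‖x‖ * ‖q * S * q‖ ≤ 2 * ‖x‖ * (lvlTwo r + s + lam + s) :=
          mul_le_mul_of_nonneg_left hqS (by positivity)
      _ ≤ ε * ‖x‖ := by rw [hlam]; nlinarith

/-- The number of pieces: `198 / ε²`. -/
theorem exists_level_all {ε : ℝ} (hε : 0 < ε) (hε1 : ε ≤ 1) :
    ∃ r : ℕ, 0 < r ∧ (r : ℝ) ≤ 198 / ε ^ 2 ∧
      2 * (lvlTwo r + 5 / (2 * Real.sqrt r)) < ε := by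
  obtain ⟨r, hr⟩ : ∃ r : ℕ, r = ⌈196 / ε ^ 2⌉₊ + 1 := ⟨_, rfl⟩
  have hr1 : (196 / ε ^ 2 : ℝ) < r := by
    rw [hr]; push_cast; linarith [Nat.le_ceil (196 / ε ^ 2 : ℝ)]
  have hr2 : (r : ℝ) ≤ 198 / ε ^ 2 := by
    have h1 := Nat.ceil_lt_add_one (show 0 ≤ 196 / ε ^ 2 by positivity)
    have h2 : (1 : ℝ) ≤ 1 / ε ^ 2 := by
      rw [le_div_iff₀ (by positivity)]; nlinarith
    rw [hr]; push_cast
    rw [show 198 / ε ^ 2 = 196 / ε ^ 2 + 2 * (1 / ε ^ 2) by ring]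
    linarith
  have hr0 : 0 < r := by omega
  refine ⟨r, hr0, hr2, ?_⟩
  obtain ⟨u, hu⟩ : ∃ u : ℝ, u = 1 / Real.sqrt r := ⟨_, rfl⟩
  have hu0 : 0 < u := hu ▸ by positivity
  have hu2 : u ^ 2 * r = 1 := by
    rw [hu, div_pow, one_pow, Real.sq_sqrt (by positivity), one_div, inv_mul_cancel₀]
    positivity
  have e : 2 * (lvlTwo r + 5 / (2 * Real.sqrt r)) = 13 * u + 4 * u ^ 2 := by
    rw [lvlTwo, hu, div_pow, one_pow, Real.sq_sqrt (by positivity)]; field_simp; ring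
  rw [e]
  have h1 : u ^ 2 * (196 / ε ^ 2) < 1 := by
    rw [← hu2]
    exact mul_lt_mul_of_pos_left hr1 (by positivity)
  rw [mul_div_assoc', div_lt_one (by positivity)] at h1
  have h2 : 14 * u < ε := by nlinarith
  nlinarith

end Vale.Agent.P078.All
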