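import Vale.Agent.P078.All.OperatorIntertwine

/-!
An element orthogonal to the normaliser has atomless fibres.
-/

namespace Vale.Agent.P078.All

open scoped InnerProductSpace ComplexOrder
open ContinuousLinearMap Cartan Filter Topology

variable {H : Type} [NormedAddCommGroup H] [InnerProductSpace ℂ H] [CompleteSpace H]
variable {M : VonNeumannAlgebra H} {A : StarSubalgebra ℂ (H →L[ℂ] H)} {κ : Type} {η : κ → H}

/-- Both multiplications of `w` by projections of `A` can be moved to the other side. -/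
structure Intertwines (A : StarSubalgebra ℂ (H →L[ℂ] H)) (w : H →L[ℂ] H) : Prop where
  right : ∀ h ∈ A, IsStarProjection h → ∃ k ∈ A, IsSelfAdjoint k ∧ w * h = k * w
  left : ∀ h ∈ A, IsStarProjection h → ∃ k ∈ A, IsSelfAdjoint k ∧ h * w = w * k

namespace Intertwines

variable {w : H →L[ℂ] H}

theorem star' (hw : Intertwines A w) : Intertwines A (star w) := by
  refine ⟨fun h hh hp => ?_, fun h hh hp => ?_⟩
  · obtain ⟨k, hk, hks, e⟩ := hw.left h hh hp
    exact ⟨k, hk, hks, by
      have := congrArg star e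
      rwa [star_mul, star_mul, hp.isSelfAdjoint.star_eq, hks.star_eq] at this⟩
  · obtain ⟨k, hk, hks, e⟩ := hw.right h hh hp
    exact ⟨k, hk, hks, by
      have := congrArg star e
      rwa [star_mul, star_mul, hp.isSelfAdjoint.star_eq, hks.star_eq] at this⟩

theorem sq_mem (hA : IsMasa M A) (hwM : w ∈ M) (hw : Intertwines A w) : star w * w ∈ A := by
  refine hA.mem_of_commute (mul_mem (star_mem hwM) hwM) fun a ha =>
    (commute_of_commute_proj hA (fun h hh hp => ?_) ha).eq
  obtain ⟨k, -, hks, e⟩ := hw.right h hh hp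
  have e' := congrArg star e
  rw [star_mul, star_mul, hp.isSelfAdjoint.star_eq, hks.star_eq] at e'
  show star w * w * h = h * (star w * w)
  rw [mul_assoc, e, ← mul_assoc, ← e', mul_assoc]

theorem sq_mem' (hA : IsMasa M A) (hwM : w ∈ M) (hw : Intertwines A w) : w * star w ∈ A := by
  simpa using hw.star'.sq_mem hA (star_mem hwM)

theorem mul_right (hA : IsMasa M A) (hw : Intertwines A w) {r : H →L[ℂ] H} (hr : r ∈ A) :
    Intertwines A (w * r) := by
  refine ⟨fun h hh hp => ?_, fun h hh hp => ?_⟩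
  · obtain ⟨k, hk, hks, e⟩ := hw.right h hh hp
    exact ⟨k, hk, hks, by rw [mul_assoc, hA.comm r hr h hh, ← mul_assoc, e, mul_assoc]⟩
  · obtain ⟨k, hk, hks, e⟩ := hw.left h hh hp
    exact ⟨k, hk, hks, by rw [← mul_assoc, e, mul_assoc, hA.comm k hk r hr, ← mul_assoc]⟩

theorem mul_left (hA : IsMasa M A) (hw : Intertwines A w) {r : H →L[ℂ] H} (hr : r ∈ A) :
    Intertwines A (r * w) := by
  refine ⟨fun h hh hp => ?_, fun h hh hp => ?_⟩
  · obtain ⟨k, hk, hks, e⟩ := hw.right h hh hp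
    exact ⟨k, hk, hks, by rw [mul_assoc, e, ← mul_assoc, hA.comm r hr k hk, mul_assoc]⟩
  · obtain ⟨k, hk, hks, e⟩ := hw.left h hh hp
    exact ⟨k, hk, hks, by rw [← mul_assoc, hA.comm h hh r hr, mul_assoc, e, ← mul_assoc]⟩

end Intertwines

/-- A partial normaliser with orthogonal initial and final projections extends to a unitary
normaliser. -/
theorem normaliser_extension (hA : IsMasa M A) {v c : H →L[ℂ] H} (hvM : v ∈ M)
    (hv : Intertwines A v) (he : IsStarProjection (star v * v)) (hvc : v * c = v)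
    (hcv : c * v = 0) :
    ∃ u, IsNormaliser M A u ∧ u * (star v * v) = v := by
  obtain ⟨e, hee⟩ : ∃ e, e = star v * v := ⟨_, rfl⟩
  obtain ⟨f, hff⟩ : ∃ f, f = v * star v := ⟨_, rfl⟩
  rw [← hee] at he ⊢
  have heA : e ∈ A := hee ▸ hv.sq_mem hA hvM
  have hfA : f ∈ A := hff ▸ hv.sq_mem' hA hvM
  have hvv : v * v = 0 := by
    conv_lhs => arg 1; rw [← hvc]
    rw [mul_assoc, hcv, mul_zero]
  have hvv' : star v * star v = 0 := by rw [← star_mul, hvv, star_zero]
  have hve : v * e = v := by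
    have h0 : star (v * e - v) * (v * e - v) = 0 := by
      rw [star_sub, star_mul, he.isSelfAdjoint.star_eq]
      simp only [sub_mul, mul_sub, mul_assoc]
      rw [← mul_assoc (star v) v e, ← hee, he.isIdempotentElem.eq, he.isIdempotentElem.eq, sub_self]
    exact sub_eq_zero.1 (CStarRing.star_mul_self_eq_zero_iff _ |>.1 h0)
  have hfv : f * v = v := by rw [hff, mul_assoc, ← hee, hve]
  have hev' : e * star v = star v := by
    have := congrArg star hve
    rwa [star_mul, he.isSelfAdjoint.star_eq] at this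
  have hev : e * v = 0 := by rw [hee, mul_assoc, hvv, mul_zero]
  have hvf : v * f = 0 := by rw [hff, ← mul_assoc, hvv, zero_mul]
  have hvs : star v * e = 0 := by rw [hee, ← mul_assoc, hvv', zero_mul]
  have hef : e * f = 0 := by rw [hff, ← mul_assoc, hev, zero_mul]
  have hfe : f * e = 0 := by rw [hA.comm f hfA e heA, hef]
  have hfi : f * f = f := by
    conv_lhs => arg 2; rw [hff]
    rw [← mul_assoc, hfv, ← hff]
  have hfs : star f = f := by rw [hff, star_mul, star_star]
  obtain ⟨q, hqdef⟩ : ∃ q, q = 1 - e - f := ⟨_, rfl⟩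
  have hqA : q ∈ A := hqdef ▸ sub_mem (sub_mem (one_mem A) heA) hfA
  have hqs : star q = q := by
    rw [hqdef, star_sub, star_sub, star_one, he.isSelfAdjoint.star_eq, hfs]
  have hvq : v * q = 0 := by rw [hqdef, mul_sub, mul_sub, mul_one, hve, hvf]; simp
  have hqv : q * v = 0 := by rw [hqdef, sub_mul, sub_mul, one_mul, hev, hfv]; simp
  have hqv' : q * star v = 0 := by rw [← hqs, ← star_mul, hvq, star_zero]
  have hvq' : star v * q = 0 := by rw [← hqs, ← star_mul, hqv, star_zero]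
  have hqq : q * q = q := by
    conv_lhs => arg 2; rw [hqdef]
    have hqe : q * e = 0 := by
      rw [hqdef, sub_mul, sub_mul, one_mul, he.isIdempotentElem.eq, hfe]; simp
    have hqf : q * f = 0 := by rw [hqdef, sub_mul, sub_mul, one_mul, hef, hfi]; simp
    rw [mul_sub, mul_sub, mul_one, hqe, hqf]; simp
  obtain ⟨u, hudef⟩ : ∃ u, u = v + star v + q := ⟨_, rfl⟩
  have huM : u ∈ M := hudef ▸ add_mem (add_mem hvM (star_mem hvM)) (hA.le _ hqA)
  have hus : star u = u := by
    rw [hudef, star_add, star_add, star_star, hqs, add_comm (star v) v]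
  have hvu : v * u = f := by rw [hudef, mul_add, mul_add, hvv, hvq, ← hff]; simp
  have hv'u : star v * u = e := by rw [hudef, mul_add, mul_add, hvv', hvq', ← hee]; simp
  have hqu : q * u = q := by rw [hudef, mul_add, mul_add, hqv, hqv', hqq]; simp
  have huu : u * u = 1 := by
    conv_lhs => arg 1; rw [hudef]
    rw [add_mul, add_mul, hvu, hv'u, hqu, hqdef]; abel
  have hproj : ∀ h ∈ A, IsStarProjection h → u * h * u ∈ A := by
    intro h hh hp
    obtain ⟨k, hk, -, e1⟩ := hv.right h hh hp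
    obtain ⟨k', hk', -, e2⟩ := hv.star'.right h hh hp
    have e3 : u * h * u = k * f + k' * e + h * q := by
      conv_lhs => arg 1; arg 1; rw [hudef]
      rw [add_mul, add_mul, add_mul, add_mul, e1, e2, hA.comm q hqA h hh, mul_assoc k, hvu,
        mul_assoc k', hv'u, mul_assoc h, hqu]
    rw [e3]
    exact add_mem (add_mem (mul_mem hk hfA) (mul_mem hk' heA)) (mul_mem hh hqA)
  have hconj : ∀ a ∈ A, u * a * u ∈ A := fun a ha =>
    hA.mem_of_commute (mul_mem (mul_mem huM (hA.le a ha)) huM) fun b hb =>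
      (commute_of_commute_proj hA (fun h hh hp => by
        have := hA.comm a ha _ (hproj h hh hp)
        calc u * a * u * h = u * (a * (u * h * u)) * u := by
              simp only [mul_assoc, huu, mul_one]
          _ = u * (u * h * u * a) * u := by rw [this]
          _ = h * (u * a * u) := by
              simp only [← mul_assoc, huu, one_mul]) hb).eq
  refine ⟨u, ⟨huM, by rw [hus, huu], by rw [hus, huu], fun a ha => by rw [hus]; exact hconj a ha,
    fun a ha => by rw [hus]; exact hconj a ha⟩, ?_⟩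
  rw [hudef, add_mul, add_mul, hve, hvs, hqdef, sub_mul, sub_mul, one_mul, he.isIdempotentElem.eq,
    hfe]
  simp

variable [AbelianClosed A] [TotallyDisconnectedSpace (Spec A)]

omit [TotallyDisconnectedSpace (Spec A)] in
/-- Where `w* w` does not vanish, `w` is a combination of normalisers. -/
theorem cut_mem_normaliser (hA : IsMasa M A) {w c : H →L[ℂ] H} (hwM : w ∈ M)
    (hw : Intertwines A w) (hc : c ∈ A) (hwc : w * c = w) (hcw : c * w = 0) {U : Set (Spec A)}
    (hU : IsClopen U) (hUpos : ∀ ω ∈ U, 0 < (chi ω (star w * w)).re) :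
    ∃ a ∈ A, ∃ u, IsNormaliser M A u ∧ w * clP U = a * u := by
  classical
  have hWA := hw.sq_mem hA hwM
  have hcont : Continuous fun ω : Spec A => (chi ω (star w * w)).re :=
    Complex.continuous_re.comp (continuous_chi _)
  obtain ⟨s, hs⟩ : ∃ s : C(Spec A, ℝ), ∀ ω, s ω = Real.sqrt (chi ω (star w * w)).re :=
    ⟨⟨_, Real.continuous_sqrt.comp hcont⟩, fun _ => rfl⟩
  obtain ⟨r, hr⟩ : ∃ r : C(Spec A, ℝ), ∀ ω, r ω = if ω ∈ U then 1 / s ω else 0 := by
    refine ⟨⟨fun ω => if ω ∈ U then 1 / s ω else 0, continuous_iff_continuousAt.2 fun ω => ?_⟩,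
      fun _ => rfl⟩
    by_cases hω : ω ∈ U
    · have hs0 : s ω ≠ 0 := by rw [hs]; exact (Real.sqrt_pos.2 (hUpos ω hω)).ne'
      refine ((continuousAt_const (y := (1 : ℝ))).div s.continuous.continuousAt hs0).congr ?_
      filter_upwards [hU.isOpen.mem_nhds hω] with ν hν
      exact (if_pos hν).symm
    · refine continuousAt_const.congr (f := fun _ => (0 : ℝ)) ?_
      filter_upwards [hU.isClosed.isOpen_compl.mem_nhds hω] with ν hν
      exact (if_neg hν).symm
  have hR := ofReal'_mem r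
  have hS := ofReal'_mem s
  have hrs : ofReal' r * ofReal' s = clP U :=
    eq_of_chi_eq (mul_mem hR hS) (clP_mem _) fun ω => by
      rw [chi_mul ω hR hS, chi_ofReal', chi_ofReal', chi_clP hU, hr]
      split_ifs with hω
      · have hs0 : s ω ≠ 0 := by rw [hs]; exact (Real.sqrt_pos.2 (hUpos ω hω)).ne'
        rw [← Complex.ofReal_mul, one_div, inv_mul_cancel₀ hs0, Complex.ofReal_one]
      · simp
  obtain ⟨v, hv⟩ : ∃ v, v = w * ofReal' r := ⟨_, rfl⟩
  have hvM : v ∈ M := hv ▸ mul_mem hwM (hA.le _ hR)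
  have hreal : ∀ ω, chi ω (star w * w) = ((chi ω (star w * w)).re : ℂ) := fun ω => by
    have := chi_star ω hWA
    rw [star_mul, star_star] at this
    exact (Complex.conj_eq_iff_re.1 this.symm).symm
  have hE : star v * v = clP U := by
    refine eq_of_chi_eq ((hv ▸ hw.mul_right hA hR).sq_mem hA hvM) (clP_mem _) fun ω => ?_
    rw [hv, star_mul, (ofReal'_isSelfAdjoint r).star_eq, mul_assoc, ← mul_assoc (star w),
      chi_mul ω hR (mul_mem hWA hR), chi_mul ω hWA hR, chi_ofReal', hreal, chi_clP hU, hr]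
    split_ifs with hω
    · have h0 : s ω * s ω = (chi ω (star w * w)).re := by
        rw [hs]; exact Real.mul_self_sqrt (hUpos ω hω).le
      have hs0 : s ω ≠ 0 := by rw [hs]; exact (Real.sqrt_pos.2 (hUpos ω hω)).ne'
      rw [← h0, ← Complex.ofReal_mul, ← Complex.ofReal_mul]
      norm_cast
      field_simp
    · simp
  obtain ⟨u, hu, hue⟩ := normaliser_extension hA hvM (hv ▸ hw.mul_right hA hR)
    (hE ▸ clP_proj hU) (c := c)
    (by rw [hv, mul_assoc, hA.comm _ hR c hc, ← mul_assoc, hwc])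
    (by rw [hv, ← mul_assoc, hcw, zero_mul])
  refine ⟨u * (clP U * ofReal' s) * star u, hu.conj_mem' _ (mul_mem (clP_mem _) hS), u, hu, ?_⟩
  rw [← hu.push', ← mul_assoc u, ← hE, hue, hE, hv, mul_assoc, hrs]

/-- An intertwiner moving a projection off itself is orthogonal to what is orthogonal to the
normaliser. -/
theorem inner_intertwiner_eq_zero (hA : IsMasa M A) (h : IsTrace M η) {x w c : H →L[ℂ] H}
    (hx : ∀ a ∈ A, ∀ u, IsNormaliser M A u → ⟪h.V (a * u), h.V x⟫_ℂ = 0) (hwM : w ∈ M)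
    (hw : Intertwines A w) (hc : c ∈ A) (hwc : w * c = w) (hcw : c * w = 0) :
    ⟪h.V w, h.V x⟫_ℂ = 0 := by
  classical
  refine norm_le_zero_iff.1 (le_of_forall_pos_le_add fun t ht => ?_)
  rw [zero_add]
  obtain ⟨δ, hδ⟩ : ∃ δ : ℝ, δ = (t / (‖h.V x‖ + 1)) ^ 2 := ⟨_, rfl⟩
  have hWA := hw.sq_mem hA hwM
  have hδ0 : 0 < δ := hδ ▸ by positivity
  have hcont : Continuous fun ω : Spec A => (chi ω (star w * w)).re :=
    Complex.continuous_re.comp (continuous_chi _)
  obtain ⟨U, hU, hKU, hUO⟩ := exists_clopen_of_closed_subset_open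
    (isClosed_le continuous_const hcont : IsClosed {ω : Spec A | δ ≤ (chi ω (star w * w)).re})
    (isOpen_lt continuous_const hcont : IsOpen {ω : Spec A | 0 < (chi ω (star w * w)).re})
    fun ω hω => lt_of_lt_of_le hδ0 hω
  obtain ⟨a, ha, u, hu, e⟩ := cut_mem_normaliser hA hwM hw hc hwc hcw hU fun ω hω => hUO hω
  have h0 : ⟪h.V (w * clP U), h.V x⟫_ℂ = 0 := e ▸ hx a ha u hu
  have hT : 1 - clP U ∈ A := sub_mem (one_mem A) (clP_mem _)
  have hsmall : ‖h.V (w * (1 - clP U))‖ ^ 2 ≤ δ := by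
    have h1 : ‖h.V (w * (1 - clP U))‖ ^ 2
        = (tau h ((1 - clP U) * (star w * w) * (1 - clP U))).re := by
      rw [← inner_self_eq_norm_sq (𝕜 := ℂ), ← tau_star_mul, star_mul,
        (clP_proj hU).one_sub.isSelfAdjoint.star_eq]
      simp only [mul_assoc]
      rfl
    obtain ⟨f, hf⟩ : ∃ f : C(Spec A, ℝ), ∀ ω,
        f ω = (chi ω ((1 - clP U) * (star w * w) * (1 - clP U))).re :=
      ⟨⟨_, Complex.continuous_re.comp (continuous_chi _)⟩, fun _ => rfl⟩
    have hTW := mul_mem (mul_mem hT hWA) hT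
    have hfe : ofReal' f = (1 - clP U) * (star w * w) * (1 - clP U) :=
      eq_of_chi_eq (ofReal'_mem _) hTW fun ω => by
        rw [chi_ofReal', hf]
        have := chi_star ω hTW
        rw [star_mul, star_mul, (clP_proj hU).one_sub.isSelfAdjoint.star_eq, star_mul, star_star,
          ← mul_assoc (1 - clP U)] at this
        exact Complex.conj_eq_iff_re.1 this.symm
    rw [h1, ← hfe]
    refine (muFun_mono h (g := δ • 1) fun ω => ?_).trans_eq
      (by rw [map_smul, muFun_one, smul_eq_mul, mul_one])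
    rw [hf, chi_mul ω (mul_mem hT hWA) hT, chi_mul ω hT hWA, chi_sub ω (one_mem A) (clP_mem _),
      chi_one, chi_clP hU]
    show _ ≤ δ * (1 : ℝ)
    split_ifs with hω
    · simpa using hδ0.le
    · simpa using (not_le.1 fun h' => hω (hKU h')).le
  have hdec : h.V w = h.V (w * clP U) + h.V (w * (1 - clP U)) := by
    rw [← map_add, ← mul_add, add_sub_cancel, mul_one]
  rw [hdec, inner_add_left, h0, zero_add]
  refine (norm_inner_le_norm _ _).trans ?_
  have h2 : ‖h.V (w * (1 - clP U))‖ ≤ t / (‖h.V x‖ + 1) :=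
    (abs_le_of_sq_le_sq' (hsmall.trans_eq hδ) (by positivity)).2
  refine (mul_le_mul_of_nonneg_right h2 (norm_nonneg _)).trans ?_
  rw [div_mul_eq_mul_div, div_le_iff₀ (by positivity)]
  nlinarith [norm_nonneg (h.V x)]

omit [TotallyDisconnectedSpace (Spec A)] in
theorem pair_self_proj (h : IsTrace M η) {b c : H →L[ℂ] H} (hb : b ∈ M) (hbs : IsSelfAdjoint b)
    (hc : c ∈ M) (hcp : IsStarProjection c) :
    (tau h (b * (c * b * c))).re = ‖h.V (c * b * c)‖ ^ 2 := by
  rw [← inner_self_eq_norm_sq (𝕜 := ℂ), ← tau_star_mul]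
  show _ = (tau h _).re
  congr 1
  rw [star_mul, star_mul, hcp.isSelfAdjoint.star_eq, hbs.star_eq, mul_assoc c (b * c) (c * b * c),
    tau_comm h hc (mul_mem (mul_mem hb hc) (mul_mem (mul_mem hc hb) hc))]
  simp only [mul_assoc, hcp.isIdempotentElem.eq]
  rw [← mul_assoc c c, hcp.isIdempotentElem.eq]

omit [TotallyDisconnectedSpace (Spec A)] in
/-- The fibre masses of the adjoint of an intertwiner are bounded below. -/
theorem gs_adjoint_lower (hA : IsMasa M A) (h : IsTrace M η) {ξ : H →L[ℂ] H} (hξ : ξ ∈ M)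
    (hmem : ∀ f ∈ A, IsStarProjection f → star ξ * f * ξ ∈ A) (Q : FPart A) :
    ‖h.V (expect A (ξ * star ξ))‖ ^ 2 ≤ gs h (star ξ) Q := by
  have hb : ξ * star ξ ∈ M := mul_mem hξ (star_mem hξ)
  have hterm : ∀ i, muFun h (ef (A := A) (star ξ) (Q.c i) * ef (star ξ) (Q.c i))
      = (tau h (ξ * star ξ * (Q.c i * (ξ * star ξ) * Q.c i))).re := by
    intro i
    have hc := hA.le _ (Q.mem i)
    have hm : star ξ * Q.c i * ξ ∈ M := mul_mem (mul_mem (star_mem hξ) hc) hξ
    show (tau h (ofReal' _)).re = _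
    congr 1
    rw [ofReal'_mul, ofReal'_ef hA (star_mem hξ) (Q.mem i) (Q.proj i), star_star,
      expect_self hA (hmem _ (Q.mem i) (Q.proj i)),
      show star ξ * Q.c i * ξ * (star ξ * Q.c i * ξ)
        = star ξ * (Q.c i * ξ * star ξ * Q.c i * ξ) by simp only [mul_assoc],
      tau_comm h (star_mem hξ) (mul_mem (mul_mem (mul_mem (mul_mem hc hξ) (star_mem hξ)) hc) hξ),
      show Q.c i * ξ * star ξ * Q.c i * ξ * star ξ
        = Q.c i * (ξ * star ξ) * Q.c i * (ξ * star ξ) by simp only [mul_assoc],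
      tau_comm h (mul_mem (mul_mem hc hb) hc) hb]
  have hD : ‖h.V (Q.D (ξ * star ξ))‖ ^ 2 = gs h (star ξ) Q := by
    rw [norm_sq_D hA h Q hb, ← tau_star_mul, (IsSelfAdjoint.mul_star_self ξ).star_eq, gs]
    simp only [hterm]
    show (tau h _).re = _
    simp only [FPart.D, Finset.mul_sum, tau, map_sum, inner_sum, Complex.re_sum]
  have hE := hA.le _ (expect_mem hA hb)
  have hi : RCLike.re ⟪h.V (Q.D (ξ * star ξ)), h.V (expect A (ξ * star ξ))⟫_ℂ
      = ‖h.V (expect A (ξ * star ξ))‖ ^ 2 := by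
    rw [inner_D hA h Q hb hE, show Q.D (expect A (ξ * star ξ)) = expect A (ξ * star ξ) by
      rw [show expect A (ξ * star ξ) = expect A (ξ * star ξ) * 1 by rw [mul_one],
        FPart.D_mul_left hA Q (expect_mem hA hb), FPart.D_one, mul_one],
      inner_expect hA h hb, ← Complex.ofReal_pow, RCLike.re_to_complex, Complex.ofReal_re]
  rw [← hD]
  have h1 := re_inner_le_norm (𝕜 := ℂ) (h.V (Q.D (ξ * star ξ))) (h.V (expect A (ξ * star ξ)))
  rw [hi] at h1
  nlinarith [norm_nonneg (h.V (Q.D (ξ * star ξ))), norm_nonneg (h.V (expect A (ξ * star ξ))),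
    sq_nonneg (‖h.V (Q.D (ξ * star ξ))‖ - ‖h.V (expect A (ξ * star ξ))‖)]

/-- Fibre masses vanish for elements orthogonal to the normaliser. -/
theorem exists_gs_le (hA : IsMasa M A) (h : IsTrace M η) {x : H →L[ℂ] H} (hxM : x ∈ M)
    (hx : ∀ a ∈ A, ∀ u, IsNormaliser M A u → ⟪h.V (a * u), h.V x⟫_ℂ = 0) {δ : ℝ} (hδ : 0 < δ) :
    ∃ Q : FPart A, gs h x Q ≤ δ := by
  by_contra hcon
  push Not at hcon
  obtain ⟨ξ, hξ, hξ0, ψ, hψ, -, hpair⟩ :=
    exists_intertwiner hA h hxM hδ fun Q => (hcon Q).le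
  have hflip : ∀ k ∈ A, IsStarProjection k → k * star ξ = star ξ * ψ k := fun k hk hkp => by
    have := congrArg star (hψ k hk hkp).2.2
    rwa [star_mul, star_mul, hkp.isSelfAdjoint.star_eq, (hψ k hk hkp).2.1.isSelfAdjoint.star_eq]
      at this
  have hmem : ∀ f ∈ A, IsStarProjection f → star ξ * f * ξ ∈ A := fun f hf hfp =>
    hA.mem_of_commute (mul_mem (mul_mem (star_mem hξ) (hA.le f hf)) hξ) fun a ha =>
      (commute_of_commute_proj hA (fun k hk hkp => by
        obtain ⟨hk', -, e⟩ := hψ k hk hkp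
        show star ξ * f * ξ * k = k * (star ξ * f * ξ)
        rw [mul_assoc (star ξ * f), e, mul_assoc (star ξ), ← mul_assoc f, hA.comm f hf _ hk',
          ← mul_assoc (star ξ), ← mul_assoc (star ξ), ← hflip k hk hkp]
        simp only [mul_assoc]) ha).eq
  have hlow : 0 < ‖h.V (expect A (ξ * star ξ))‖ ^ 2 := by
    refine pow_pos (norm_pos_iff.2 fun e => hξ0 ?_) 2
    have h1 : tau h (ξ * star ξ) = 0 := by
      rw [← tau_expect hA h (mul_mem hξ (star_mem hξ)), tau, e, inner_zero_right]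
    rw [tau_comm h hξ (star_mem hξ), tau_star_mul, inner_self_eq_zero] at h1
    exact eq_of_V h hξ (zero_mem M) (by rw [h1, map_zero])
  obtain ⟨ζ, hζ, hζ0, ψ', hψ', hinh, hpair'⟩ := exists_intertwiner hA h (star_mem hξ) hlow
    (gs_adjoint_lower hA h hξ hmem)
  obtain ⟨z, hz⟩ : ∃ z, z = star ζ := ⟨_, rfl⟩
  have hzM : z ∈ M := hz ▸ star_mem hζ
  have hzr : ∀ k ∈ A, IsStarProjection k → z * k = ψ k * z := fun k hk hkp => by
    have := congrArg star (hinh k hk (ψ k) (hψ k hk hkp).1 (hflip k hk hkp))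
    rwa [star_mul, star_mul, hkp.isSelfAdjoint.star_eq, (hψ k hk hkp).2.1.isSelfAdjoint.star_eq,
      ← hz] at this
  have hzI : Intertwines A z := by
    refine ⟨fun k hk hkp => ⟨ψ k, (hψ k hk hkp).1, (hψ k hk hkp).2.1.isSelfAdjoint, hzr k hk hkp⟩,
      fun k hk hkp => ⟨ψ' k, (hψ' k hk hkp).1, (hψ' k hk hkp).2.1.isSelfAdjoint, ?_⟩⟩
    have := congrArg star (hψ' k hk hkp).2.2
    rwa [star_mul, star_mul, hkp.isSelfAdjoint.star_eq, (hψ' k hk hkp).2.1.isSelfAdjoint.star_eq,
      ← hz] at this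
  have hxz : ⟪h.V x, h.V z⟫_ℂ ≠ 0 := by
    have e : ⟪h.V ξ, h.V z⟫_ℂ = ⟪h.V ζ, h.V (star ξ)⟫_ℂ := by
      rw [hz, ← inner_V_star h (star_mem hξ) hζ, star_star]
    rw [hpair z hzM hzr, e, ← inner_conj_symm,
      hpair' ζ hζ fun k hk hkp => (hψ' k hk hkp).2.2, inner_self_eq_norm_sq_to_K]
    intro e0
    refine hζ0 (eq_of_V h hζ (zero_mem M) ?_)
    rw [map_zero, ← norm_eq_zero]
    simpa using e0
  have hD : ∀ P : FPart A, ⟪h.V x, h.V (P.D z)⟫_ℂ = ⟪h.V x, h.V z⟫_ℂ := fun P => by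
    have h0 : ∀ i, ⟪h.V ((1 - P.c i) * z * P.c i), h.V x⟫_ℂ = 0 := fun i =>
      inner_intertwiner_eq_zero hA h hx
        (mul_mem (mul_mem (hA.le _ (sub_mem (one_mem A) (P.mem i))) hzM) (hA.le _ (P.mem i)))
        ((hzI.mul_left hA (sub_mem (one_mem A) (P.mem i))).mul_right hA (P.mem i)) (P.mem i)
        (by rw [mul_assoc, (P.proj i).isIdempotentElem.eq])
        (by rw [← mul_assoc, ← mul_assoc, (P.proj i).mul_one_sub_self, zero_mul, zero_mul])
    have e : z = P.D z + ∑ i, (1 - P.c i) * z * P.c i := by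
      simp only [FPart.D, sub_mul, one_mul, Finset.sum_sub_distrib, ← Finset.mul_sum, P.sum_eq,
        mul_one]
      abel
    conv_rhs => rw [e]
    rw [map_add, map_sum, inner_add_right, inner_sum, Finset.sum_eq_zero fun i _ => ?_, add_zero]
    rw [← inner_conj_symm, h0 i, map_zero]
  refine hxz ?_
  have e1 := tendsto_nhds_unique (tendsto_const_nhds.congr fun P => (hD P).symm)
    (tendsto_inner_D (A := A) h z x)
  rw [e1]
  have := hx (expect A z) (expect_mem hA hzM) 1 IsNormaliser.one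
  rw [mul_one] at this
  rw [← inner_conj_symm, this, map_zero]

/-- The lemma for one letter. -/
theorem env_atomless (hA : IsMasa M A) (h : IsTrace M η) :
    (opEnv hA h).AtomlessStatement := by
  intro x hx δ hδ
  have hx' : ∀ a ∈ A, ∀ u, IsNormaliser M A u →
      ⟪h.V (a * u), h.V (x : H →L[ℂ] H)⟫_ℂ = 0 := by
    intro a ha u hu
    have e := hx (toMover hA h hu) ⟨fun ω => chi ω a, continuous_chi a⟩
    rw [opEnv_τ] at e
    rw [← tau_star_mul]
    have e1 : tau h (star (ofFun (⟨fun ω => chi ω a, continuous_chi a⟩ : C(Spec A, ℂ)) * u) *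
        (x : H →L[ℂ] H)) = 0 := e
    rwa [ofFun_chi ha] at e1
  obtain ⟨Q, hQ⟩ := exists_gs_le hA h x.2 hx' hδ
  obtain ⟨P₀, hP₀⟩ := exists_part_above h Q
  refine ⟨P₀, fun P hP => ?_⟩
  show (opEnv hA h).gauss P x ≤ δ
  rw [gauss_eq]
  exact (gs_anti hA h x.2 (hP₀ P hP)).trans hQ

end Vale.Agent.P078.All
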