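import Vale.Agent.P078.All.Expected
import Vale.Agent.P078.Cartan.OperatorModel

/-!
The environment of a MASA in a finite von Neumann algebra, and its elementary translations.
-/

namespace Vale.Agent.P078.All

open scoped InnerProductSpace ComplexOrder
open ContinuousLinearMap Cartan

variable {H : Type} [NormedAddCommGroup H] [InnerProductSpace ℂ H] [CompleteSpace H]
variable {M : VonNeumannAlgebra H} {A : StarSubalgebra ℂ (H →L[ℂ] H)} {κ : Type} {η : κ → H}
variable [AbelianClosed A]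

omit [AbelianClosed A] in
/-- The square root of a positive element of `M`. -/
theorem exists_sqrt {P : H →L[ℂ] H} (hP : P ∈ M) (hP0 : 0 ≤ P) :
    ∃ s ∈ M, IsSelfAdjoint s ∧ s * s = P := by
  refine ⟨cfc Real.sqrt P, vn_cfc_mem hP _, cfc_predicate _ _, ?_⟩
  rw [← cfc_mul _ _ P]
  conv_rhs => rw [← cfc_id' ℝ P (IsSelfAdjoint.of_nonneg hP0)]
  exact cfc_congr fun t ht => Real.mul_self_sqrt (spectrum_nonneg_of_nonneg hP0 ht)

/-- `E` never exceeds the operator norm. -/
theorem ph_mul_le (hA : IsMasa M A) (ω : Spec A) {x y : H →L[ℂ] H} (hx : x ∈ M) (hy : y ∈ M)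
    {C : ℝ} (hC : ‖x‖ ≤ C) :
    ph ω (star y * (star x * x) * y) ≤ (C : ℂ) ^ 2 * ph ω (star y * y) := by
  have hC0 : 0 ≤ C := (norm_nonneg x).trans hC
  set P := (C ^ 2 : ℝ) • (1 : H →L[ℂ] H) - star x * x with hP
  have hPM : P ∈ M := by
    rw [hP, ← Complex.coe_smul]
    exact sub_mem (vn_smul_mem _ (one_mem M)) (mul_mem (star_mem hx) hx)
  have hP0 : 0 ≤ P := by
    rw [hP, sub_nonneg, ← Algebra.algebraMap_eq_smul_one]
    refine (CStarAlgebra.norm_le_iff_le_algebraMap (star x * x) (sq_nonneg C)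
      (star_mul_self_nonneg x)).1 ?_
    rw [CStarRing.norm_star_mul_self, sq]
    exact mul_le_mul hC hC (norm_nonneg _) hC0
  obtain ⟨s, hs, hss, hsq⟩ := exists_sqrt hPM hP0
  have h := ph_nonneg ω hA (mul_mem hs hy)
  have e : star (s * y) * (s * y) =
      ((C ^ 2 : ℝ) : ℂ) • (star y * y) - star y * (star x * x) * y := by
    calc star (s * y) * (s * y) = star y * (s * s) * y := by
          simp only [star_mul, hss.star_eq, mul_assoc]
      _ = _ := by
          rw [hsq, hP, mul_sub, sub_mul, mul_smul_comm, mul_one, smul_mul_assoc, Complex.coe_smul]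
  rw [e, ph_sub ω hA (vn_smul_mem _ (mul_mem (star_mem hy) hy))
    (mul_mem (mul_mem (star_mem hy) (mul_mem (star_mem hx) hx)) hy),
    ph_smul ω hA _ (mul_mem (star_mem hy) hy), sub_nonneg] at h
  simpa using h

theorem ofFun_one : ofFun (1 : C(Spec A, ℂ)) = 1 :=
  eq_of_chi_eq (ofFun_mem _) (one_mem A) fun ω => by rw [chi_ofFun, chi_one]; rfl

theorem ofFun_zero : ofFun (0 : C(Spec A, ℂ)) = 0 :=
  eq_of_chi_eq (ofFun_mem _) (zero_mem A) fun ω => by rw [chi_ofFun, chi_zero]; rfl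

theorem ofFun_mul (f g : C(Spec A, ℂ)) : ofFun (f * g) = ofFun f * ofFun g :=
  eq_of_chi_eq (ofFun_mem _) (mul_mem (ofFun_mem f) (ofFun_mem g)) fun ω => by
    rw [chi_mul ω (ofFun_mem f) (ofFun_mem g), chi_ofFun, chi_ofFun, chi_ofFun]; rfl

theorem ofFun_add (f g : C(Spec A, ℂ)) : ofFun (f + g) = ofFun f + ofFun g :=
  eq_of_chi_eq (ofFun_mem _) (add_mem (ofFun_mem f) (ofFun_mem g)) fun ω => by
    rw [chi_add ω (ofFun_mem f) (ofFun_mem g), chi_ofFun, chi_ofFun, chi_ofFun]; rfl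

theorem ofFun_smul (c : ℂ) (f : C(Spec A, ℂ)) : ofFun (c • f) = c • ofFun f :=
  eq_of_chi_eq (ofFun_mem _) (SMulMemClass.smul_mem c (ofFun_mem f)) fun ω => by
    rw [chi_smul ω c (ofFun_mem f), chi_ofFun, chi_ofFun]; rfl

theorem ofFun_star (f : C(Spec A, ℂ)) : ofFun (star f) = star (ofFun f) :=
  eq_of_chi_eq (ofFun_mem _) (star_mem (ofFun_mem f)) fun ω => by
    rw [chi_ofFun, chi_star ω (ofFun_mem f), chi_ofFun]; rfl

theorem ofFun_algebraMap (c : ℂ) :
    ofFun (algebraMap ℂ C(Spec A, ℂ) c) = algebraMap ℂ (H →L[ℂ] H) c := by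
  rw [Algebra.algebraMap_eq_smul_one, Algebra.algebraMap_eq_smul_one, ofFun_smul, ofFun_one]

/-- The inverse Gelfand transform into `M`. -/
noncomputable def opIota (hA : IsMasa M A) : C(Spec A, ℂ) →⋆ₐ[ℂ] M.toStarSubalgebra where
  toFun f := ⟨ofFun f, hA.le _ (ofFun_mem f)⟩
  map_one' := Subtype.ext ofFun_one
  map_mul' f g := Subtype.ext (ofFun_mul f g)
  map_zero' := Subtype.ext ofFun_zero
  map_add' f g := Subtype.ext (ofFun_add f g)
  commutes' c := Subtype.ext (ofFun_algebraMap c)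
  map_star' f := Subtype.ext (ofFun_star f)

/-- The expectation as a function. -/
noncomputable def opExp (hA : IsMasa M A) : M.toStarSubalgebra →ₗ[ℂ] C(Spec A, ℂ) where
  toFun x := ⟨fun ω => ph ω (x : H →L[ℂ] H), continuous_chi _⟩
  map_add' x y := ContinuousMap.ext fun ω => ph_add ω hA x.2 y.2
  map_smul' c x := ContinuousMap.ext fun ω => ph_smul ω hA c x.2

/-- The trace on the functions. -/
noncomputable def opMu (h : IsTrace M η) : C(Spec A, ℂ) →ₗ[ℂ] ℂ where
  toFun f := tau h (ofFun f)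
  map_add' f g := by simp only [ofFun_add, tau, map_add, inner_add_right]
  map_smul' c f := by
    simp only [ofFun_smul, tau, map_smul, inner_smul_right, smul_eq_mul, RingHom.id_apply]

theorem opMu_nonneg (h : IsTrace M η) (a : C(Spec A, ℂ)) (ha : ∀ ω, 0 ≤ a ω) :
    0 ≤ opMu h a := by
  show 0 ≤ tau h (ofFun a)
  obtain ⟨g, hg⟩ : ∃ g : C(Spec A, ℂ), g = ⟨fun ω => (Real.sqrt (a ω).re : ℂ),
    Complex.continuous_ofReal.comp (Real.continuous_sqrt.comp
      (Complex.continuous_re.comp a.continuous))⟩ := ⟨_, rfl⟩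
  have e : ofFun a = star (ofFun g) * ofFun g := by
    refine eq_of_chi_eq (ofFun_mem _) (mul_mem (star_mem (ofFun_mem g)) (ofFun_mem g)) fun ω => ?_
    obtain ⟨hre, him⟩ := Complex.nonneg_iff.1 (ha ω)
    rw [chi_mul ω (star_mem (ofFun_mem g)) (ofFun_mem g), chi_star ω (ofFun_mem g), chi_ofFun,
      chi_ofFun, hg]
    apply Complex.ext
    · simp [Real.mul_self_sqrt hre]
    · simp [← him]
  rw [e, tau_star_mul, inner_self_eq_norm_sq_to_K]
  norm_cast
  positivity

theorem opMu_one (h : IsTrace M η) : opMu (A := A) h 1 = 1 := by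
  show tau h (ofFun 1) = 1
  rw [ofFun_one, tau, inner_self_eq_norm_sq_to_K, norm_V_one]
  simp

theorem ofFun_opExp (hA : IsMasa M A) (x : M.toStarSubalgebra) :
    ofFun (opExp hA x) = expect A (x : H →L[ℂ] H) :=
  eq_of_chi_eq (ofFun_mem _) (expect_mem hA x.2) fun ω => chi_ofFun ω _

theorem opMu_trace (hA : IsMasa M A) (h : IsTrace M η) (x y : M.toStarSubalgebra) :
    opMu h (opExp hA (x * y)) = opMu h (opExp hA (y * x)) := by
  show tau h (ofFun _) = tau h (ofFun _)
  rw [ofFun_opExp hA, ofFun_opExp hA, tau_expect hA h (x * y).2, tau_expect hA h (y * x).2]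
  exact tau_comm h x.2 y.2

theorem opExp_iota (hA : IsMasa M A) (a : C(Spec A, ℂ)) : opExp hA (opIota hA a) = a :=
  ContinuousMap.ext fun ω => (ph_self ω hA (ofFun_mem a)).trans (chi_ofFun ω a)

theorem opExp_left (hA : IsMasa M A) (a : C(Spec A, ℂ)) (x : M.toStarSubalgebra) :
    opExp hA (opIota hA a * x) = a * opExp hA x :=
  ContinuousMap.ext fun ω =>
    (ph_mul_left ω hA (ofFun_mem a) x.2).trans (congrArg (· * _) (chi_ofFun ω a))

theorem opExp_right (hA : IsMasa M A) (a : C(Spec A, ℂ)) (x : M.toStarSubalgebra) :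
    opExp hA (x * opIota hA a) = opExp hA x * a :=
  ContinuousMap.ext fun ω =>
    (ph_mul_right ω hA (ofFun_mem a) x.2).trans (congrArg (_ * ·) (chi_ofFun ω a))

theorem opExp_star (hA : IsMasa M A) (x : M.toStarSubalgebra) :
    opExp hA (star x) = star (opExp hA x) :=
  ContinuousMap.ext fun ω => ph_star ω hA x.2

theorem opExp_bounded (hA : IsMasa M A) (x : M.toStarSubalgebra) : ∃ C : ℝ, 0 ≤ C ∧
    ∀ (y : M.toStarSubalgebra) ω,
      opExp hA (star y * (star x * x) * y) ω ≤ (C : ℂ) ^ 2 * opExp hA (star y * y) ω :=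
  ⟨‖(x : H →L[ℂ] H)‖, norm_nonneg _, fun y ω => ph_mul_le hA ω x.2 y.2 le_rfl⟩

variable [TotallyDisconnectedSpace (Spec A)]

/-- The environment of the inclusion. -/
noncomputable def opEnv (hA : IsMasa M A) (h : IsTrace M η) :
    Env M.toStarSubalgebra (Spec A) where
  ι := opIota hA
  E := opExp hA
  E_ι := opExp_iota hA
  E_left := opExp_left hA
  E_right := opExp_right hA
  E_star := opExp_star hA
  E_nonneg x ω := ph_nonneg ω hA x.2
  bounded := opExp_bounded hA
  μ := opMu h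
  μ_nonneg := opMu_nonneg h
  μ_one := opMu_one h
  trace := opMu_trace hA h

variable (hA : IsMasa M A) (h : IsTrace M η)

theorem opEnv_ι (f : C(Spec A, ℂ)) : ((opEnv hA h).ι f : H →L[ℂ] H) = ofFun f := rfl

theorem opEnv_E (x : M.toStarSubalgebra) (ω : Spec A) :
    (opEnv hA h).E x ω = ph ω (x : H →L[ℂ] H) := rfl

theorem opEnv_μ (f : C(Spec A, ℂ)) : (opEnv hA h).μ f = tau h (ofFun f) := rfl

theorem ofFun_E (x : M.toStarSubalgebra) :
    ofFun ((opEnv hA h).E x) = expect A (x : H →L[ℂ] H) :=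
  ofFun_opExp hA x

theorem opEnv_τ (x : M.toStarSubalgebra) : (opEnv hA h).τ x = tau h (x : H →L[ℂ] H) := by
  rw [Env.τ, opEnv_μ, ofFun_E, tau_expect hA h x.2]

theorem opEnv_sq (x : M.toStarSubalgebra) :
    (opEnv hA h).sq x = ‖h.V (x : H →L[ℂ] H)‖ ^ 2 := by
  rw [Env.sq, opEnv_τ]
  show (tau h (star (x : H →L[ℂ] H) * (x : H →L[ℂ] H))).re = _
  rw [tau_star_mul]
  exact inner_self_eq_norm_sq (𝕜 := ℂ) _

/-- The left multiplication bound is the operator norm. -/
theorem opEnv_bdd (x : M.toStarSubalgebra) {C : ℝ} (hC : ‖(x : H →L[ℂ] H)‖ ≤ C) :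
    (opEnv hA h).Bdd x C :=
  ⟨(norm_nonneg _).trans hC, fun y ω => ph_mul_le hA ω x.2 y.2 hC⟩

omit [TotallyDisconnectedSpace (Spec A)] in
theorem ofFun_chi {a : H →L[ℂ] H} (ha : a ∈ A) :
    ofFun (A := A) ⟨fun ω => chi ω a, continuous_chi a⟩ = a :=
  eq_of_chi_eq (ofFun_mem _) ha fun ω => chi_ofFun ω _

omit [TotallyDisconnectedSpace (Spec A)] in
/-- Conjugation by a normaliser acts on functions by its homeomorphism. -/
theorem conj_ofFun {u : H →L[ℂ] H} (hu : IsNormaliser M A u) (a : C(Spec A, ℂ)) :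
    u * ofFun a * star u = ofFun (a.comp (moveHomeo hu.star' : C(Spec A, Spec A))) := by
  refine eq_of_chi_eq (hu.conj_mem' _ (ofFun_mem a)) (ofFun_mem _) fun ω => ?_
  rw [chi_ofFun]
  show _ = a (move hu.star' ω)
  rw [← chi_ofFun (move hu.star' ω) a, chi_move ω hu.star' (ofFun_mem a), star_star]

/-- A normaliser as a mover; its homeomorphism is the move of its adjoint. -/
noncomputable def toMover {u : H →L[ℂ] H} (hu : IsNormaliser M A u) : (opEnv hA h).Mover where
  u := ⟨u, hu.mem⟩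
  mem_unitary := ⟨Subtype.ext hu.star_mul, Subtype.ext hu.mul_star⟩
  T := moveHomeo hu.star'
  conj a := Subtype.ext (conj_ofFun hu a)
  E_conj x := ContinuousMap.ext fun ω => by
    show ph ω (u * (x : H →L[ℂ] H) * star u) = ph (move hu.star' ω) (x : H →L[ℂ] H)
    rw [ph_move ω hA h hu.star' x.2, star_star]

theorem toMover_T {u : H →L[ℂ] H} (hu : IsNormaliser M A u) (ω : Spec A) :
    (toMover hA h hu).T ω = move hu.star' ω := rfl

/-- The unitary of a mover normalises `A`. -/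
theorem mover_normaliser (g : (opEnv hA h).Mover) :
    IsNormaliser M A (g.u : H →L[ℂ] H) := by
  have h1 : star (g.u : H →L[ℂ] H) * g.u = 1 := congrArg Subtype.val g.mem_unitary.1
  have h2 : (g.u : H →L[ℂ] H) * star (g.u : H →L[ℂ] H) = 1 :=
    congrArg Subtype.val g.mem_unitary.2
  have hc : ∀ f : C(Spec A, ℂ), (g.u : H →L[ℂ] H) * ofFun f * star (g.u : H →L[ℂ] H) =
      ofFun (f.comp (g.T : C(Spec A, Spec A))) := fun f => congrArg Subtype.val (g.conj f)
  refine ⟨g.u.2, h1, h2, fun a ha => ?_, fun a ha => ?_⟩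
  · obtain ⟨f, hf⟩ : ∃ f : C(Spec A, ℂ), ofFun f = a := ⟨_, ofFun_chi ha⟩
    have e := hc (f.comp (g.T.symm : C(Spec A, Spec A)))
    rw [show (f.comp (g.T.symm : C(Spec A, Spec A))).comp (g.T : C(Spec A, Spec A)) = f by
      ext ω; simp, hf] at e
    rw [← e, ← mul_assoc, ← mul_assoc, h1, one_mul, mul_assoc, h1, mul_one]
    exact ofFun_mem _
  · obtain ⟨f, hf⟩ : ∃ f : C(Spec A, ℂ), ofFun f = a := ⟨_, ofFun_chi ha⟩
    rw [← hf, hc]
    exact ofFun_mem _

/-- The homeomorphism of a mover. -/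
theorem mover_T (g : (opEnv hA h).Mover) (ω : Spec A) :
    g.T ω = move (mover_normaliser hA h g).star' ω :=
  spec_ext fun a ha => by
    rw [chi_move ω _ ha, star_star]
    have e : (g.u : H →L[ℂ] H) * ofFun (⟨fun ν => chi ν a, continuous_chi a⟩ : C(Spec A, ℂ)) *
        star (g.u : H →L[ℂ] H) = ofFun ((⟨fun ν => chi ν a, continuous_chi a⟩ : C(Spec A, ℂ)).comp
          (g.T : C(Spec A, Spec A))) := congrArg Subtype.val (g.conj _)
    rw [ofFun_chi ha] at e
    rw [e, chi_ofFun]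
    rfl

end Vale.Agent.P078.All
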