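import Vale.Agent.P078.All.Transfer
import Vale.Agent.P078.All.OperatorEnv
import Vale.Agent.P078.All.OperatorAll
import Vale.Agent.P078.Cartan.Quad.RandomCore

/-!
The compression statement of the environment of a MASA as operators, the random core as operators,
and so-paving of every MASA with `198 / ε²` pieces from the two.
-/

namespace Vale.Agent.P078.All

open scoped InnerProductSpace ComplexOrder
open ContinuousLinearMap Vale.Agent.P078.Cartan

variable {H : Type} [NormedAddCommGroup H] [InnerProductSpace ℂ H] [CompleteSpace H]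
variable {M : VonNeumannAlgebra H} {A : StarSubalgebra ℂ (H →L[ℂ] H)} {ι : Type} {η : ι → H}

theorem randomCore : RandomCore := by
  intro Ω _ _ _ _ L r t δ O hr hd ht hδ
  obtain ⟨f, g, ⟨hf0, hf1⟩, ⟨hg0, hg1⟩, n, w, F, hF, hFe, h⟩ :=
    Quad.randomCoreStatement Ω L r t δ O hr hd ht hδ
  exact ⟨n, w, F, hF, hFe, fun π hπ =>
    ⟨⟨f, hf0, hf1, (h π hπ).2.1⟩, ⟨g, hg0, hg1, (h π hπ).2.2⟩⟩⟩

theorem randomSides : RandomSides := randomSides_of_core randomCore

theorem coe_mul' (a b : M.toStarSubalgebra) :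
    ((a * b : M.toStarSubalgebra) : H →L[ℂ] H) = (a : H →L[ℂ] H) * (b : H →L[ℂ] H) := rfl

theorem coe_pow' (a : M.toStarSubalgebra) (n : ℕ) :
    ((a ^ n : M.toStarSubalgebra) : H →L[ℂ] H) = (a : H →L[ℂ] H) ^ n := rfl

theorem coe_star' (a : M.toStarSubalgebra) :
    ((star a : M.toStarSubalgebra) : H →L[ℂ] H) = star (a : H →L[ℂ] H) := rfl

section

variable [AbelianClosed A] [TotallyDisconnectedSpace (Spec A)] (hA : IsMasa M A)
  (h : IsTrace M η)

theorem toMover_star_T {u : H →L[ℂ] H} (hu : IsNormaliser M A u) (ω : Spec A) :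
    (toMover hA h hu.star').T ω = move hu ω :=
  (toMover_T hA h hu.star' ω).trans (move_of_eq ω _ hu (star_star u))

/-- Orthogonality to the finite sums over the normaliser, in the environment. -/
theorem orthNormaliser_of_orth (y : M.toStarSubalgebra)
    (hyo : ∀ a ∈ A, ∀ v, IsNormaliser M A v → ⟪h.V (a * v), h.V (y : H →L[ℂ] H)⟫_ℂ = 0) :
    (opEnv hA h).OrthNormaliser y := fun v a => by
  rw [opEnv_τ, coe_mul', coe_star', coe_mul', opEnv_ι, tau_star_mul]
  exact hyo _ (ofFun_mem a) _ (mover_normaliser hA h v)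

/-- The trace of a power of a pinching, block by block in the environment. -/
theorem tau_pinching_pow {r : ℕ} {p : Fin r → (H →L[ℂ] H)} (hp : IsPartition A p)
    (y : M.toStarSubalgebra) (f : Fin r → C(Spec A, ℂ)) (hf : ∀ i, ofFun (f i) = p i) (m : ℕ) :
    (tau h (pinching p (y : H →L[ℂ] H) ^ (m + 1))).re =
      ∑ i, ((opEnv hA h).τ
        (((opEnv hA h).ι (f i) * y * (opEnv hA h).ι (f i)) ^ (m + 1))).re := by
  have e : ∀ g : Fin r → H →L[ℂ] H, (tau h (∑ i, g i)).re = ∑ i, (tau h (g i)).re := fun g => by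
    simp only [tau, map_sum, inner_sum, Complex.re_sum]
  rw [pinching_pow hp _ m, e]
  refine Finset.sum_congr rfl fun i _ => congrArg Complex.re ?_
  refine ((opEnv_τ hA h _).trans (congrArg (tau h) ?_)).symm
  rw [coe_pow', coe_mul', coe_mul', opEnv_ι, hf]

/-- A bound on the blocks bounds the even moment of the pinching. -/
theorem tau_pinching_le {r : ℕ} {p : Fin r → (H →L[ℂ] H)} (hp : IsPartition A p)
    (y : M.toStarSubalgebra) (f : Fin r → C(Spec A, ℂ)) (hf : ∀ i ω, f i ω = chi ω (p i)) {k : ℕ}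
    (hk : 0 < k) {B : ℝ}
    (hB : ∑ i, ((opEnv hA h).τ
      (((opEnv hA h).ι (f i) * y * (opEnv hA h).ι (f i)) ^ (2 * k))).re ≤ B) :
    (tau h (pinching p (y : H →L[ℂ] H) ^ (2 * k))).re ≤ B := by
  obtain ⟨m, hm⟩ : ∃ m, 2 * k = m + 1 := ⟨2 * k - 1, by omega⟩
  rw [hm] at hB ⊢
  rw [tau_pinching_pow hA h hp y f
    (fun i => eq_of_chi_eq (ofFun_mem _) (hp.mem i) fun ω => (chi_ofFun ω _).trans (hf i ω)) m]
  exact hB

/-- Compressing seeds from the compression statement of the environment. -/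
theorem hasCompressedSeeds (hC : CompressionStatement (opEnv hA h)) :
    HasCompressedSeeds (A := A) h := by
  intro r n u hu F hr hF hFe y hy hys hy1 hyo k hk e he
  obtain ⟨Y, hY⟩ : ∃ Y : M.toStarSubalgebra, (Y : H →L[ℂ] H) = y := ⟨⟨y, hy⟩, rfl⟩
  subst hY
  obtain ⟨π, hπ⟩ := exists_seed_compressed hC hr (fun j => toMover hA h (hu j).star') ⟨F, hF⟩
    (fun ω σ π => hFe ω σ π) (y := Y) (C := 1) (Subtype.ext hys.star_eq)
    (orthNormaliser_of_orth hA h Y hyo) (opEnv_bdd hA h Y hy1) hk he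
  refine ⟨π, π.isLocallyConstant, fun p hp hκ => ?_⟩
  have hT : ∀ ω, (fun j => π ((toMover hA h (hu j).star').T ω)) = fun j => π (move (hu j) ω) :=
    fun ω => funext fun j => congrArg π (toMover_star_T hA h (hu j) ω)
  obtain ⟨f, hf⟩ : ∃ f : Fin r → C(Spec A, ℂ), ∀ i ω, f i ω = chi ω (p i) :=
    ⟨fun i => ⟨fun ω => chi ω (p i), continuous_chi _⟩, fun _ _ => rfl⟩
  have h1 := hπ f fun i ω => by
    rw [hf, hκ, hT]
    rfl
  rw [mul_one] at h1
  exact tau_pinching_le hA h hp Y f hf hk h1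

end

/-- Every MASA of a finite algebra from the split and the compression of its environments. -/
theorem allSoPavable_finite [AbelianClosed A] [TotallyDisconnectedSpace (Spec A)]
    (hA : IsMasa M A) (hT : HasFiniteTrace M)
    (hsplit : ∀ (ι : Type) (η : ι → H) (h : IsTrace M η), HasSplit h A)
    (hC : ∀ (ι : Type) (η : ι → H) (h : IsTrace M η), CompressionStatement (opEnv hA h))
    {ε : ℝ} (hε : 0 < ε) (hε1 : ε ≤ 1) :
    ∃ r : ℕ, (r : ℝ) ≤ 198 / ε ^ 2 ∧ AllSoPavable M A ε r := by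
  obtain ⟨r, hr0, hr, hlt⟩ := exists_level_all hε hε1
  exact ⟨r, hr, allSoPavable_all randomSides hA hT hsplit
    (fun ι η h => hasCompressedSeeds hA h (hC ι η h)) hr0 hlt⟩

end Vale.Agent.P078.All
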