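import Vale.Agent.P078.All.OperatorLimit

/-!
The split of an element along the normaliser algebra of a MASA: the two-norm projection of a
self-adjoint `x` on the sums `∑ a * u` is a self-adjoint element of `M` of norm at most `‖x‖`,
approximated in two-norm by such sums of norm at most `‖x‖`.
-/

namespace Vale.Agent.P078.Cartan

open scoped InnerProductSpace ComplexOrder
open ContinuousLinearMap Filter Topology

variable {H : Type} [NormedAddCommGroup H] [InnerProductSpace ℂ H] [CompleteSpace H]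
variable {M : VonNeumannAlgebra H} {A : StarSubalgebra ℂ (H →L[ℂ] H)} {ι : Type} {η : ι → H}

/-- Continuous functional calculus stays in the norm closure of the sums. -/
theorem exists_spanN_cfc {b : H →L[ℂ] H} (hb : b ∈ spanN M A) (hbs : IsSelfAdjoint b) {f : ℝ → ℝ}
    (hf : Continuous f) {e : ℝ} (he : 0 < e) :
    ∃ g ∈ spanN M A, IsSelfAdjoint g ∧ ‖g - cfc f b‖ ≤ e := by
  obtain ⟨p, hp⟩ := exists_polynomial_near_of_continuousOn (-‖b‖) ‖b‖ f hf.continuousOn e he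
  refine ⟨Polynomial.aeval b p, aeval_mem_spanN hb p, ?_, ?_⟩
  · rw [← cfc_polynomial p b hbs]; exact cfc_predicate _ b
  · rw [← cfc_polynomial p b hbs, ← cfc_sub _ _ b]
    refine norm_cfc_le he.le fun s hs => ?_
    have h1 : |s| ≤ ‖b‖ := by
      refine le_trans ?_ (mul_le_of_le_one_right (norm_nonneg _) (ContinuousLinearMap.norm_id_le (𝕜 := ℂ) (E := H)))
      exact spectrum.norm_le_norm_mul_of_mem hs
    rw [Real.norm_eq_abs]
    exact (hp s (abs_le.1 h1)).le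

variable (h : IsTrace M η)

/-- The closed two-norm span of the sums. -/
noncomputable def spanL (A : StarSubalgebra ℂ (H →L[ℂ] H)) :
    Submodule ℂ (lp (fun _ : ι => H) 2) :=
  ((spanN M A).map h.V).topologicalClosure

instance spanL_complete : CompleteSpace (spanL h A) :=
  (Submodule.isClosed_topologicalClosure _).completeSpace_coe

theorem V_mem_spanL {b : H →L[ℂ] H} (hb : b ∈ spanN M A) : h.V b ∈ spanL h A :=
  Submodule.le_topologicalClosure _ ⟨b, hb, rfl⟩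

theorem V_cfc_mem_spanL {b : H →L[ℂ] H} (hb : b ∈ spanN M A) (hbs : IsSelfAdjoint b)
    {f : ℝ → ℝ} (hf : Continuous f) : h.V (cfc f b) ∈ spanL h A := by
  refine Metric.mem_closure_iff.2 fun e he => ?_
  obtain ⟨g, hg, -, hge⟩ := exists_spanN_cfc hb hbs hf (half_pos he)
  refine ⟨h.V g, ⟨g, hg, rfl⟩, ?_⟩
  rw [dist_eq_norm', ← map_sub]
  linarith [norm_V_le h (g - cfc f b)]

theorem spanL_inner_eq {v : lp (fun _ : ι => H) 2} (hv : v ∈ spanL h A)
    (w : lp (fun _ : ι => H) 2) : ⟪v, w⟫_ℂ = ⟪v, (spanL h A).starProjection w⟫_ℂ := by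
  rw [← sub_eq_zero, ← inner_sub_right, ← inner_conj_symm,
    Submodule.starProjection_inner_eq_zero w v hv, map_zero]

/-- A sum near the projection of `x` is hardly above the level `C` if `x` is below it. -/
theorem posAbove_small (hA : IsMasa M A) {x n : H →L[ℂ] H} (hx : x ∈ M) {C : ℝ}
    (hxC : x ≤ algebraMap ℝ (H →L[ℂ] H) C) (hn : n ∈ spanN M A) (hns : IsSelfAdjoint n) {e : ℝ}
    (he : ‖h.V n - (spanL h A).starProjection (h.V x)‖ ≤ e) : ‖h.V (posAbove C n)‖ ≤ e := by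
  have hnM := spanN_le hA hn
  have halg : algebraMap ℝ (H →L[ℂ] H) C ∈ M := by
    rw [← cfc_const C n hns]; exact vn_cfc_mem hnM _
  have hg : h.V (posAbove C n) ∈ spanL h A :=
    V_cfc_mem_spanL h hn hns (by fun_prop)
  have h0 := re_inner_V_nonneg h (posAbove_mem hnM C) (sub_mem halg hx) (posAbove_nonneg C n)
    (sub_nonneg.2 hxC)
  have hb : ⟪h.V (posAbove C n), h.V (posBelow C n)⟫_ℂ = 0 := by
    rw [← inner_conj_symm, re_inner_posBelow h, map_zero]
  have e1 : h.V n - h.V (algebraMap ℝ (H →L[ℂ] H) C)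
      = h.V (posAbove C n) - h.V (posBelow C n) := by
    rw [← map_sub, ← map_sub, posAbove_sub_posBelow hns]
  have key : ‖h.V (posAbove C n)‖ ^ 2 ≤
      RCLike.re ⟪h.V (posAbove C n), h.V n - (spanL h A).starProjection (h.V x)⟫_ℂ := by
    have e2 : RCLike.re ⟪h.V (posAbove C n), h.V n - h.V (algebraMap ℝ (H →L[ℂ] H) C)⟫_ℂ
        = ‖h.V (posAbove C n)‖ ^ 2 := by
      rw [e1, inner_sub_right, hb, sub_zero, inner_self_eq_norm_sq]
    rw [inner_sub_right, ← spanL_inner_eq h hg]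
    rw [map_sub h.V, inner_sub_right] at h0
    rw [inner_sub_right] at e2
    simp only [map_sub] at h0 e2 ⊢
    linarith
  have key2 := key.trans ((re_inner_le_norm _ _).trans
    (mul_le_mul_of_nonneg_left he (norm_nonneg _)))
  rcases (norm_nonneg (h.V (posAbove C n))).eq_or_lt with hz | hz
  · rw [← hz]; exact le_trans (norm_nonneg _) he
  · nlinarith

/-- The projection is approximated by self-adjoint sums. -/
theorem exists_sa_near (hA : IsMasa M A) {x : H →L[ℂ] H} (hx : x ∈ M) (hxs : IsSelfAdjoint x)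
    {e : ℝ} (he : 0 < e) :
    ∃ n ∈ spanN M A, IsSelfAdjoint n ∧
      ‖h.V n - (spanL h A).starProjection (h.V x)‖ ≤ e := by
  obtain ⟨ζ, hζ⟩ : ∃ ζ, ζ = (spanL h A).starProjection (h.V x) := ⟨_, rfl⟩
  obtain ⟨d, hd⟩ : ∃ d, d = ‖h.V x - ζ‖ := ⟨_, rfl⟩
  have hζm : ζ ∈ spanL h A := hζ ▸ Submodule.starProjection_apply_mem _ _
  obtain ⟨g, hg⟩ : ∃ g, g = min 1 (e ^ 2 / (2 * d + 1)) := ⟨_, rfl⟩
  have hd0 : 0 ≤ d := hd ▸ norm_nonneg _
  have hg0 : 0 < g := hg ▸ lt_min one_pos (by positivity)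
  obtain ⟨_, ⟨b, hb, rfl⟩, hbd⟩ := Metric.mem_closure_iff.1
    (show ζ ∈ closure ((spanN M A).map h.V : Set _) from hζm) g hg0
  rw [dist_eq_norm'] at hbd
  have hbM := spanN_le hA hb
  refine ⟨(1 / 2 : ℂ) • (b + star b),
    Submodule.smul_mem _ _ (add_mem hb (star_mem_spanN hb)), ?_, ?_⟩
  · rw [IsSelfAdjoint, star_smul, star_add, star_star, add_comm (star b) b]
    norm_num
  rw [← hζ]
  obtain ⟨n, hn⟩ : ∃ n, n = (1 / 2 : ℂ) • (b + star b) := ⟨_, rfl⟩
  rw [← hn]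
  have hnm : h.V n ∈ spanL h A := V_mem_spanL h (hn ▸ Submodule.smul_mem _ _
    (add_mem hb (star_mem_spanN hb)))
  have h1 : ‖h.V x - h.V n‖ ≤ d + g := by
    have e1 : h.V x - h.V n =
        (1 / 2 : ℂ) • ((h.V x - h.V b) + h.V (star (x - b))) := by
      rw [hn, star_sub, hxs.star_eq, map_smul, map_add, map_sub]
      module
    have e2 : ‖h.V (star (x - b))‖ = ‖h.V x - h.V b‖ := by
      rw [norm_V_star h (sub_mem hx hbM), map_sub]
    rw [e1, norm_smul]
    have e3 := norm_sub_le_norm_sub_add_norm_sub (h.V x) ζ (h.V b)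
    rw [norm_sub_rev ζ] at e3
    have e4 := norm_add_le (h.V x - h.V b) (h.V (star (x - b)))
    rw [e2] at e4
    rw [← hd] at e3
    have e5 : ‖(1 / 2 : ℂ)‖ = 1 / 2 := by norm_num
    rw [e5]
    linarith
  have h2 : ‖h.V x - h.V n‖ * ‖h.V x - h.V n‖ =
      d * d + ‖h.V n - ζ‖ * ‖h.V n - ζ‖ := by
    rw [hd, norm_sub_rev (h.V n) ζ, show h.V x - h.V n = (h.V x - ζ) + (ζ - h.V n) by abel]
    refine norm_add_sq_eq_norm_sq_add_norm_sq_of_inner_eq_zero (𝕜 := ℂ) _ _ ?_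
    rw [hζ]
    exact Submodule.starProjection_inner_eq_zero _ _ (sub_mem (hζ ▸ hζm) hnm)
  have h3 : ‖h.V n - ζ‖ ^ 2 ≤ e ^ 2 := by
    have h4 : g * (2 * d + 1) ≤ e ^ 2 := by
      rw [← le_div_iff₀ (by positivity), hg]; exact min_le_right _ _
    have h5 : g ≤ 1 := hg ▸ min_le_left _ _
    nlinarith [mul_le_mul h1 h1 (norm_nonneg _) (by positivity)]
  exact (pow_le_pow_iff_left₀ (norm_nonneg _) he.le two_ne_zero).1 h3

theorem exists_bdd_near (hA : IsMasa M A) {x : H →L[ℂ] H} (hx : x ∈ M) (hxs : IsSelfAdjoint x)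
    {e : ℝ} (he : 0 < e) :
    ∃ n ∈ spanN M A, IsSelfAdjoint n ∧ ‖n‖ ≤ ‖x‖ ∧
      ‖h.V n - (spanL h A).starProjection (h.V x)‖ ≤ e := by
  obtain ⟨C, hC⟩ : ∃ C, C = ‖x‖ := ⟨_, rfl⟩
  rw [← hC]
  have hC0 : 0 ≤ C := hC ▸ norm_nonneg _
  obtain ⟨n, hn, hns, hne⟩ := exists_sa_near h hA hx hxs (show 0 < e / 5 by positivity)
  have hup : ‖h.V (posAbove C n)‖ ≤ e / 5 :=
    posAbove_small h hA hx (hC ▸ hxs.le_algebraMap_norm_self) hn hns hne
  have hdown : ‖h.V (posBelow (-C) n)‖ ≤ e / 5 := by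
    rw [posBelow_eq_neg _ hns, neg_neg]
    refine posAbove_small h hA (neg_mem hx) ?_ (neg_mem hn) hns.neg ?_
    · rw [hC]; simpa using hxs.neg.le_algebraMap_norm_self
    · rw [map_neg, map_neg, map_neg, ← neg_sub', norm_neg]; exact hne
  have ec : n - posAbove C n + posBelow (-C) n
      = cfc (fun s => s - max (s - C) 0 + max (-C - s) 0) n := by
    conv_lhs => rw [posAbove, posBelow]; arg 1; arg 1; rw [← cfc_id' ℝ n hns]
    rw [← cfc_sub _ _ n, ← cfc_add n _ _]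
  obtain ⟨m, hm, hms, hme⟩ := exists_spanN_cfc hn hns
    (f := fun s => s - max (s - C) 0 + max (-C - s) 0) (by fun_prop) (show 0 < e / 5 by positivity)
  have hmC : ‖m‖ ≤ C + e / 5 := by
    refine (norm_le_norm_add_norm_sub' m (cfc _ n)).trans (add_le_add (norm_cfc_le hC0 ?_) hme)
    intro s _
    rw [Real.norm_eq_abs, abs_le]
    rcases le_total (s - C) 0 with h1 | h1 <;> rcases le_total (-C - s) 0 with h2 | h2 <;>
      constructor <;> simp only [h1, h2, max_eq_left, max_eq_right] <;> linarith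
  obtain ⟨c, hc⟩ : ∃ c, c = C / (C + e / 5) := ⟨_, rfl⟩
  have hc0 : 0 ≤ c := hc ▸ by positivity
  have hc1 : c ≤ 1 := hc ▸ div_le_one_of_le₀ (by linarith) (by positivity)
  have hcm : c * (C + e / 5) = C := hc ▸ div_mul_cancel₀ C (by positivity)
  refine ⟨(c : ℂ) • m, Submodule.smul_mem _ _ hm, ?_, ?_, ?_⟩
  · rw [IsSelfAdjoint, star_smul, hms.star_eq]; simp
  · rw [norm_smul, Complex.norm_real, Real.norm_of_nonneg hc0, ← hcm]
    exact mul_le_mul_of_nonneg_left hmC hc0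
  · have h1 : ‖h.V ((c : ℂ) • m - m)‖ ≤ e / 5 := by
      rw [show (c : ℂ) • m - m = ((c - 1 : ℝ) : ℂ) • m by push_cast; rw [sub_smul, one_smul]]
      refine (norm_V_le h _).trans ?_
      rw [norm_smul, Complex.norm_real, Real.norm_of_nonpos (by linarith)]
      nlinarith [norm_nonneg m, mul_le_mul_of_nonneg_left hmC (by linarith : 0 ≤ 1 - c)]
    have h2 : ‖h.V (m - (n - posAbove C n + posBelow (-C) n))‖ ≤ e / 5 :=
      ec ▸ (norm_V_le h _).trans hme
    have e1 : h.V ((c : ℂ) • m) - (spanL h A).starProjection (h.V x) =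
        h.V ((c : ℂ) • m - m) + h.V (m - (n - posAbove C n + posBelow (-C) n)) +
          (h.V n - (spanL h A).starProjection (h.V x)) - h.V (posAbove C n)
          + h.V (posBelow (-C) n) := by
      simp only [map_sub, map_add]
      abel
    rw [e1]
    refine (norm_add_le _ _).trans ((add_le_add (norm_sub_le _ _) le_rfl).trans ?_)
    have := norm_add₃_le (a := h.V ((c : ℂ) • m - m))
      (b := h.V (m - (n - posAbove C n + posBelow (-C) n)))
      (c := h.V n - (spanL h A).starProjection (h.V x))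
    linarith

/-- A self-adjoint element of `M` splits into a part of no larger norm, a two-norm limit of
self-adjoint sums `∑ a * u` of no larger norm, and a part orthogonal to all these sums. -/
theorem exists_split (hA : IsMasa M A) {x : H →L[ℂ] H} (hx : x ∈ M) (hxs : IsSelfAdjoint x) :
    ∃ z ∈ M, IsSelfAdjoint z ∧ ‖z‖ ≤ ‖x‖ ∧
      (∀ a ∈ A, ∀ u, IsNormaliser M A u → ⟪h.V (a * u), h.V (x - z)⟫_ℂ = 0) ∧
      ∀ γ : ℝ, 0 < γ → ∃ n ∈ spanN M A,
        IsSelfAdjoint n ∧ ‖n‖ ≤ ‖x‖ ∧ ‖h.V (z - n)‖ ≤ γ := by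
  obtain ⟨ζ, hζ⟩ : ∃ ζ, ζ = (spanL h A).starProjection (h.V x) := ⟨_, rfl⟩
  have hbd : ∀ k : ℕ, ∃ n ∈ spanN M A, IsSelfAdjoint n ∧ ‖n‖ ≤ ‖x‖ ∧
      ‖h.V n - ζ‖ ≤ 1 / ((k : ℝ) + 1) := fun k =>
    hζ ▸ exists_bdd_near h hA hx hxs (by positivity)
  choose n hn hns hnx hnζ using hbd
  have hlim : Tendsto (fun k => h.V (n k)) atTop (𝓝 ζ) :=
    tendsto_iff_norm_sub_tendsto_zero.2
      (squeeze_zero (fun _ => norm_nonneg _) hnζ tendsto_one_div_add_atTop_nhds_zero_nat)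
  obtain ⟨z, hzM, hzn, hzV, hzt⟩ :=
    All.vLimit h (fun k => spanN_le hA (hn k)) hnx hlim.cauchySeq
  have e : h.V z = ζ := tendsto_nhds_unique hzV hlim
  refine ⟨z, hzM, ?_, hzn, fun a ha u hu => ?_, fun γ hγ => ?_⟩
  · rw [ContinuousLinearMap.isSelfAdjoint_iff_isSymmetric]
    intro u v
    refine tendsto_nhds_unique ((hzt u).inner tendsto_const_nhds)
      (Tendsto.congr (fun k => ?_) ((tendsto_const_nhds (x := u)).inner (hzt v)))
    exact ((ContinuousLinearMap.isSelfAdjoint_iff_isSymmetric.1 (hns k)) u v).symm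
  · rw [map_sub, e, inner_sub_right, sub_eq_zero, hζ]
    exact spanL_inner_eq h (V_mem_spanL h (mem_spanN ha hu)) _
  · obtain ⟨k, hk⟩ := exists_nat_one_div_lt hγ
    refine ⟨n k, hn k, hns k, hnx k, ?_⟩
    rw [map_sub, e, norm_sub_rev]
    exact (hnζ k).trans hk.le

end Vale.Agent.P078.Cartan

namespace Vale.Agent.P078.All

open scoped InnerProductSpace ComplexOrder
open ContinuousLinearMap Cartan

variable {H : Type} [NormedAddCommGroup H] [InnerProductSpace ℂ H] [CompleteSpace H]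
variable {M : VonNeumannAlgebra H} {A : StarSubalgebra ℂ (H →L[ℂ] H)} {κ : Type} {η : κ → H}
variable [AbelianClosed A] [TotallyDisconnectedSpace (Spec A)]

/-- Elements of `spanN` are finite sums over the movers of the environment. -/
theorem isNSum_of_spanN (hA : IsMasa M A) (h : IsTrace M η) {y : H →L[ℂ] H}
    (hy : y ∈ spanN M A) :
    (opEnv hA h).IsNSum ⟨y, spanN_le hA hy⟩ := by
  induction hy using Submodule.span_induction with
  | mem y hy =>
    obtain ⟨a, ha, u, hu, rfl⟩ := hy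
    refine ⟨1, fun _ => ⟨fun ω => chi ω a, continuous_chi a⟩, fun _ => toMover hA h hu,
      Subtype.ext ?_⟩
    simp only [Finset.univ_unique, Finset.sum_singleton, MulMemClass.coe_mul, opEnv_ι,
      ofFun_chi ha]
    rfl
  | zero => exact ⟨0, fun i => i.elim0, fun i => i.elim0, Subtype.ext (by simp)⟩
  | add y z _ _ hy hz =>
    obtain ⟨N, a, g, e⟩ := hy
    obtain ⟨N', a', g', e'⟩ := hz
    refine ⟨N + N', Fin.append a a', Fin.append g g', ?_⟩
    simp only [Fin.sum_univ_add, Fin.append_left, Fin.append_right, ← e, ← e']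
    rfl
  | smul c y _ hy =>
    obtain ⟨N, a, g, e⟩ := hy
    refine ⟨N, fun i => c • a i, g, ?_⟩
    have e' := congrArg (c • ·) e
    simp only [Finset.smul_sum] at e'
    simp only [map_smul, smul_mul_assoc]
    exact Eq.trans rfl e'

/-- Every element splits along the normaliser, with bound twice its norm. -/
theorem env_normaliserSplit (hA : IsMasa M A) (h : IsTrace M η) :
    (opEnv hA h).NormaliserSplit := by
  intro x
  obtain ⟨x₁, hx₁⟩ : ∃ y, y = (1 / 2 : ℂ) • ((x : H →L[ℂ] H) + star (x : H →L[ℂ] H)) := ⟨_, rfl⟩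
  obtain ⟨x₂, hx₂⟩ : ∃ y, y = (-Complex.I / 2) • ((x : H →L[ℂ] H) - star (x : H →L[ℂ] H)) :=
    ⟨_, rfl⟩
  have hs₁ : IsSelfAdjoint x₁ := by
    rw [hx₁, IsSelfAdjoint, star_smul, star_add, star_star, add_comm (star (x : H →L[ℂ] H))]
    norm_num
  have hs₂ : IsSelfAdjoint x₂ := by
    rw [hx₂, IsSelfAdjoint, star_smul, star_sub, star_star, ← neg_sub (x : H →L[ℂ] H), smul_neg,
      ← neg_smul]
    congr 1
    simp [neg_div]
  have hM₁ : x₁ ∈ M := hx₁ ▸ vn_smul_mem _ (add_mem x.2 (star_mem x.2))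
  have hM₂ : x₂ ∈ M := hx₂ ▸ vn_smul_mem _ (sub_mem x.2 (star_mem x.2))
  have hsum : (x : H →L[ℂ] H) = x₁ + Complex.I • x₂ := by
    rw [hx₁, hx₂, smul_smul, ← mul_div_assoc, mul_neg, Complex.I_mul_I, neg_neg]
    module
  have hn₁ : ‖x₁‖ ≤ ‖(x : H →L[ℂ] H)‖ := by
    rw [hx₁, norm_smul]
    have := norm_add_le (x : H →L[ℂ] H) (star (x : H →L[ℂ] H))
    rw [norm_star] at this
    norm_num
    linarith
  have hn₂ : ‖x₂‖ ≤ ‖(x : H →L[ℂ] H)‖ := by
    rw [hx₂, norm_smul]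
    have := norm_sub_le (x : H →L[ℂ] H) (star (x : H →L[ℂ] H))
    rw [norm_star] at this
    norm_num
    linarith
  obtain ⟨z₁, hz₁, -, -, ho₁, ha₁⟩ := exists_split h hA hM₁ hs₁
  obtain ⟨z₂, hz₂, -, -, ho₂, ha₂⟩ := exists_split h hA hM₂ hs₂
  refine ⟨⟨z₁ + Complex.I • z₂, add_mem hz₁ (vn_smul_mem _ hz₂)⟩, fun g a => ?_,
    2 * ‖(x : H →L[ℂ] H)‖, fun e he => ?_⟩
  · rw [opEnv_τ]
    show tau h (star (ofFun a * (g.u : H →L[ℂ] H)) *
      ((x : H →L[ℂ] H) - (z₁ + Complex.I • z₂))) = 0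
    rw [tau_star_mul, hsum, show x₁ + Complex.I • x₂ - (z₁ + Complex.I • z₂) =
      (x₁ - z₁) + Complex.I • (x₂ - z₂) by module, map_add, map_smul, inner_add_right,
      inner_smul_right, ho₁ _ (ofFun_mem a) _ (mover_normaliser hA h g),
      ho₂ _ (ofFun_mem a) _ (mover_normaliser hA h g)]
    simp
  · obtain ⟨γ, hγ0, hγ⟩ : ∃ γ : ℝ, 0 < γ ∧ (2 * γ) ^ 2 ≤ e :=
      ⟨Real.sqrt e / 2, by positivity, by rw [mul_div_cancel₀ _ two_ne_zero, Real.sq_sqrt he.le]⟩
    obtain ⟨n₁, hm₁, -, hb₁, hd₁⟩ := ha₁ γ hγ0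
    obtain ⟨n₂, hm₂, -, hb₂, hd₂⟩ := ha₂ γ hγ0
    have hm : n₁ + Complex.I • n₂ ∈ spanN M A := add_mem hm₁ (Submodule.smul_mem _ _ hm₂)
    refine ⟨⟨_, spanN_le hA hm⟩, isNSum_of_spanN hA h hm, opEnv_bdd hA h _ ?_, ?_⟩
    · refine (norm_add_le _ _).trans ?_
      rw [norm_smul, Complex.norm_I, one_mul]
      linarith
    · rw [opEnv_sq]
      refine le_trans (pow_le_pow_left₀ (norm_nonneg _) ?_ 2) hγ
      show ‖h.V (z₁ + Complex.I • z₂ - (n₁ + Complex.I • n₂))‖ ≤ 2 * γ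
      rw [show z₁ + Complex.I • z₂ - (n₁ + Complex.I • n₂) =
        (z₁ - n₁) + Complex.I • (z₂ - n₂) by module, map_add, map_smul]
      refine (norm_add_le _ _).trans ?_
      rw [norm_smul, Complex.norm_I, one_mul]
      linarith

end Vale.Agent.P078.All
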