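import Vale.Agent.P078.All.OperatorCompress
import Vale.Agent.P078.All.OperatorSplit
import Vale.Agent.P078.All.Compress

/-!
So-paving of every MASA of a finite algebra from asymptotic freeness of its environments.
-/

namespace Vale.Agent.P078.All

open scoped InnerProductSpace ComplexOrder
open ContinuousLinearMap Vale.Agent.P078.Cartan

variable {H : Type} [NormedAddCommGroup H] [InnerProductSpace ℂ H] [CompleteSpace H]
variable {M : VonNeumannAlgebra H} {A : StarSubalgebra ℂ (H →L[ℂ] H)} {ι : Type} {η : ι → H}
variable [AbelianClosed A] [TotallyDisconnectedSpace (Spec A)]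

/-- The fixed-point sets of the movers are open. -/
theorem env_fixOpen (hA : IsMasa M A) (h : IsTrace M η) : (opEnv hA h).FixOpen := by
  intro g
  simp only [mover_T hA h g]
  exact isOpen_move_eq hA (mover_normaliser hA h g).star'

/-- The split in the form used by the transfer. -/
theorem hasSplit (hA : IsMasa M A) (h : IsTrace M η) : HasSplit h A :=
  fun _ hx hxs => exists_split h hA hx hxs

/-- Compressing seeds from asymptotic freeness. -/
theorem env_compression (hA : IsMasa M A) (h : IsTrace M η)
    (hF : FreeStatement (opEnv hA h)) : CompressionStatement (opEnv hA h) :=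
  compressionStatement _ (env_fixOpen hA h) (env_normaliserSplit hA h) hF

/-- Every MASA of a finite algebra, from asymptotic freeness. -/
theorem allSoPavable_finite_of_free (hA : IsMasa M A) (hT : HasFiniteTrace M)
    (hF : ∀ (ι : Type) (η : ι → H) (h : IsTrace M η), FreeStatement (opEnv hA h))
    {ε : ℝ} (hε : 0 < ε) (hε1 : ε ≤ 1) :
    ∃ r : ℕ, (r : ℝ) ≤ 198 / ε ^ 2 ∧ AllSoPavable M A ε r :=
  allSoPavable_finite hA hT (fun _ _ h => hasSplit hA h)
    (fun ι η h => env_compression hA h (hF ι η h)) hε hε1

end Vale.Agent.P078.All
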