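import Vale.Agent.P078.All.OperatorNet

/-!
Fibre atoms of an element give an intertwiner: the key lemma for atomlessness.
-/

namespace Vale.Agent.P078.All

open scoped InnerProductSpace ComplexOrder
open ContinuousLinearMap Cartan Filter Topology

variable {H : Type} [NormedAddCommGroup H] [InnerProductSpace ℂ H] [CompleteSpace H]
variable {M : VonNeumannAlgebra H} {A : StarSubalgebra ℂ (H →L[ℂ] H)} {κ : Type} {η : κ → H}
variable [AbelianClosed A]

omit [AbelianClosed A] in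
theorem tendsto_V_star_eq (hA : IsMasa M A) (h : IsTrace M η) {Φ : FPart A → H →L[ℂ] H}
    {Z : H →L[ℂ] H} (hΦ : ∀ Q, Φ Q ∈ M) (hΦs : ∀ Q, IsSelfAdjoint (Φ Q)) (hZ : Z ∈ M)
    (hlim : Tendsto (fun Q => h.V (Φ Q)) atTop (𝓝 (h.V Z))) : star Z = Z := by
  have := fpart_neBot hA
  refine eq_of_V h (star_mem hZ) hZ (tendsto_nhds_unique ?_ hlim)
  rw [tendsto_iff_norm_sub_tendsto_zero] at hlim ⊢
  refine hlim.congr fun Q => ?_
  rw [← map_sub, ← map_sub, ← norm_V_star h (sub_mem (hΦ Q) hZ), star_sub, (hΦs Q).star_eq]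

theorem norm_V_sub_swap (h : IsTrace M η) (q r : C(Spec A, ℝ)) :
    ‖h.V (ofReal' r - ofReal' q)‖ ^ 2 = muFun h ((q - r) * (q - r)) := by
  rw [← norm_V_ofReal' h (q - r), ofReal'_sub, ← neg_sub (ofReal' q) (ofReal' r),
    LinearMap.map_neg, norm_neg]

theorem sq_le_mul (h : IsTrace M η) {q r : C(Spec A, ℝ)} {K : ℝ} (hr : ∀ ω, 0 ≤ r ω)
    (hrq : ∀ ω, r ω ≤ q ω) (hq : ∀ ω, q ω ≤ K) :
    muFun h ((q - r) * (q - r)) ≤ K * (muFun h q - muFun h r) := by
  refine (muFun_mono h (g := K • (q - r)) fun ω => ?_).trans_eq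
    ((LinearMap.map_smul (muFun h) K (q - r)).trans
      (congrArg (fun t => K * t) (LinearMap.map_sub (muFun h) q r)))
  show (q ω - r ω) * (q ω - r ω) ≤ K * (q ω - r ω)
  exact mul_le_mul_of_nonneg_right (by linarith [hr ω, hq ω]) (by linarith [hrq ω])

theorem sqMass_step (hA : IsMasa M A) (h : IsTrace M η) {y g : H →L[ℂ] H} (hy : y ∈ M)
    (hg : g ∈ A) (hgp : IsStarProjection g) {K : ℝ}
    (hup : ∀ (Q : FPart A) (ω : Spec A), sqMass y g Q ω ≤ K) {Q R : FPart A} (hQR : Q ≤ R) :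
    ‖h.V (ofReal' (sqMass (A := A) y g R) - ofReal' (sqMass y g Q))‖ ^ 2
      ≤ K * (muFun h (sqMass y g Q) - muFun h (sqMass y g R)) :=
  (norm_V_sub_swap h _ _).trans_le (sq_le_mul h (sqMass_nonneg y g R)
    (sqMass_anti hA hy hg hgp hQR) (hup Q))

/-- The squared masses converge to an element of `A`. -/
theorem sqMass_net (hA : IsMasa M A) (h : IsTrace M η) {y g : H →L[ℂ] H} (hy : y ∈ M)
    (hg : g ∈ A) (hgp : IsStarProjection g) :
    ∃ F : C(Spec A, ℝ), Tendsto (fun Q => h.V (ofReal' (sqMass (A := A) y g Q))) atTop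
      (𝓝 (h.V (ofReal' F))) := by
  obtain ⟨C, hC⟩ := (isCompact_range (ef (A := A) y g).continuous).bddAbove
  obtain ⟨K, hKdef⟩ : ∃ K : ℝ, K = C ^ 2 := ⟨_, rfl⟩
  have hup : ∀ Q ω, sqMass y g Q ω ≤ K := fun Q ω => by
    rw [hKdef]
    exact (sqMass_le hA hy hg hgp Q ω).trans
      (pow_le_pow_left₀ (ef_nonneg hA hy hg hgp ω) (hC ⟨ω, rfl⟩) 2)
  have hK0 : 0 ≤ K := by rw [hKdef]; exact sq_nonneg C
  obtain ⟨Z, hZ, hlim⟩ := net_limit hA h (fun Q => ofReal' (sqMass (A := A) y g Q))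
    (fun Q => hA.le _ (ofReal'_mem _)) (C := K)
    (fun Q => norm_ofReal'_le _ hK0 fun ω => by
      rw [abs_of_nonneg (sqMass_nonneg y g Q ω)]; exact hup Q ω)
    (fun Q => muFun h (sqMass y g Q)) (L := 0)
    (fun Q => muFun_nonneg h _ (sqMass_nonneg y g Q)) (K := K) hK0
    (fun Q R hQR _ => sqMass_step hA h hy hg hgp hup hQR)
  have hZA : Z ∈ A := hA.mem_of_commute hZ fun a ha => (intertwine_limit hA h
    (fun Q => hA.le _ (ofReal'_mem _)) hZ (hA.le a ha) (hA.le a ha) hlim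
    (Eventually.of_forall fun Q => hA.comm a ha _ (ofReal'_mem _))).symm
  have hstar := tendsto_V_star_eq hA h (fun Q => hA.le _ (ofReal'_mem _))
    (fun Q => ofReal'_isSelfAdjoint _) hZ hlim
  refine ⟨⟨fun ω => (chi ω Z).re, Complex.continuous_re.comp (continuous_chi Z)⟩, ?_⟩
  rw [show ofReal' ⟨fun ω => (chi ω Z).re, _⟩ = Z from eq_of_chi_eq (ofReal'_mem _) hZA fun ω => by
    rw [chi_ofReal']
    have := chi_star ω hZA
    rw [hstar] at this
    exact (Complex.conj_eq_iff_re.1 this.symm)]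
  exact hlim

/-- The infimum of the squared masses. -/
theorem sqMass_limit (hA : IsMasa M A) (h : IsTrace M η) {y g : H →L[ℂ] H} (hy : y ∈ M)
    (hg : g ∈ A) (hgp : IsStarProjection g) {G : C(Spec A, ℝ)}
    (hsmall : ∀ Q : FPart A, 7 / 8 * muFun h G < muFun h (sqMass y g Q)) :
    ∃ F : C(Spec A, ℝ), (∀ Q ω, F ω ≤ sqMass y g Q ω) ∧ 7 / 8 * muFun h G ≤ muFun h F := by
  obtain ⟨F, hlim⟩ := sqMass_net hA h hy hg hgp
  have := fpart_neBot hA
  have hbelow : ∀ Q ω, F ω ≤ sqMass y g Q ω := by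
    intro Q ω
    obtain ⟨d, hd⟩ : ∃ d : C(Spec A, ℝ), d = (F - sqMass y g Q) ⊔ 0 := ⟨_, rfl⟩
    have hd0 : ‖h.V (ofReal' d)‖ ^ 2 ≤ 0 := by
      have ht : Tendsto (fun R => ‖h.V (ofReal' (sqMass (A := A) y g R)) - h.V (ofReal' F)‖ ^ 2) atTop
          (𝓝 0) := by
        simpa using ((tendsto_iff_norm_sub_tendsto_zero.1 hlim).pow 2)
      refine ge_of_tendsto ht ((eventually_ge_atTop Q).mono fun R hR => ?_)
      rw [← map_sub, ← ofReal'_sub, norm_V_ofReal', norm_V_ofReal']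
      refine muFun_mono h fun ν => ?_
      have h1 := sqMass_anti hA hy hg hgp hR ν
      simp only [hd, ContinuousMap.mul_apply, ContinuousMap.sup_apply, ContinuousMap.sub_apply,
        ContinuousMap.zero_apply]
      rcases max_cases (F ν - sqMass y g Q ν) 0 with ⟨e, e'⟩ | ⟨e, e'⟩
      · rw [e]; nlinarith
      · rw [e]; simpa using mul_self_nonneg (sqMass y g R ν - F ν)
    rw [norm_V_ofReal'] at hd0
    have h3 := muFun_eq_zero hA h (fun ν => mul_self_nonneg (d ν))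
      (le_antisymm hd0 (muFun_nonneg h _ fun ν => mul_self_nonneg (d ν)))
    have h4 := mul_self_eq_zero.1 (congrArg (fun f : C(Spec A, ℝ) => f ω) h3)
    rw [hd] at h4
    simp only [ContinuousMap.sup_apply, ContinuousMap.sub_apply, ContinuousMap.zero_apply] at h4
    linarith [le_max_left (F ω - sqMass y g Q ω) 0]
  have hμF : 7 / 8 * muFun h G ≤ muFun h F := by
    have ht : Tendsto (fun R => muFun h (sqMass (A := A) y g R)) atTop (𝓝 (muFun h F)) := by
      show Tendsto (fun R => (tau h (ofReal' (sqMass (A := A) y g R))).re) atTop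
        (𝓝 (tau h (ofReal' F)).re)
      exact (Complex.continuous_re.tendsto _).comp (tendsto_const_nhds.inner hlim)
    exact ge_of_tendsto' ht fun R => (hsmall R).le
  exact ⟨F, hbelow, hμF⟩

/-- A partition either loses an eighth of the squared mass of a piece or all partitions keep three
quarters of it on a clopen set. -/
theorem good_or_small [TotallyDisconnectedSpace (Spec A)] (hA : IsMasa M A) (h : IsTrace M η)
    {y : H →L[ℂ] H} (hy : y ∈ M) {g : H →L[ℂ] H} (hg : g ∈ A) (hgp : IsStarProjection g) :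
    (∃ p : Set (Spec A), IsClopen p ∧ p.Nonempty ∧ (∀ ω ∈ p, 0 < ef y g ω) ∧
        ∀ Q : FPart A, ∀ ω ∈ p, 3 / 4 * ef y g ω ^ 2 ≤ sqMass y g Q ω) ∨
      ∃ Q : FPart A, muFun h (sqMass y g Q) ≤ 7 / 8 * muFun h (ef (A := A) y g * ef y g) := by
  by_cases hsmall : ∃ Q : FPart A,
      muFun h (sqMass y g Q) ≤ 7 / 8 * muFun h (ef (A := A) y g * ef y g)
  · exact Or.inr hsmall
  refine Or.inl ?_
  push Not at hsmall
  obtain ⟨G, hG⟩ : ∃ G : C(Spec A, ℝ), G = ef y g * ef y g := ⟨_, rfl⟩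
  rw [← hG] at hsmall
  have hGv : ∀ ω, G ω = ef y g ω ^ 2 := fun ω => by rw [hG, sq]; rfl
  obtain ⟨C, hC⟩ := (isCompact_range G.continuous).bddAbove
  have hGC : ∀ ω, G ω ≤ max C 0 := fun ω => (hC ⟨ω, rfl⟩).trans (le_max_left _ _)
  have hup : ∀ Q ω, sqMass y g Q ω ≤ G ω := fun Q ω =>
    (sqMass_le hA hy hg hgp Q ω).trans_eq (hGv ω).symm
  obtain ⟨F, hbelow, hμF⟩ := sqMass_limit hA h hy hg hgp hsmall
  have hpos : 0 < muFun h G := by
    have h1 := hsmall FPart.triv
    have h2 := muFun_mono h (hup FPart.triv)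
    linarith
  obtain ⟨ω₀, hω₀⟩ : ∃ ω₀, 3 / 4 * G ω₀ < F ω₀ := by
    by_contra hcon
    push Not at hcon
    have h1 := muFun_mono h (f := F) (g := (3 / 4 : ℝ) • G) fun ω => by simpa using hcon ω
    rw [map_smul, smul_eq_mul] at h1
    linarith
  obtain ⟨p, hp, hω, hpU⟩ := compact_exists_isClopen_in_isOpen
    (isOpen_lt (continuous_const.mul G.continuous) F.continuous) hω₀
  refine ⟨p, hp, ⟨ω₀, hω⟩, fun ω hωp => ?_, fun Q ω hωp => ?_⟩
  · have h1 : 3 / 4 * G ω < F ω := hpU hωp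
    have h2 := (hbelow FPart.triv ω).trans (hup FPart.triv ω)
    rcases (ef_nonneg hA hy hg hgp ω).eq_or_lt with e | e
    · rw [hGv, ← e] at h1 h2; linarith
    · exact e
  · have h1 : 3 / 4 * G ω < F ω := hpU hωp
    rw [← hGv]
    linarith [hbelow Q ω]

/-- If the squared masses do not vanish, some piece keeps its mass on a clopen set. -/
theorem exists_good [TotallyDisconnectedSpace (Spec A)] (hA : IsMasa M A) (h : IsTrace M η)
    {y : H →L[ℂ] H} (hy : y ∈ M) {δ : ℝ} (hδ : 0 < δ) (hlow : ∀ Q : FPart A, δ ≤ gs h y Q) :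
    ∃ g ∈ A, IsStarProjection g ∧ ∃ p : Set (Spec A), IsClopen p ∧ p.Nonempty ∧
      (∀ ω ∈ p, 0 < ef y g ω) ∧
      ∀ Q : FPart A, ∀ ω ∈ p, 3 / 4 * ef y g ω ^ 2 ≤ sqMass y g Q ω := by
  classical
  have : Nonempty (FPart A) := ⟨FPart.triv⟩
  have := fpart_directed hA
  have hbdd : BddBelow (Set.range fun Q : FPart A => gs h y Q) :=
    ⟨δ, by rintro _ ⟨Q, rfl⟩; exact hlow Q⟩
  obtain ⟨m, hm⟩ : ∃ m, m = ⨅ Q : FPart A, gs h y Q := ⟨_, rfl⟩
  have hm0 : δ ≤ m := hm ▸ le_ciInf hlow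
  obtain ⟨P, hP⟩ : ∃ P : FPart A, gs h y P < 8 / 7 * m :=
    exists_lt_of_ciInf_lt (by rw [← hm]; linarith)
  by_contra hcon
  have hQ : ∀ i, ∃ Q : FPart A, muFun h (sqMass y (P.c i) Q)
      ≤ 7 / 8 * muFun h (ef (A := A) y (P.c i) * ef y (P.c i)) := fun i =>
    (good_or_small hA h hy (P.mem i) (P.proj i)).resolve_left fun ⟨p, hp⟩ =>
      hcon ⟨_, P.mem i, P.proj i, p, hp⟩
  choose q hq using hQ
  obtain ⟨R, hR⟩ := Finset.exists_le (Finset.univ.image q)
  have h1 : gs h y (P.join hA R) ≤ 7 / 8 * gs h y P := by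
    rw [gs_join, gs, Finset.mul_sum]
    exact Finset.sum_le_sum fun i _ => le_trans (muFun_mono h (sqMass_anti hA hy (P.mem i) (P.proj i)
      (hR _ (Finset.mem_image_of_mem q (Finset.mem_univ i))))) (hq i)
  have h2 : m ≤ gs h y (P.join hA R) := hm ▸ ciInf_le hbdd _
  linarith

/-- A projection from a clopen set. -/
noncomputable def clP (s : Set (Spec A)) : H →L[ℂ] H :=
  open Classical in
  if hs : IsClopen s then
    ofReal' ⟨s.indicator 1, (IsLocallyConstant.iff_eventually_eq _ |>.2 fun ω => by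
      by_cases hω : ω ∈ s
      · filter_upwards [hs.isOpen.mem_nhds hω] with ν hν
        simp [hω, hν]
      · filter_upwards [hs.isClosed.isOpen_compl.mem_nhds hω] with ν hν
        simp [hω, Set.notMem_of_mem_compl hν]).continuous⟩
  else 0

theorem clP_mem (s : Set (Spec A)) : clP s ∈ A := by
  classical
  unfold clP
  split_ifs with hs
  · exact ofReal'_mem _
  · exact zero_mem A

open Classical in
theorem chi_clP {s : Set (Spec A)} (hs : IsClopen s) (ω : Spec A) :
    chi ω (clP s) = if ω ∈ s then 1 else 0 := by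
  rw [clP, dif_pos hs, chi_ofReal']
  by_cases hω : ω ∈ s <;> simp [hω]

theorem clP_proj {s : Set (Spec A)} (hs : IsClopen s) : IsStarProjection (clP s) := by
  classical
  exact ⟨eq_of_chi_eq (mul_mem (clP_mem s) (clP_mem s)) (clP_mem s) fun ω => by
      rw [chi_mul ω (clP_mem s) (clP_mem s), chi_clP hs]; split_ifs <;> simp,
    eq_of_chi_eq (star_mem (clP_mem s)) (clP_mem s) fun ω => by
      rw [chi_star ω (clP_mem s), chi_clP hs]; split_ifs <;> simp⟩

theorem clP_mul {s t : Set (Spec A)} (hs : IsClopen s) (ht : IsClopen t) :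
    clP s * clP t = clP (s ∩ t) := by
  classical
  exact eq_of_chi_eq (mul_mem (clP_mem s) (clP_mem t)) (clP_mem (A := A) _) fun ω => by
    rw [chi_mul ω (clP_mem s) (clP_mem t), chi_clP hs, chi_clP ht, chi_clP (hs.inter ht)]
    by_cases h1 : ω ∈ s <;> by_cases h2 : ω ∈ t <;> simp [h1, h2]

theorem clP_empty : clP (∅ : Set (Spec A)) = 0 := by
  classical
  exact eq_of_chi_eq (clP_mem (A := A) _) (zero_mem A) fun ω => by
    rw [chi_clP isClopen_empty, chi_zero, if_neg (Set.notMem_empty ω)]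

/-- The part of `p` where the fibre of `k` carries more than half. -/
def major (y g : H →L[ℂ] H) (p : Set (Spec A)) (k : H →L[ℂ] H) : Set (Spec A) :=
  {ω | ω ∈ p ∧ ef y g ω < 2 * ef y (g * k) ω}

section major

variable {y g : H →L[ℂ] H} {p : Set (Spec A)}

theorem major_disjoint (hA : IsMasa M A) (hy : y ∈ M) (hg : g ∈ A) (hgp : IsStarProjection g)
    (Q : FPart A) {i j : Q.ι} (hij : i ≠ j) {ω : Spec A} (hi : ω ∈ major y g p (Q.c i))
    (hj : ω ∈ major y g p (Q.c j)) : False := by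
  classical
  have h1 : ef y (g * Q.c i) ω + ef y (g * Q.c j) ω ≤ ef y g ω := by
    rw [← ef_parts hA hy hg Q ω, ← Finset.sum_pair (f := fun k => ef y (g * Q.c k) ω) hij]
    exact Finset.sum_le_sum_of_subset_of_nonneg (Finset.subset_univ _) fun k _ _ =>
      ef_nonneg hA hy (mul_mem hg (Q.mem k)) (piece_proj hA hg hgp Q k) ω
  linarith [hi.2, hj.2]

variable (hkeep : ∀ Q : FPart A, ∀ ω ∈ p, 3 / 4 * ef y g ω ^ 2 ≤ sqMass y g Q ω)
variable (hpos : ∀ ω ∈ p, 0 < ef y g ω)

include hkeep hpos in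
theorem major_cover (hA : IsMasa M A) (hy : y ∈ M) (hg : g ∈ A) (hgp : IsStarProjection g)
    (Q : FPart A) {ω : Spec A} (hω : ω ∈ p) : ∃ i, ω ∈ major y g p (Q.c i) := by
  by_contra hcon
  have hall : ∀ i, 2 * ef y (g * Q.c i) ω ≤ ef y g ω := fun i =>
    not_lt.1 fun hlt => hcon ⟨i, hω, hlt⟩
  have h1 := hkeep Q ω hω
  rw [sqMass_apply] at h1
  have h2 : ∑ i, ef y (g * Q.c i) ω ^ 2 ≤ ∑ i, ef y g ω / 2 * ef y (g * Q.c i) ω :=
    Finset.sum_le_sum fun i _ => by
      rw [sq]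
      exact mul_le_mul_of_nonneg_right (by linarith [hall i])
        (ef_nonneg hA hy (mul_mem hg (Q.mem i)) (piece_proj hA hg hgp Q i) ω)
  rw [← Finset.mul_sum, ef_parts hA hy hg] at h2
  nlinarith [hpos ω hω]

include hkeep hpos in
theorem major_clopen (hA : IsMasa M A) (hy : y ∈ M) (hg : g ∈ A) (hgp : IsStarProjection g)
    (hp : IsClopen p) {k : H →L[ℂ] H} (hk : k ∈ A) (hkp : IsStarProjection k) :
    IsClopen (major y g p k) := by
  have hop : ∀ l : H →L[ℂ] H, IsOpen (major (A := A) y g p l) := fun l =>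
    hp.isOpen.inter (isOpen_lt (ef y g).continuous (continuous_const.mul (ef y (g * l)).continuous))
  refine ⟨?_, hop k⟩
  have e : major (A := A) y g p k = p ∩ (major y g p (1 - k))ᶜ := by
    refine Set.ext fun ω => ⟨fun hω => ⟨hω.1, fun hω' => ?_⟩, fun hω => ?_⟩
    · exact major_disjoint hA hy hg hgp (FPart.two k hk hkp) (i := true) (j := false)
        Bool.noConfusion hω hω'
    · obtain ⟨b, hb⟩ := major_cover hkeep hpos hA hy hg hgp (FPart.two k hk hkp) hω.1
      cases b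
      · exact absurd hb hω.2
      · exact hb
  rw [e]
  exact hp.isClosed.inter (hop _).isClosed_compl

end major

/-- The image of `k` under the intertwining map. -/
noncomputable def psi (y g : H →L[ℂ] H) (p : Set (Spec A)) (k : H →L[ℂ] H) : H →L[ℂ] H :=
  clP (major y g p k)

/-- The part of `y` in the intertwining space of a partition. -/
noncomputable def part (y g : H →L[ℂ] H) (p : Set (Spec A)) (Q : FPart A) : H →L[ℂ] H :=
  ∑ i, psi y g p (Q.c i) * y * (g * Q.c i)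

/-- The data of a good piece. -/
structure KeptPiece (M : VonNeumannAlgebra H) (A : StarSubalgebra ℂ (H →L[ℂ] H)) [AbelianClosed A]
    (y g : H →L[ℂ] H) (p : Set (Spec A)) : Prop where
  y_mem : y ∈ M
  g_mem : g ∈ A
  g_proj : IsStarProjection g
  clopen : IsClopen p
  pos : ∀ ω ∈ p, 0 < ef y g ω
  keep : ∀ Q : FPart A, ∀ ω ∈ p, 3 / 4 * ef y g ω ^ 2 ≤ sqMass y g Q ω

namespace KeptPiece

variable {y g : H →L[ℂ] H} {p : Set (Spec A)} (G : KeptPiece M A y g p) (hA : IsMasa M A)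

include G hA in
theorem major_piece (Q : FPart A) (i : Q.ι) : IsClopen (major y g p (Q.c i)) :=
  major_clopen G.keep G.pos hA G.y_mem G.g_mem G.g_proj G.clopen (Q.mem i) (Q.proj i)

include G hA in
theorem psi_proj (Q : FPart A) (i : Q.ι) : IsStarProjection (psi y g p (Q.c i)) :=
  clP_proj (G.major_piece hA Q i)

include G hA in
theorem psi_orth (Q : FPart A) {i j : Q.ι} (hij : i ≠ j) :
    psi y g p (Q.c i) * psi y g p (Q.c j) = 0 := by
  rw [psi, psi, clP_mul (G.major_piece hA Q i) (G.major_piece hA Q j), ← clP_empty (A := A)]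
  congr 1
  exact Set.eq_empty_iff_forall_notMem.2 fun ω hω =>
    major_disjoint hA G.y_mem G.g_mem G.g_proj Q hij hω.1 hω.2

include G hA in
theorem part_mem (Q : FPart A) : part y g p Q ∈ M :=
  sum_mem fun i _ => mul_mem (mul_mem (hA.le _ (clP_mem (A := A) _)) G.y_mem)
    (mul_mem (hA.le g G.g_mem) (hA.le _ (Q.mem i)))

include G hA in
theorem part_norm (Q : FPart A) : ‖part y g p Q‖ ≤ ‖y‖ := by
  refine opNorm_le_bound _ (norm_nonneg _) fun v => ?_
  refine (abs_le_of_sq_le_sq' ?_ (by positivity)).2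
  rw [show part y g p Q v = ∑ i, psi y g p (Q.c i) (y ((g * Q.c i) v)) by
      simp [part, sum_apply],
    norm_sq_sum_orth _ (fun i => psi y g p (Q.c i)) (fun i _ => G.psi_proj hA Q i)
      (fun i _ j _ => G.psi_orth hA Q) (fun i => y ((g * Q.c i) v)), mul_pow]
  calc ∑ i, ‖psi y g p (Q.c i) (y ((g * Q.c i) v))‖ ^ 2
      ≤ ∑ i, ‖y‖ ^ 2 * ‖(g * Q.c i) v‖ ^ 2 := Finset.sum_le_sum fun i _ => by
        rw [← mul_pow]
        exact pow_le_pow_left₀ (norm_nonneg _)
          ((proj_apply_norm_le (G.psi_proj hA Q i) _).trans (y.le_opNorm _)) 2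
    _ ≤ _ := by
        rw [← Finset.mul_sum]
        refine mul_le_mul_of_nonneg_left (sum_norm_sq_le _ (fun i => g * Q.c i)
          (fun i _ => piece_proj hA G.g_mem G.g_proj Q i) (fun i _ j _ hij => ?_) v) (by positivity)
        calc g * Q.c i * (g * Q.c j) = g * g * (Q.c i * Q.c j) := by
              simp only [mul_assoc]
              rw [← mul_assoc (Q.c i) g, hA.comm _ (Q.mem i) g G.g_mem, mul_assoc]
          _ = 0 := by rw [Q.orth i j hij, mul_zero]

include G hA in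
theorem major_mono {Q R : FPart A} {i : Q.ι} {j : R.ι} (hij : Q.c i * R.c j = R.c j) :
    major y g p (R.c j) ⊆ major y g p (Q.c i) := fun ω hω => ⟨hω.1, by
  have h1A : 1 - R.c j ∈ A := sub_mem (one_mem A) (R.mem j)
  have hr : IsStarProjection (g * (Q.c i * (1 - R.c j))) :=
    G.g_proj.mul ((Q.proj _).mul (R.proj j).one_sub (hA.comm _ (Q.mem _) _ h1A))
      (hA.comm _ G.g_mem _ (mul_mem (Q.mem _) h1A))
  have hrA : g * (Q.c i * (1 - R.c j)) ∈ A := mul_mem G.g_mem (mul_mem (Q.mem _) h1A)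
  have h3 := ef_nonneg hA G.y_mem hrA hr ω
  have hsplit : g * Q.c i = g * R.c j + g * (Q.c i * (1 - R.c j)) := by
    rw [mul_sub, mul_one, hij, mul_sub]
    abel
  have e2 : ef y (g * Q.c i) ω = ef y (g * R.c j) ω + ef y (g * (Q.c i * (1 - R.c j))) ω := by
    rw [hsplit]
    show (ph ω (y * (g * R.c j + _) * star y)).re = _
    rw [mul_add, add_mul, ph_add ω hA (mul_mem (mul_mem G.y_mem
      (hA.le _ (mul_mem G.g_mem (R.mem j)))) (star_mem G.y_mem))
      (mul_mem (mul_mem G.y_mem (hA.le _ hrA)) (star_mem G.y_mem)), Complex.add_re]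
    rfl
  linarith [hω.2]⟩

include G hA in
theorem psi_mul {Q R : FPart A} {par : R.ι → Q.ι} (hpar : ∀ j, Q.c (par j) * R.c j = R.c j)
    (i : Q.ι) (j : R.ι) [Decidable (i = par j)] :
    psi y g p (Q.c i) * psi y g p (R.c j) = if i = par j then psi y g p (R.c j) else 0 := by
  rw [psi, psi, clP_mul (G.major_piece hA Q i) (G.major_piece hA R j)]
  have hsub := G.major_mono hA (hpar j)
  split_ifs with hij
  · rw [hij, Set.inter_eq_right.2 hsub]
  · rw [← clP_empty (A := A)]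
    congr 1
    exact Set.eq_empty_iff_forall_notMem.2 fun ω hω =>
      major_disjoint hA G.y_mem G.g_mem G.g_proj Q hij hω.1 (hsub hω.2)

include G hA in
/-- The pieces of a coarser partition act on the left through `psi`. -/
theorem part_intertwine {Q R : FPart A} (hQR : Q ≤ R) (i : Q.ι) :
    part y g p R * Q.c i = psi y g p (Q.c i) * part y g p R := by
  classical
  obtain ⟨par, hpar, h0, -⟩ := exists_parent hQR
  rw [part, Finset.sum_mul, Finset.mul_sum]
  refine Finset.sum_congr rfl fun j _ => ?_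
  rw [← mul_assoc (psi y g p (Q.c i)), ← mul_assoc (psi y g p (Q.c i)), G.psi_mul hA hpar i j,
    mul_assoc (psi y g p (R.c j) * y) (g * R.c j), mul_assoc g, hA.comm _ (R.mem j) _ (Q.mem i)]
  split_ifs with hij
  · rw [hij, hpar]
  · rw [h0 i j hij, mul_zero, mul_zero, zero_mul, zero_mul]

include G hA in
theorem part_g (Q : FPart A) : part y g p Q * g = part y g p Q := by
  rw [part, Finset.sum_mul]
  refine Finset.sum_congr rfl fun i _ => ?_
  rw [mul_assoc _ (g * Q.c i) g, mul_assoc g, hA.comm _ (Q.mem i) g G.g_mem, ← mul_assoc g g,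
    G.g_proj.isIdempotentElem.eq]

include G hA in
theorem part_pair (h : IsTrace M η) (Q : FPart A) {w : H →L[ℂ] H} (hw : w ∈ M) (hwg : w * g = w)
    (hwQ : ∀ i, w * Q.c i = psi y g p (Q.c i) * w) :
    ⟪h.V (part y g p Q), h.V w⟫_ℂ = ⟪h.V y, h.V w⟫_ℂ := by
  have hterm : ∀ i, tau h (star (psi y g p (Q.c i) * y * (g * Q.c i)) * w)
      = tau h (g * Q.c i * (star y * w)) := fun i => by
    have hgc : g * Q.c i ∈ M := mul_mem (hA.le g G.g_mem) (hA.le _ (Q.mem i))
    have e : star (psi y g p (Q.c i) * y * (g * Q.c i)) * w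
        = g * Q.c i * (star y * w) * Q.c i := by
      rw [star_mul _ (g * Q.c i), (piece_proj hA G.g_mem G.g_proj Q i).isSelfAdjoint.star_eq,
        star_mul, (G.psi_proj hA Q i).isSelfAdjoint.star_eq]
      simp only [mul_assoc]
      rw [← hwQ i]
    rw [e, tau_comm h (mul_mem hgc (mul_mem (star_mem G.y_mem) hw)) (hA.le _ (Q.mem i)),
      ← mul_assoc (Q.c i), ← mul_assoc (Q.c i) g, hA.comm _ (Q.mem i) g G.g_mem, mul_assoc g,
      (Q.proj i).isIdempotentElem.eq]
  have hsum : tau h (star (part y g p Q) * w) = tau h (g * (star y * w)) := by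
    rw [part, star_sum, Finset.sum_mul, tau, map_sum, inner_sum]
    refine (Finset.sum_congr rfl fun i _ => hterm i).trans ?_
    show ∑ i, tau h (g * Q.c i * (star y * w)) = _
    simp only [tau, ← inner_sum, ← map_sum, ← Finset.sum_mul, ← Finset.mul_sum, Q.sum_eq, mul_one]
  rw [← tau_star_mul, ← tau_star_mul, hsum,
    tau_comm h (hA.le g G.g_mem) (mul_mem (star_mem G.y_mem) hw), mul_assoc, hwg]

include G hA in
theorem inner_part (h : IsTrace M η) {Q R : FPart A} (hQR : Q ≤ R) :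
    ⟪h.V (part y g p Q), h.V (part y g p R)⟫_ℂ = ⟪h.V y, h.V (part y g p R)⟫_ℂ :=
  G.part_pair hA h Q (G.part_mem hA R) (G.part_g hA R) (G.part_intertwine hA hQR)

include G hA in
theorem inner_y_part (h : IsTrace M η) (Q : FPart A) : ⟪h.V y, h.V (part y g p Q)⟫_ℂ
    = tau h (∑ i, psi y g p (Q.c i) * expect A (y * (g * Q.c i) * star y)) := by
  rw [← tau_star_mul, part, Finset.mul_sum]
  simp only [tau, map_sum, inner_sum]
  refine Finset.sum_congr rfl fun i _ => ?_
  show tau h _ = tau h _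
  have hgc : g * Q.c i ∈ M := mul_mem (hA.le g G.g_mem) (hA.le _ (Q.mem i))
  have hψ : psi y g p (Q.c i) ∈ A := clP_mem (A := A) _
  rw [tau_mul_expect hA h hψ (mul_mem (mul_mem G.y_mem hgc) (star_mem G.y_mem)),
    tau_comm h (star_mem G.y_mem) (mul_mem (mul_mem (hA.le _ hψ) G.y_mem) hgc)]
  simp only [mul_assoc]

include G hA in
theorem exists_mass (Q : FPart A) : ∃ f : C(Spec A, ℝ),
    ofReal' f = ∑ i, psi y g p (Q.c i) * expect A (y * (g * Q.c i) * star y) ∧
      (∀ ω, 0 ≤ f ω) ∧ ∀ ω ∈ p, ef y g ω / 2 ≤ f ω := by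
  classical
  have hE : ∀ i, expect A (y * (g * Q.c i) * star y) ∈ A := fun i => expect_mem hA
    (mul_mem (mul_mem G.y_mem (mul_mem (hA.le g G.g_mem) (hA.le _ (Q.mem i)))) (star_mem G.y_mem))
  obtain ⟨e, he⟩ : ∃ e : Q.ι → C(Spec A, ℝ), ∀ i ω, e i ω = (chi ω (psi y g p (Q.c i))).re :=
    ⟨fun i => ⟨_, Complex.continuous_re.comp (continuous_chi _)⟩, fun _ _ => rfl⟩
  have hnn : ∀ ω i, 0 ≤ e i ω * ef y (g * Q.c i) ω := fun ω i =>
    mul_nonneg (by rw [he, psi, chi_clP (G.major_piece hA Q i)]; split_ifs <;> simp)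
      (ef_nonneg hA G.y_mem (mul_mem G.g_mem (Q.mem i)) (piece_proj hA G.g_mem G.g_proj Q i) ω)
  refine ⟨∑ i, e i * ef y (g * Q.c i), eq_of_chi_eq (ofReal'_mem _)
    (sum_mem fun i _ => mul_mem (clP_mem (A := A) _) (hE i)) fun ω => ?_, fun ω => ?_, fun ω hω => ?_⟩
  · rw [chi_ofReal', chi_sum ω _ (fun i => psi y g p (Q.c i) * _)
      fun i => mul_mem (clP_mem (A := A) _) (hE i), ContinuousMap.sum_apply, Complex.ofReal_sum]
    refine Finset.sum_congr rfl fun i _ => ?_
    rw [chi_mul ω (show psi y g p (Q.c i) ∈ A from clP_mem (A := A) _) (hE i), ContinuousMap.mul_apply,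
      Complex.ofReal_mul, ← ofReal'_ef hA G.y_mem (mul_mem G.g_mem (Q.mem i))
        (piece_proj hA G.g_mem G.g_proj Q i), chi_ofReal', he, psi,
      chi_clP (G.major_piece hA Q i)]
    split_ifs <;> simp
  · rw [ContinuousMap.sum_apply]
    exact Finset.sum_nonneg fun i _ => hnn ω i
  · rw [ContinuousMap.sum_apply]
    obtain ⟨i, hi⟩ := major_cover G.keep G.pos hA G.y_mem G.g_mem G.g_proj Q hω
    refine le_trans ?_ (Finset.single_le_sum (fun j _ => hnn ω j) (Finset.mem_univ i))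
    rw [he, psi, chi_clP (G.major_piece hA Q i), if_pos hi,
      Complex.one_re, one_mul]
    linarith [hi.2]

include G hA in
theorem part_lower (h : IsTrace M η) (hne : p.Nonempty) :
    ∃ b : ℝ, 0 < b ∧ ∀ Q, b ≤ ‖h.V (part y g p Q)‖ ^ 2 := by
  classical
  obtain ⟨β, hβ⟩ : ∃ β : C(Spec A, ℝ), ∀ ω, β ω = if ω ∈ p then ef y g ω / 2 else 0 := by
    refine ⟨⟨fun ω => if ω ∈ p then ef y g ω / 2 else 0, ?_⟩, fun ω => rfl⟩
    refine continuous_iff_continuousAt.2 fun ω => ?_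
    by_cases hω : ω ∈ p
    · refine ((ef y g).continuous.div_const 2).continuousAt.congr ?_
      filter_upwards [G.clopen.isOpen.mem_nhds hω] with ν hν
      exact (if_pos hν).symm
    · refine continuousAt_const.congr (f := fun _ => (0 : ℝ)) ?_
      filter_upwards [G.clopen.isClosed.isOpen_compl.mem_nhds hω] with ν hν
      exact (if_neg hν).symm
  have hβ0 : ∀ ω, 0 ≤ β ω := fun ω => by
    rw [hβ]; split_ifs
    · exact div_nonneg (ef_nonneg hA G.y_mem G.g_mem G.g_proj ω) two_pos.le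
    · exact le_rfl
  refine ⟨muFun h β, (muFun_nonneg h _ hβ0).lt_of_ne fun e => ?_, fun Q => ?_⟩
  · obtain ⟨ω, hω⟩ := hne
    have h1 := congrArg (fun f : C(Spec A, ℝ) => f ω) (muFun_eq_zero hA h hβ0 e.symm)
    simp only [hβ, if_pos hω, ContinuousMap.zero_apply] at h1
    linarith [G.pos ω hω]
  · obtain ⟨f, hf, hf0, hfp⟩ := G.exists_mass hA Q
    refine (muFun_mono h (g := f) fun ω => ?_).trans_eq ?_
    · rw [hβ]; split_ifs with hω
      · exact hfp ω hω
      · exact hf0 ω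
    · show (tau h (ofReal' f)).re = _
      rw [hf, ← G.inner_y_part hA h Q, ← G.inner_part hA h (le_refl Q), inner_self_eq_norm_sq_to_K]
      simp only [Complex.coe_algebraMap, ← Complex.ofReal_pow, Complex.ofReal_re]

end KeptPiece

/-- An element with non-vanishing fibre masses has an intertwining part. -/
theorem exists_intertwiner [TotallyDisconnectedSpace (Spec A)] (hA : IsMasa M A)
    (h : IsTrace M η) {y : H →L[ℂ] H} (hy : y ∈ M) {δ : ℝ} (hδ : 0 < δ)
    (hlow : ∀ Q : FPart A, δ ≤ gs h y Q) :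
    ∃ ξ ∈ M, ξ ≠ 0 ∧ ∃ ψ : (H →L[ℂ] H) → (H →L[ℂ] H),
      (∀ k ∈ A, IsStarProjection k → ψ k ∈ A ∧ IsStarProjection (ψ k) ∧ ξ * k = ψ k * ξ) ∧
      (∀ a ∈ A, ∀ b ∈ A, a * y = y * b → a * ξ = ξ * b) ∧
      ∀ w ∈ M, (∀ k ∈ A, IsStarProjection k → w * k = ψ k * w) →
        ⟪h.V y, h.V w⟫_ℂ = ⟪h.V ξ, h.V w⟫_ℂ := by
  obtain ⟨g, hg, hgp, p, hp, hne, hpos, hkeep⟩ := exists_good hA h hy hδ hlow
  have G : KeptPiece M A y g p := ⟨hy, hg, hgp, hp, hpos, hkeep⟩
  obtain ⟨b, hb, hlb⟩ := G.part_lower hA h hne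
  obtain ⟨ξ, hξ, hlim⟩ := net_limit hA h (part y g p) (G.part_mem hA) (G.part_norm hA)
    (fun Q => ‖h.V (part y g p Q)‖ ^ 2) (L := 0) (fun Q => sq_nonneg _) zero_le_one
    fun Q R hQR _ => by
      rw [one_mul, map_sub, norm_sub_sq (𝕜 := ℂ), inner_re_symm, G.inner_part hA h hQR,
        ← G.inner_part hA h (le_refl R), inner_self_eq_norm_sq]
      linarith
  have := fpart_neBot hA
  refine ⟨ξ, hξ, fun e => ?_, psi y g p, fun k hk hkp => ⟨clP_mem (A := A) _, ?_, ?_⟩,
    fun a ha c hc hac => ?_, fun w hw hwk => ?_⟩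
  · have h1 := ge_of_tendsto' ((hlim.norm).pow 2) hlb
    rw [e, map_zero, norm_zero] at h1
    norm_num at h1
    linarith
  · exact G.psi_proj hA (FPart.two k hk hkp) true
  · exact (intertwine_limit hA h (G.part_mem hA) hξ (hA.le _ (clP_mem (A := A) _)) (hA.le k hk) hlim
      ((eventually_ge_atTop (FPart.two k hk hkp)).mono fun R hR =>
        (G.part_intertwine hA hR true).symm)).symm
  · refine intertwine_limit hA h (G.part_mem hA) hξ (hA.le a ha) (hA.le c hc) hlim
      (Eventually.of_forall fun Q => ?_)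
    rw [part, Finset.mul_sum, Finset.sum_mul]
    refine Finset.sum_congr rfl fun i _ => ?_
    rw [← mul_assoc a, ← mul_assoc a, hA.comm a ha _ (show psi y g p (Q.c i) ∈ A from clP_mem (A := A) _),
      mul_assoc _ a y, hac, mul_assoc _ (g * Q.c i) c, hA.comm _ (mul_mem hg (Q.mem i)) c hc]
    simp only [mul_assoc]
  · refine (tendsto_nhds_unique (hlim.inner tendsto_const_nhds) ?_).symm
    have hw1 : w * g = w := by
      rw [hwk g hg hgp]
      conv_rhs => rw [← mul_one w, hwk 1 (one_mem A) (.one _)]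
      simp only [psi, major, mul_one, hgp.isIdempotentElem.eq]
    refine tendsto_const_nhds.congr fun Q => ?_
    exact (G.part_pair hA h Q hw hw1 fun i => hwk _ (Q.mem i) (Q.proj i)).symm

end Vale.Agent.P078.All
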