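import Vale.Agent.P078.All.OperatorEnv

/-!
Two-norm limits of bounded sequences, and the diagonal limit.
-/

namespace Vale.Agent.P078.All

open scoped InnerProductSpace ComplexOrder
open ContinuousLinearMap Cartan Filter Topology

variable {H : Type} [NormedAddCommGroup H] [InnerProductSpace ℂ H] [CompleteSpace H]
variable {M : VonNeumannAlgebra H} {A : StarSubalgebra ℂ (H →L[ℂ] H)} {κ : Type} {η : κ → H}

/-- A bounded two-norm Cauchy sequence of `M` converges strongly to an element of `M`. -/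
theorem vLimit (h : IsTrace M η) {z : ℕ → H →L[ℂ] H} (hz : ∀ n, z n ∈ M) {C : ℝ}
    (hC : ∀ n, ‖z n‖ ≤ C) (hc : CauchySeq fun n => h.V (z n)) :
    ∃ Z ∈ M, ‖Z‖ ≤ C ∧ Tendsto (fun n => h.V (z n)) atTop (𝓝 (h.V Z)) ∧
      ∀ v, Tendsto (fun n => z n v) atTop (𝓝 (Z v)) := by
  classical
  have hC0 : 0 ≤ C := (norm_nonneg _).trans (hC 0)
  have hpt : ∀ v : H, ∃ w, Tendsto (fun n => z n v) atTop (𝓝 w) := by
    intro v
    refine cauchySeq_tendsto_of_complete (Metric.cauchySeq_iff.2 fun δ hδ => ?_)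
    obtain ⟨γ, hγ, hsm⟩ := strong_small h {v} (δ := δ / (2 * C + 1)) (by positivity)
    obtain ⟨N, hN⟩ := Metric.cauchySeq_iff.1 hc (γ * (2 * C + 1)) (by positivity)
    refine ⟨N, fun m hm n hn => ?_⟩
    set d := (((2 * C + 1)⁻¹ : ℝ) : ℂ) • (z m - z n) with hd
    have hdM : d ∈ M := vn_smul_mem _ (sub_mem (hz m) (hz n))
    have hn1 : ‖d‖ ≤ 1 := by
      rw [hd, norm_smul, Complex.norm_real, Real.norm_eq_abs, abs_of_nonneg (by positivity),
        inv_mul_le_iff₀ (by positivity)]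
      linarith [norm_sub_le (z m) (z n), hC m, hC n]
    have hV : ‖h.V d‖ ≤ γ := by
      rw [hd, map_smul, map_sub, norm_smul, Complex.norm_real, Real.norm_eq_abs,
        abs_of_nonneg (by positivity), inv_mul_le_iff₀ (by positivity)]
      have := (hN m hm n hn).le
      rw [dist_eq_norm] at this
      linarith
    have := hsm d hdM hn1 hV v (Finset.mem_singleton_self v)
    rw [hd, smul_apply, norm_smul, Complex.norm_real, Real.norm_eq_abs,
      abs_of_nonneg (by positivity), inv_mul_lt_iff₀ (by positivity),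
      mul_div_cancel₀ δ (by positivity), sub_apply] at this
    rwa [dist_eq_norm]
  choose F hF using hpt
  have hlin : ∀ (c : ℂ) v w, F (c • v + w) = c • F v + F w := fun c v w =>
    tendsto_nhds_unique (hF _) (by simpa using ((hF v).const_smul c).add (hF w))
  have hbound : ∀ v, ‖F v‖ ≤ C * ‖v‖ := fun v =>
    le_of_tendsto (hF v).norm (Eventually.of_forall fun n =>
      (z n).le_of_opNorm_le (hC n) v)
  let Z : H →L[ℂ] H := LinearMap.mkContinuous
    { toFun := F
      map_add' := fun v w => by simpa using hlin 1 v w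
      map_smul' := fun c v => by
        have h0 : F 0 = 0 := norm_le_zero_iff.1 (by simpa using hbound 0)
        simpa [h0] using hlin c v 0 } C hbound
  have hZ : ∀ v, Tendsto (fun n => z n v) atTop (𝓝 (Z v)) := hF
  refine ⟨Z, ?_, LinearMap.mkContinuous_norm_le _ hC0 _, ?_, hZ⟩
  · rw [mem_vn_iff]
    intro c hc'
    ext v
    simp only [mul_apply']
    refine tendsto_nhds_unique (((c.continuous.tendsto _).comp (hZ v))) ((hZ (c v)).congr fun n => ?_)
    have := congrArg (fun T : H →L[ℂ] H => T v) ((mem_vn_iff.1 (hz n)) c hc')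
    simpa using this.symm
  · obtain ⟨L, hL⟩ := cauchySeq_tendsto_of_complete hc
    suffices L = h.V Z from this ▸ hL
    refine lp.ext (funext fun i => ?_)
    exact tendsto_nhds_unique (((lp.evalCLM ℂ (fun _ : κ => H) 2 i).continuous.tendsto _).comp hL)
      (hZ (η i))

theorem inner_D (hA : IsMasa M A) (h : IsTrace M η) (P : FPart A) {x y : H →L[ℂ] H} (hx : x ∈ M)
    (hy : y ∈ M) : ⟪h.V (P.D x), h.V y⟫_ℂ = ⟪h.V x, h.V (P.D y)⟫_ℂ := by
  rw [← tau_star_mul, ← tau_star_mul]
  simp only [FPart.D, star_sum, Finset.sum_mul, Finset.mul_sum]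
  rw [tau, tau, map_sum, map_sum, inner_sum, inner_sum]
  refine Finset.sum_congr rfl fun i _ => ?_
  show tau h _ = tau h _
  have hc := hA.le _ (P.mem i)
  simp only [star_mul, (P.proj i).isSelfAdjoint.star_eq, mul_assoc]
  rw [tau_comm h hc (mul_mem (star_mem hx) (mul_mem hc hy))]
  simp only [mul_assoc]

theorem D_comp (hA : IsMasa M A) {P Q : FPart A} (hle : Q ≤ P) (x : H →L[ℂ] H) :
    P.D (Q.D x) = P.D x := by
  classical
  simp only [FPart.D, Finset.mul_sum, Finset.sum_mul]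
  refine Finset.sum_congr rfl fun j _ => ?_
  obtain ⟨i, hi⟩ := hle j
  have hz : ∀ k, k ≠ i → Q.c k * P.c j = 0 := fun k hk => by
    rw [← hi, ← mul_assoc, Q.orth k i hk, zero_mul]
  have hcm : ∀ k, P.c j * Q.c k = Q.c k * P.c j := fun k => hA.comm _ (P.mem j) _ (Q.mem k)
  rw [Finset.sum_eq_single i]
  · calc P.c j * (Q.c i * x * Q.c i) * P.c j = P.c j * Q.c i * x * (Q.c i * P.c j) := by
          simp only [mul_assoc]
      _ = _ := by rw [hcm, hi]
  · intro k _ hk
    calc P.c j * (Q.c k * x * Q.c k) * P.c j = P.c j * Q.c k * x * (Q.c k * P.c j) := by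
          simp only [mul_assoc]
      _ = 0 := by rw [hcm, hz k hk, zero_mul, zero_mul]
  · simp

theorem norm_sq_D (hA : IsMasa M A) (h : IsTrace M η) (P : FPart A) {x : H →L[ℂ] H} (hx : x ∈ M) :
    ‖h.V (P.D x)‖ ^ 2 = RCLike.re ⟪h.V x, h.V (P.D x)⟫_ℂ := by
  rw [← inner_self_eq_norm_sq (𝕜 := ℂ), inner_D hA h P hx (P.D_mem hA hx), D_comp hA le_rfl]

theorem norm_D_le (hA : IsMasa M A) (h : IsTrace M η) (P : FPart A) {x : H →L[ℂ] H} (hx : x ∈ M) :
    ‖h.V (P.D x)‖ ≤ ‖h.V x‖ := by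
  have h1 := re_inner_le_norm (𝕜 := ℂ) (h.V x) (h.V (P.D x))
  rw [← norm_sq_D hA h P hx] at h1
  rcases (norm_nonneg (h.V (P.D x))).eq_or_lt with hz | hz
  · rw [← hz]; exact norm_nonneg _
  · nlinarith

theorem norm_D_anti (hA : IsMasa M A) (h : IsTrace M η) {P Q : FPart A} (hle : Q ≤ P)
    {x : H →L[ℂ] H} (hx : x ∈ M) : ‖h.V (P.D x)‖ ≤ ‖h.V (Q.D x)‖ := by
  rw [← D_comp hA hle x]
  exact norm_D_le hA h P (Q.D_mem hA hx)

/-- The pinchings converge weakly for the trace pairing. -/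
theorem tendsto_inner_D (h : IsTrace M η) (x y : H →L[ℂ] H) :
    Tendsto (fun P : FPart A => ⟪h.V y, h.V (P.D x)⟫_ℂ) (pUltra A)
      (𝓝 ⟪h.V y, h.V (expect A x)⟫_ℂ) := by
  simp only [inner_V]
  refine tendsto_tsum_of_dominated_convergence (bound := fun i => ‖y‖ * ‖x‖ * ‖η i‖ ^ 2)
    (h.summable.mul_left _) (fun i => tendsto_expect x (y (η i)) (η i))
    (Eventually.of_forall fun P i => ?_)
  refine (norm_inner_le_norm _ _).trans ?_
  refine (mul_le_mul (y.le_opNorm _) (P.norm_D_apply x _) (norm_nonneg _)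
    (by positivity)).trans (le_of_eq ?_)
  ring

theorem inner_expect (hA : IsMasa M A) (h : IsTrace M η) {x : H →L[ℂ] H} (hx : x ∈ M) :
    ⟪h.V x, h.V (expect A x)⟫_ℂ = (‖h.V (expect A x)‖ : ℂ) ^ 2 := by
  have hE := expect_mem hA hx
  rw [← tau_star_mul, ← tau_expect hA h (mul_mem (star_mem hx) (hA.le _ hE)),
    expect_mul_right hA hE, expect_star, tau_star_mul, inner_self_eq_norm_sq_to_K]
  rfl

/-- Fine pinchings are two-norm close to the expectation. -/
theorem exists_D_near (hA : IsMasa M A) (h : IsTrace M η) {x : H →L[ℂ] H} (hx : x ∈ M) {ε : ℝ}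
    (hε : 0 < ε) :
    ∃ Q : FPart A, ∀ P, Q ≤ P → ‖h.V (P.D x - expect A x)‖ ^ 2 ≤ ε := by
  have hlim := (RCLike.continuous_re.tendsto _).comp (tendsto_inner_D (A := A) h x x)
  rw [inner_expect hA h hx] at hlim
  simp only [Function.comp_def, ← norm_sq_D hA h _ hx, ← Complex.ofReal_pow, RCLike.re_to_complex,
    Complex.ofReal_re] at hlim
  obtain ⟨Q, hQ⟩ := (hlim.eventually (eventually_le_nhds (b := ‖h.V (expect A x)‖ ^ 2 + ε)
    (by linarith))).exists
  refine ⟨Q, fun P hP => ?_⟩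
  have hE := hA.le _ (expect_mem hA hx)
  have hi : RCLike.re ⟪h.V (P.D x), h.V (expect A x)⟫_ℂ = ‖h.V (expect A x)‖ ^ 2 := by
    rw [inner_D hA h P hx hE, show P.D (expect A x) = expect A x by
      rw [show expect A x = expect A x * 1 by rw [mul_one], FPart.D_mul_left hA P (expect_mem hA hx),
        FPart.D_one, mul_one], inner_expect hA h hx, ← Complex.ofReal_pow, RCLike.re_to_complex,
      Complex.ofReal_re]
  rw [map_sub, norm_sub_sq (𝕜 := ℂ), hi]
  nlinarith [norm_D_anti hA h hP hx, norm_nonneg (h.V (P.D x))]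

variable [AbelianClosed A]

/-- The projection of a piece. -/
noncomputable def pieceP (P : Part (Spec A)) (c : Fin P.n) : H →L[ℂ] H := ofFun (P.ind c)

theorem pieceP_mem (P : Part (Spec A)) (c : Fin P.n) : pieceP P c ∈ A := ofFun_mem _

theorem chi_pieceP (P : Part (Spec A)) (c : Fin P.n) (ω : Spec A) :
    chi ω (pieceP P c) = if P.cell ω = c then 1 else 0 := chi_ofFun ω _

/-- The partition of projections of a clopen partition. -/
noncomputable def partFP (P : Part (Spec A)) : FPart A where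
  ι := Fin P.n
  fin := inferInstance
  c := pieceP P
  mem c := pieceP_mem _ _
  proj c := ⟨eq_of_chi_eq (mul_mem (pieceP_mem _ _) (pieceP_mem _ _)) (pieceP_mem _ _) fun ω => by
      rw [chi_mul ω (pieceP_mem _ _) (pieceP_mem _ _), chi_pieceP]; split_ifs <;> simp,
    eq_of_chi_eq (star_mem (pieceP_mem _ _)) (pieceP_mem _ _) fun ω => by
      rw [chi_star ω (pieceP_mem _ _), chi_pieceP]; split_ifs <;> simp⟩
  orth i j hij := eq_of_chi_eq (mul_mem (pieceP_mem _ _) (pieceP_mem _ _)) (zero_mem A) fun ω => by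
    rw [chi_mul ω (pieceP_mem _ _) (pieceP_mem _ _), chi_pieceP, chi_pieceP, chi_zero]
    split_ifs with h1 h2 <;> simp_all
  sum_eq := eq_of_chi_eq (sum_mem fun _ _ => pieceP_mem _ _) (one_mem A) fun ω => by
    rw [chi_sum ω _ _ fun _ => pieceP_mem _ _, chi_one]
    simp [chi_pieceP]

theorem exists_part_above (h : IsTrace M η) (Q : FPart A) :
    ∃ P₀ : Part (Spec A), ∀ P : Part (Spec A), P.Refines P₀ → Q ≤ partFP P := by
  classical
  have hex : ∀ ω : Spec A, ∃ i, chi ω (Q.c i) = 1 := fun ω => by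
    by_contra hcon
    push Not at hcon
    have := congrArg (chi ω) Q.sum_eq
    rw [chi_sum ω _ _ Q.mem, chi_one,
      Finset.sum_eq_zero fun i _ => (chi_proj ω (Q.mem i) (Q.proj i)).resolve_right (hcon i)] at this
    exact zero_ne_one this
  choose f hf using hex
  have huniq : ∀ ω i, chi ω (Q.c i) = 1 → i = f ω := fun ω i hi => by
    by_contra hne
    have := congrArg (chi ω) (Q.orth _ _ hne)
    rw [chi_mul ω (Q.mem _) (Q.mem _), hi, hf, chi_zero, mul_one] at this
    exact one_ne_zero this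
  have hlc : IsLocallyConstant f := (IsLocallyConstant.iff_eventually_eq f).2 fun ω => by
    have hev := (continuous_chi (A := A) (Q.c (f ω))).continuousAt.eventually_ne
      (show chi ω (Q.c (f ω)) ≠ 0 by rw [hf]; exact one_ne_zero)
    filter_upwards [hev] with v hv
    exact (huniq v _ ((chi_proj v (Q.mem _) (Q.proj _)).resolve_left hv)).symm
  refine ⟨⟨Fintype.card Q.ι, ⟨fun ω => Fintype.equivFin Q.ι (f ω), hlc.comp _⟩⟩, fun P hP (c : Fin P.n) => ?_⟩
  show ∃ i, Q.c i * pieceP P c = pieceP P c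
  by_cases hne : ∃ ω₀, P.cell ω₀ = c
  · obtain ⟨ω₀, h₀⟩ := hne
    refine ⟨f ω₀, eq_of_chi_eq (mul_mem (Q.mem _) (pieceP_mem _ _)) (pieceP_mem _ _) fun ω => ?_⟩
    rw [chi_mul ω (Q.mem _) (pieceP_mem _ _), chi_pieceP]
    split_ifs with hω
    · have : f ω = f ω₀ := (Fintype.equivFin Q.ι).injective (hP ω ω₀ (hω.trans h₀.symm))
      rw [← this, hf, mul_one]
    · rw [mul_zero]
  · have hz : pieceP P c = 0 := eq_of_chi_eq (pieceP_mem _ _) (zero_mem A) fun ω => by
      rw [chi_pieceP, if_neg fun e => hne ⟨ω, e⟩, chi_zero]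
    by_cases hQ : Nonempty Q.ι
    · exact ⟨Classical.arbitrary _, by rw [hz, mul_zero]⟩
    · exfalso
      rw [not_nonempty_iff] at hQ
      have h1 := Q.sum_eq
      simp only [Finset.univ_eq_empty, Finset.sum_empty] at h1
      have h2 : (1 : H →L[ℂ] H) = 0 := h1.symm
      simpa [h2] using norm_V_one h

variable [TotallyDisconnectedSpace (Spec A)]

theorem coe_pinch (hA : IsMasa M A) (h : IsTrace M η) (P : Part (Spec A))
    (x : M.toStarSubalgebra) :
    ((opEnv hA h).pinch P x : H →L[ℂ] H) = (partFP P).D (x : H →L[ℂ] H) := by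
  simp only [Env.pinch, AddSubmonoidClass.coe_finsetSum, FPart.D]
  rfl

/-- The diagonal limit. -/
theorem env_diagonalLimit (hA : IsMasa M A) (h : IsTrace M η) :
    (opEnv hA h).DiagonalLimit := by
  intro x ε hε
  obtain ⟨Q, hQ⟩ := exists_D_near hA h x.2 hε
  obtain ⟨P₀, hP₀⟩ := exists_part_above h Q
  refine ⟨P₀, fun P hP => ?_⟩
  show (opEnv hA h).sq _ ≤ ε
  rw [opEnv_sq, AddSubgroupClass.coe_sub, coe_pinch, opEnv_ι, ofFun_E]
  exact hQ _ (hP₀ P hP)

end Vale.Agent.P078.All
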