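import Vale.Agent.P078.All.OperatorLimit

/-!
Monotone nets of partitions: two-norm limits, and the squared fibre masses of an element.
-/

namespace Vale.Agent.P078.All

open scoped InnerProductSpace ComplexOrder
open ContinuousLinearMap Cartan Filter Topology

variable {H : Type} [NormedAddCommGroup H] [InnerProductSpace ℂ H] [CompleteSpace H]
variable {M : VonNeumannAlgebra H} {A : StarSubalgebra ℂ (H →L[ℂ] H)} {κ : Type} {η : κ → H}

theorem fpart_directed (hA : IsMasa M A) : IsDirectedOrder (FPart A) :=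
  ⟨fun P Q => ⟨P.join hA Q, P.le_join_left hA Q, P.le_join_right hA Q⟩⟩

theorem fpart_neBot (hA : IsMasa M A) : (atTop : Filter (FPart A)).NeBot := by
  have : Nonempty (FPart A) := ⟨FPart.triv⟩
  have := fpart_directed hA
  exact atTop_neBot

theorem eq_of_V (h : IsTrace M η) {z w : H →L[ℂ] H} (hz : z ∈ M) (hw : w ∈ M)
    (e : h.V z = h.V w) : z = w :=
  sub_eq_zero.1 <| h.faithful _ (sub_mem hz hw) fun i => by
    rw [← V_apply h, map_sub, e, sub_self]; rfl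

/-- A net with controlled two-norm increments converges in two-norm. -/
theorem net_limit (hA : IsMasa M A) (h : IsTrace M η) (Φ : FPart A → H →L[ℂ] H)
    (hΦ : ∀ Q, Φ Q ∈ M) {C : ℝ} (hC : ∀ Q, ‖Φ Q‖ ≤ C) (ν : FPart A → ℝ) {L : ℝ}
    (hν : ∀ Q, L ≤ ν Q) {K : ℝ} (hK0 : 0 ≤ K)
    (hK : ∀ Q R, Q ≤ R → L ≤ ν R → ‖h.V (Φ R - Φ Q)‖ ^ 2 ≤ K * (ν Q - ν R)) :
    ∃ Z ∈ M, Tendsto (fun Q => h.V (Φ Q)) atTop (𝓝 (h.V Z)) := by
  have : Nonempty (FPart A) := ⟨FPart.triv⟩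
  have hbdd : BddBelow (Set.range ν) := ⟨L, by rintro _ ⟨Q, rfl⟩; exact hν Q⟩
  have hsel : ∀ n : ℕ, ∃ Q, ν Q < (⨅ P, ν P) + 1 / ((n : ℝ) + 1) := fun n =>
    exists_lt_of_ciInf_lt (lt_add_of_pos_right _ (by positivity))
  choose q hq using hsel
  have hnear : ∀ n R, q n ≤ R → ‖h.V (Φ R) - h.V (Φ (q n))‖ ^ 2 ≤ K / ((n : ℝ) + 1) := by
    intro n R hR
    rw [← map_sub]
    refine (hK _ R hR (hν R)).trans ?_
    rw [div_eq_mul_one_div]
    exact mul_le_mul_of_nonneg_left (by linarith [ciInf_le hbdd R, hq n]) hK0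
  have hsmall : ∀ γ : ℝ, 0 < γ → ∃ N : ℕ, ∀ n ≥ N, ∀ R, q n ≤ R →
      dist (h.V (Φ R)) (h.V (Φ (q n))) < γ := by
    intro γ hγ
    obtain ⟨N, hN⟩ := exists_nat_gt (K / γ ^ 2)
    refine ⟨N, fun n hn R hR => ?_⟩
    rw [dist_eq_norm]
    refine lt_of_pow_lt_pow_left₀ 2 hγ.le (lt_of_le_of_lt (hnear n R hR) ?_)
    rw [div_lt_iff₀ (by positivity)] at hN ⊢
    nlinarith [(Nat.cast_le (α := ℝ)).2 hn]
  have hcauchy : CauchySeq fun n => h.V (Φ (q n)) := by
    refine Metric.cauchySeq_iff.2 fun γ hγ => ?_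
    obtain ⟨N, hN⟩ := hsmall (γ / 2) (half_pos hγ)
    refine ⟨N, fun m hm n hn => ?_⟩
    have h1 := hN m hm _ ((q m).le_join_left hA (q n))
    have h2 := hN n hn _ ((q m).le_join_right hA (q n))
    rw [dist_comm] at h1
    linarith [dist_triangle (h.V (Φ (q m))) (h.V (Φ ((q m).join hA (q n)))) (h.V (Φ (q n)))]
  obtain ⟨Z, hZ, -, hlim, -⟩ := vLimit h (fun n => hΦ (q n)) (fun n => hC (q n)) hcauchy
  refine ⟨Z, hZ, Metric.tendsto_nhds.2 fun γ hγ => ?_⟩
  obtain ⟨N, hN⟩ := hsmall (γ / 2) (half_pos hγ)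
  obtain ⟨N', hN'⟩ := Metric.tendsto_atTop.1 hlim (γ / 2) (half_pos hγ)
  filter_upwards [eventually_ge_atTop (q (max N N'))] with R hR
  linarith [hN (max N N') (le_max_left _ _) R hR, hN' (max N N') (le_max_right _ _),
    dist_triangle (h.V (Φ R)) (h.V (Φ (q (max N N')))) (h.V Z)]

theorem tendsto_V_mul_left (h : IsTrace M η) {α : Type*} {l : Filter α} {Φ : α → H →L[ℂ] H}
    {Z : H →L[ℂ] H} (hl : Tendsto (fun Q => h.V (Φ Q)) l (𝓝 (h.V Z))) (a : H →L[ℂ] H) :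
    Tendsto (fun Q => h.V (a * Φ Q)) l (𝓝 (h.V (a * Z))) := by
  simp only [← diagMul_V h]
  exact ((diagMul a).continuous.tendsto _).comp hl

theorem tendsto_V_mul_right (h : IsTrace M η) {α : Type*} {l : Filter α} {Φ : α → H →L[ℂ] H}
    {Z a : H →L[ℂ] H} (hΦ : ∀ Q, Φ Q ∈ M) (hZ : Z ∈ M) (ha : a ∈ M)
    (hl : Tendsto (fun Q => h.V (Φ Q)) l (𝓝 (h.V Z))) :
    Tendsto (fun Q => h.V (Φ Q * a)) l (𝓝 (h.V (Z * a))) := by
  rw [tendsto_iff_norm_sub_tendsto_zero] at hl ⊢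
  refine squeeze_zero (fun _ => norm_nonneg _) (fun Q => ?_) (by simpa using hl.const_mul ‖a‖)
  rw [← map_sub, ← sub_mul, ← map_sub]
  exact norm_V_mul_right_le h ha (sub_mem (hΦ Q) hZ)

/-- Relations between a net and two elements pass to its two-norm limit. -/
theorem intertwine_limit (hA : IsMasa M A) (h : IsTrace M η) {Φ : FPart A → H →L[ℂ] H}
    {Z a b : H →L[ℂ] H} (hΦ : ∀ Q, Φ Q ∈ M) (hZ : Z ∈ M) (ha : a ∈ M) (hb : b ∈ M)
    (hl : Tendsto (fun Q => h.V (Φ Q)) atTop (𝓝 (h.V Z)))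
    (he : ∀ᶠ Q in atTop, a * Φ Q = Φ Q * b) : a * Z = Z * b := by
  have := fpart_neBot hA
  refine eq_of_V h (mul_mem ha hZ) (mul_mem hZ hb)
    (tendsto_nhds_unique (tendsto_V_mul_left h hl a) ?_)
  exact (tendsto_V_mul_right h hΦ hZ hb hl).congr' (he.mono fun Q hQ => (congrArg h.V hQ).symm)

variable [AbelianClosed A]

theorem norm_ofFun (f : C(Spec A, ℂ)) : ‖ofFun f‖ = ‖f‖ := by
  have := (gelfandTransform_isometry A).norm_map_of_map_zero (map_zero _)
    ((gelfandStarTransform A).symm f)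
  rw [show WeakDual.gelfandTransform ℂ A ((gelfandStarTransform A).symm f) = f from
    (gelfandStarTransform A).apply_symm_apply f] at this
  exact this.symm

theorem norm_ofReal'_le (f : C(Spec A, ℝ)) {C : ℝ} (hC0 : 0 ≤ C) (hC : ∀ ω, |f ω| ≤ C) :
    ‖ofReal' f‖ ≤ C := by
  rw [ofReal', norm_ofFun]
  exact (ContinuousMap.norm_le _ hC0).2 fun ω => by simpa using hC ω

theorem ofReal'_mul (f g : C(Spec A, ℝ)) : ofReal' (f * g) = ofReal' f * ofReal' g :=
  eq_of_chi_eq (ofReal'_mem _) (mul_mem (ofReal'_mem _) (ofReal'_mem _)) fun ω => by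
    rw [chi_mul ω (ofReal'_mem _) (ofReal'_mem _), chi_ofReal', chi_ofReal', chi_ofReal']
    simp

theorem ofReal'_sub (f g : C(Spec A, ℝ)) : ofReal' (f - g) = ofReal' f - ofReal' g :=
  eq_of_chi_eq (ofReal'_mem _) (sub_mem (ofReal'_mem _) (ofReal'_mem _)) fun ω => by
    rw [chi_sub ω (ofReal'_mem _) (ofReal'_mem _), chi_ofReal', chi_ofReal', chi_ofReal']
    simp

theorem norm_V_ofReal' (h : IsTrace M η) (f : C(Spec A, ℝ)) :
    ‖h.V (ofReal' f)‖ ^ 2 = muFun h (f * f) := by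
  show _ = (tau h (ofReal' (f * f))).re
  rw [ofReal'_mul]
  conv_rhs => arg 1; arg 2; arg 1; rw [← (ofReal'_isSelfAdjoint f).star_eq]
  rw [tau_star_mul]
  exact (inner_self_eq_norm_sq (𝕜 := ℂ) _).symm

theorem muFun_mono (h : IsTrace M η) {f g : C(Spec A, ℝ)} (hfg : ∀ ω, f ω ≤ g ω) :
    muFun h f ≤ muFun h g := by
  have := muFun_nonneg h (g - f) fun ω => by simpa using hfg ω
  rw [map_sub] at this
  linarith

theorem muFun_eq_zero (hA : IsMasa M A) (h : IsTrace M η) {f : C(Spec A, ℝ)}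
    (hf : ∀ ω, 0 ≤ f ω) (hμ : muFun h f = 0) : f = 0 := by
  obtain ⟨C, hC⟩ := (isCompact_range f.continuous).bddAbove
  have h1 : muFun h (f * f) ≤ muFun h (C • f) := muFun_mono h fun ω => by
    simpa using mul_le_mul_of_nonneg_right (hC ⟨ω, rfl⟩) (hf ω)
  rw [map_smul, hμ, smul_zero, ← norm_V_ofReal'] at h1
  have h2 : ofReal' f = 0 := eq_of_V h (hA.le _ (ofReal'_mem f)) (zero_mem M) (by
    rw [map_zero, ← norm_le_zero_iff]
    nlinarith [norm_nonneg (h.V (ofReal' f))])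
  ext ω
  have := congrArg (chi ω) h2
  rw [chi_ofReal', chi_zero] at this
  exact_mod_cast this

/-- The real part of `E(y p y*)`. -/
noncomputable def ef (y p : H →L[ℂ] H) : C(Spec A, ℝ) :=
  ⟨fun ω => (ph ω (y * p * star y)).re, Complex.continuous_re.comp (continuous_chi _)⟩

variable {y : H →L[ℂ] H}

theorem ph_conj_nonneg (hA : IsMasa M A) (hy : y ∈ M) {p : H →L[ℂ] H} (hp : p ∈ A)
    (hpp : IsStarProjection p) (ω : Spec A) : 0 ≤ ph ω (y * p * star y) := by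
  have e : y * p * star y = star (p * star y) * (p * star y) := by
    rw [star_mul, star_star, hpp.isSelfAdjoint.star_eq, mul_assoc y p (p * _), ← mul_assoc p p,
      hpp.isIdempotentElem.eq, mul_assoc]
  rw [e]
  exact ph_nonneg ω hA (mul_mem (hA.le p hp) (star_mem hy))

theorem ef_nonneg (hA : IsMasa M A) (hy : y ∈ M) {p : H →L[ℂ] H} (hp : p ∈ A)
    (hpp : IsStarProjection p) (ω : Spec A) : 0 ≤ ef y p ω :=
  (Complex.nonneg_iff.1 (ph_conj_nonneg hA hy hp hpp ω)).1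

theorem ofReal'_ef (hA : IsMasa M A) (hy : y ∈ M) {p : H →L[ℂ] H} (hp : p ∈ A)
    (hpp : IsStarProjection p) : ofReal' (ef (A := A) y p) = expect A (y * p * star y) :=
  eq_of_chi_eq (ofReal'_mem _)
    (expect_mem hA (mul_mem (mul_mem hy (hA.le p hp)) (star_mem hy))) fun ω => by
    rw [chi_ofReal']
    obtain ⟨hre, him⟩ := Complex.nonneg_iff.1 (ph_conj_nonneg hA hy hp hpp ω)
    show (((ph ω (y * p * star y)).re : ℝ) : ℂ) = ph ω (y * p * star y)
    exact Complex.ext rfl (by simpa using him)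

theorem ef_sum (hA : IsMasa M A) (hy : y ∈ M) {ι : Type*} (s : Finset ι) (f : ι → H →L[ℂ] H)
    (hf : ∀ i, f i ∈ A) (ω : Spec A) :
    ef y (∑ i ∈ s, f i) ω = ∑ i ∈ s, ef y (f i) ω := by
  show (ph ω (y * (∑ i ∈ s, f i) * star y)).re = _
  rw [Finset.mul_sum, Finset.sum_mul,
    ph_sum ω hA _ _ fun i => mul_mem (mul_mem hy (hA.le _ (hf i))) (star_mem hy), Complex.re_sum]
  rfl

omit [AbelianClosed A] in
/-- Each piece of a coarser partition is the sum of the pieces below it. -/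
theorem exists_parent {Q R : FPart A} (hQR : Q ≤ R) :
    ∃ par : R.ι → Q.ι, (∀ j, Q.c (par j) * R.c j = R.c j) ∧
      (∀ i j, i ≠ par j → Q.c i * R.c j = 0) ∧
      ∀ i, Q.c i = open Classical in ∑ j, if par j = i then R.c j else 0 := by
  classical
  choose par hpar using hQR
  have h0 : ∀ i j, i ≠ par j → Q.c i * R.c j = 0 := fun i j hne => by
    rw [← hpar j, ← mul_assoc, Q.orth _ _ hne, zero_mul]
  refine ⟨par, hpar, h0, fun i => ?_⟩
  calc Q.c i = Q.c i * ∑ j, R.c j := by rw [R.sum_eq, mul_one]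
    _ = _ := by
      rw [Finset.mul_sum]
      refine Finset.sum_congr rfl fun j _ => ?_
      split_ifs with hj
      · rw [← hj, hpar]
      · exact h0 i j (Ne.symm hj)

/-- The squared masses of the fibres under `g`. -/
noncomputable def sqMass (y g : H →L[ℂ] H) (Q : FPart A) : C(Spec A, ℝ) :=
  ∑ i, ef y (g * Q.c i) * ef y (g * Q.c i)

theorem sqMass_apply (y g : H →L[ℂ] H) (Q : FPart A) (ω : Spec A) :
    sqMass y g Q ω = ∑ i, ef y (g * Q.c i) ω ^ 2 := by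
  simp [sqMass, sq]

theorem ef_parts (hA : IsMasa M A) (hy : y ∈ M) {g : H →L[ℂ] H} (hg : g ∈ A) (Q : FPart A)
    (ω : Spec A) : ∑ i, ef y (g * Q.c i) ω = ef y g ω := by
  rw [← ef_sum hA hy _ _ fun i => mul_mem hg (Q.mem i), ← Finset.mul_sum, Q.sum_eq, mul_one]

omit [AbelianClosed A] in
theorem piece_proj (hA : IsMasa M A) {g : H →L[ℂ] H} (hg : g ∈ A) (hgp : IsStarProjection g)
    (Q : FPart A) (i : Q.ι) : IsStarProjection (g * Q.c i) :=
  hgp.mul (Q.proj i) (hA.comm _ hg _ (Q.mem i))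

theorem sqMass_anti (hA : IsMasa M A) (hy : y ∈ M) {g : H →L[ℂ] H} (hg : g ∈ A)
    (hgp : IsStarProjection g) {Q R : FPart A} (hQR : Q ≤ R) (ω : Spec A) :
    sqMass y g R ω ≤ sqMass y g Q ω := by
  classical
  obtain ⟨par, -, -, hsum⟩ := exists_parent hQR
  rw [sqMass_apply, sqMass_apply, ← Finset.sum_fiberwise Finset.univ par]
  refine Finset.sum_le_sum fun i _ => ?_
  refine (Finset.sum_sq_le_sq_sum_of_nonneg fun j _ =>
    ef_nonneg hA hy (mul_mem hg (R.mem j)) (piece_proj hA hg hgp R j) ω).trans (le_of_eq ?_)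
  rw [← ef_sum hA hy _ _ fun j => mul_mem hg (R.mem j), ← Finset.mul_sum, Finset.sum_filter,
    ← hsum i]

theorem sqMass_le (hA : IsMasa M A) (hy : y ∈ M) {g : H →L[ℂ] H} (hg : g ∈ A)
    (hgp : IsStarProjection g) (Q : FPart A) (ω : Spec A) :
    sqMass y g Q ω ≤ ef y g ω ^ 2 := by
  rw [sqMass_apply]
  refine (Finset.sum_sq_le_sq_sum_of_nonneg fun j _ =>
    ef_nonneg hA hy (mul_mem hg (Q.mem j)) (piece_proj hA hg hgp Q j) ω).trans (le_of_eq ?_)
  rw [ef_parts hA hy hg]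

theorem sqMass_nonneg (y g : H →L[ℂ] H) (Q : FPart A) (ω : Spec A) : 0 ≤ sqMass y g Q ω := by
  rw [sqMass_apply]
  exact Finset.sum_nonneg fun i _ => sq_nonneg _

/-- The total squared mass of the fibres. -/
noncomputable def gs (h : IsTrace M η) (y : H →L[ℂ] H) (Q : FPart A) : ℝ :=
  ∑ i, muFun (A := A) h (ef y (Q.c i) * ef y (Q.c i))

theorem gs_eq (h : IsTrace M η) (y : H →L[ℂ] H) (Q : FPart A) :
    gs h y Q = muFun h (sqMass y 1 Q) := by
  simp only [gs, sqMass, map_sum, one_mul]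

theorem gs_anti (hA : IsMasa M A) (h : IsTrace M η) (hy : y ∈ M) {Q R : FPart A} (hQR : Q ≤ R) :
    gs h y R ≤ gs h y Q := by
  rw [gs_eq, gs_eq]
  exact muFun_mono h (sqMass_anti hA hy (one_mem A) (.one _) hQR)

theorem gs_join (hA : IsMasa M A) (h : IsTrace M η) (y : H →L[ℂ] H) (P Q : FPart A) :
    gs h y (P.join hA Q) = ∑ i, muFun h (sqMass y (P.c i) Q) := by
  simp only [sqMass, map_sum]
  exact Fintype.sum_prod_type _

variable [TotallyDisconnectedSpace (Spec A)]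

theorem gauss_eq (hA : IsMasa M A) (h : IsTrace M η) (x : M.toStarSubalgebra)
    (P : Part (Spec A)) :
    (opEnv hA h).gauss P x = gs h (x : H →L[ℂ] H) (partFP P) := by
  refine Finset.sum_congr rfl fun c _ => ?_
  show (tau h (ofFun _)).re = (tau h (ofReal' _)).re
  congr 2
  rw [ofReal'_mul, ofReal'_ef hA x.2 ((partFP P).mem c) ((partFP P).proj c), sq, ofFun_mul,
    ofFun_E]
  rfl

end Vale.Agent.P078.All
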