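import Vale.Agent.P078.Cartan.OperatorQuad

/-!
The operator form of the core with random priority: one rule, fed with any colouring seeds read at
finitely many translates, bounds both sides of a finite sum over the normaliser.
-/

namespace Vale.Agent.P078.All

open scoped InnerProductSpace ComplexOrder
open ContinuousLinearMap Polynomial Vale.Agent.P078.Cartan

/-- The two-sided core with a rule that commutes with the permutations of the colours and serves
every value of the seeds. -/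
def RandomCore : Prop :=
  ∀ (Ω : Type) [TopologicalSpace Ω] [CompactSpace Ω] [T2Space Ω] [TotallyDisconnectedSpace Ω]
    (L r : ℕ) (t δ : ℝ) (O : OrbitModel Ω L (1 / 2)), 0 < r →
    (∀ w ω, O.ent w w ω = 1 / 2) → 1 / 2 + 2 / Real.sqrt r + 1 / r < t → 0 < δ →
    ∃ (M : ℕ) (w : Fin M → List (Fin L)) (F : Ω → (Fin M → Equiv.Perm (Fin r)) → Fin r),
      IsLocallyConstant F ∧ (∀ ω σ π, F ω (fun j => σ * π j) = σ (F ω π)) ∧
      ∀ π : Ω → Equiv.Perm (Fin r), IsLocallyConstant π →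
        (∃ f : ℝ[X], (∀ x ∈ Set.Icc (0 : ℝ) 1, -δ ≤ f.eval x) ∧
          (∀ x ∈ Set.Icc t 1, 1 ≤ f.eval x) ∧
          ∃ D : C(Ω, ℝ),
            (∀ ω, D ω = O.polyDiag (fun ω' => F ω' fun j => π (O.act (w j) ω')) f ω) ∧
            O.μ D ≤ δ) ∧
        (∃ f : ℝ[X], (∀ x ∈ Set.Icc (0 : ℝ) 1, -δ ≤ f.eval x) ∧
          (∀ x ∈ Set.Icc (0 : ℝ) (1 - t), 1 ≤ f.eval x) ∧
          ∃ D : C(Ω, ℝ),
            (∀ ω, D ω = O.polyDiag (fun ω' => F ω' fun j => π (O.act (w j) ω')) f ω) ∧
            O.μ D ≤ δ)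

/-- A rule with both spectral sides small for every value of the seeds. -/
def RandomSides : Prop :=
  ∀ (H : Type) [NormedAddCommGroup H] [InnerProductSpace ℂ H] [CompleteSpace H]
    (M : VonNeumannAlgebra H) (A : StarSubalgebra ℂ (H →L[ℂ] H)) [AbelianClosed A] (ι : Type)
    (η : ι → H), IsMasa M A → ∀ h : IsTrace M η,
    ∀ z ∈ spanN M A, IsSelfAdjoint z → ‖z‖ ≤ 1 → expect A z = 0 →
    ∀ r : ℕ, 0 < r → ∀ lam δ : ℝ, lvlTwo r < lam → 0 < δ →
      ∃ (n : ℕ) (u : Fin n → H →L[ℂ] H) (hu : ∀ j, IsNormaliser M A (u j))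
        (F : Spec A → (Fin n → Equiv.Perm (Fin r)) → Fin r),
        IsLocallyConstant F ∧ (∀ ω σ π, F ω (fun j => σ * π j) = σ (F ω π)) ∧
        ∀ π : Spec A → Equiv.Perm (Fin r), IsLocallyConstant π →
          ∀ p : Fin r → (H →L[ℂ] H), IsPartition A p →
            (∀ (ω : Spec A) c,
              chi ω (p c) = if F ω (fun j => π (move (hu j) ω)) = c then 1 else 0) →
            Phi h lam (pinching p z) ≤ δ ∧ Phi h lam (pinching p (-z)) ≤ δ

/-- The operator form from the core. -/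
theorem randomSides_of_core (core : RandomCore) : RandomSides := by
  intro H _ _ _ M A _ ι η hA h x hx hxs hx1 hx0 r hr lam δ hlam hδ
  have := spec_totallyDisconnected hA
  have hxM := spanN_le hA hx
  obtain ⟨hG0, hG1⟩ := halfUp_bounds hxs hx1
  obtain ⟨D⟩ := exists_gens (halfUp_mem_spanN hx)
  have hph : ∀ ω : Spec A, ph ω (halfUp x) = 1 / 2 := fun ω => ph_halfUp hA hxM hx0 ω
  have hα : ∀ ω : Spec A, (ph ω (halfUp x)).re ≤ 1 / 2 := fun ω => by rw [hph]; norm_num
  obtain ⟨t, ht⟩ : ∃ t : ℝ, t = (lam + 1) / 2 := ⟨_, rfl⟩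
  have ht' : 1 / 2 + 2 / Real.sqrt r + 1 / r < t := by
    have e : lvlTwo r = 2 * (2 / Real.sqrt r + 1 / r) := by unfold lvlTwo; ring
    rw [ht]; linarith
  have ht0 : 0 ≤ t := le_trans (by positivity) ht'.le
  have hdiag : ∀ w (ω : Spec A), (D.model hA h hG0 hG1 hα).ent w w ω = 1 / 2 := fun w ω => by
    show ph ω (star (D.word w) * halfUp x * D.word w) = _
    rw [← ph_move ω hA h (D.word_normaliser w) (D.mem hA), hph]
  obtain ⟨n, w, F, hF, hFe, hkey⟩ :=
    core (Spec A) D.L r t (δ ^ 2 / 8) (D.model hA h hG0 hG1 hα) hr hdiag ht' (by positivity)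
  refine ⟨n, fun j => D.word (w j), fun j => D.word_normaliser (w j), F, hF, hFe,
    fun π hπ p hp hκp => ?_⟩
  obtain ⟨⟨f, hf0, hf1, d, hd, hμ⟩, ⟨g, hg0, hg1, e, he, hν⟩⟩ := hkey π hπ
  obtain ⟨κ, hκdef⟩ : ∃ κ : Spec A → Fin r, κ = fun ω' =>
      F ω' fun j => π ((D.model hA h hG0 hG1 hα).act (w j) ω') := ⟨_, rfl⟩
  have hκp' : ∀ (ω : Spec A) c, chi ω (p c) = if κ ω = c then 1 else 0 := fun ω c => by
    rw [hκp, hκdef]
    simp only [D.model_act hA h hG0 hG1 hα]
  rw [← hκdef] at hd he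
  have hSM := pinching_mem hA hp (D.mem hA)
  refine ⟨?_, ?_⟩
  · refine (Phi_two_sided_le hA h hxM hxs hx1 hp).trans ?_
    rw [← ht]
    have h2 := Phi_sq_le_of_poly h hSM (pinching_isSelfAdjoint hp (IsSelfAdjoint.of_nonneg hG0))
      (pinching_unit_interval hp hG0 hG1) ht0 hf0 (by positivity) hf1
      (D.tau_poly_le hA h hG0 hG1 hα hp hκp' f d hd hμ)
    have := Phi_nonneg h t (pinching p (halfUp x))
    nlinarith
  · have hn : ‖-x‖ ≤ 1 := by rwa [norm_neg]
    have hm : halfUp (-x) = 1 - halfUp x := by unfold halfUp; module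
    have hS' : pinching p (halfUp (-x)) = 1 - pinching p (halfUp x) := by
      rw [hm, pinching_sub, pinching_self hA hp (one_mem A)]
    refine (Phi_two_sided_le hA h (neg_mem hxM) hxs.neg hn hp).trans ?_
    rw [← ht]
    have hG0' := (halfUp_bounds hxs.neg hn).1
    have hG1' := (halfUp_bounds hxs.neg hn).2
    have hM' : halfUp (-x) ∈ M := vn_smul_mem _ (add_mem (one_mem M) (neg_mem hxM))
    have hev : ∀ y : ℝ, (g.comp (1 - X)).eval y = g.eval (1 - y) := fun y => by simp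
    have haev : aeval (pinching p (halfUp (-x))) (g.comp (1 - X))
        = aeval (pinching p (halfUp x)) g := by
      rw [aeval_comp, map_sub, map_one, aeval_X, hS', sub_sub_cancel]
    have h2 := Phi_sq_le_of_poly h (f := g.comp (1 - X)) (pinching_mem hA hp hM')
      (pinching_isSelfAdjoint hp (IsSelfAdjoint.of_nonneg hG0'))
      (pinching_unit_interval hp hG0' hG1') ht0
      (fun y hy => by rw [hev]; exact hg0 _ ⟨by linarith [hy.2], by linarith [hy.1]⟩)
      (δ := δ ^ 2 / 8) (by positivity)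
      (fun y hy => by rw [hev]; exact hg1 _ ⟨by linarith [hy.2], by linarith [hy.1]⟩)
      (by rw [haev]; exact D.tau_poly_le hA h hG0 hG1 hα hp hκp' g e he hν)
    have := Phi_nonneg h t (pinching p (halfUp (-x)))
    nlinarith

end Vale.Agent.P078.All
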