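import Vale.Agent.P078.All.Basic

/-!
The three estimates for one cell of a stage: two marks in one word, in the two words of one
expectation, and in two different expectations.
-/

namespace Vale.Agent.P078.All

open scoped ComplexOrder ComplexConjugate

variable {R : Type} [Ring R] [StarRing R] [Algebra ℂ R] [StarModule ℂ R]
  {Ω : Type} [TopologicalSpace Ω] [CompactSpace Ω] [T2Space Ω] [TotallyDisconnectedSpace Ω]

set_option linter.unusedSectionVars false
set_option linter.unusedSimpArgs false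

namespace Env

variable {V : Env R Ω}

theorem Mover.conj_symm (g : V.Mover) (a : C(Ω, ℂ)) :
    star g.u * V.ι a * g.u = V.ι (a.comp (g.T.symm : C(Ω, Ω))) := by
  conv_lhs => rw [show a = (a.comp (g.T.symm : C(Ω, Ω))).comp (g.T : C(Ω, Ω)) by ext ω; simp,
    ← g.conj]
  rw [← mul_assoc, ← mul_assoc, Unitary.star_mul_self_of_mem g.mem_unitary, one_mul, mul_assoc,
    Unitary.star_mul_self_of_mem g.mem_unitary, mul_one]

theorem Mover.E_conj_symm (g : V.Mover) (x : R) :
    V.E (star g.u * x * g.u) = (V.E x).comp (g.T.symm : C(Ω, Ω)) := by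
  have h := g.E_conj (star g.u * x * g.u)
  rw [← mul_assoc, ← mul_assoc, Unitary.mul_star_self_of_mem g.mem_unitary, one_mul, mul_assoc,
    Unitary.mul_star_self_of_mem g.mem_unitary, mul_one] at h
  rw [h]
  ext ω
  simp

theorem Mover.μR_comp (g : V.Mover) (f : C(Ω, ℝ)) :
    V.μR (f.comp (g.T : C(Ω, Ω))) = V.μR f := by
  show (V.μ _).re = (V.μ _).re
  rw [show cplx (f.comp (g.T : C(Ω, Ω))) = (cplx f).comp (g.T : C(Ω, Ω)) from rfl,
    ← V.E_ι ((cplx f).comp (g.T : C(Ω, Ω))), ← g.conj, V.trace, ← mul_assoc,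
    Unitary.star_mul_self_of_mem g.mem_unitary, one_mul, V.E_ι]

theorem Mover.μR_comp_symm (g : V.Mover) (f : C(Ω, ℝ)) :
    V.μR (f.comp (g.T.symm : C(Ω, Ω))) = V.μR f := by
  conv_rhs => rw [show f = (f.comp (g.T.symm : C(Ω, Ω))).comp (g.T : C(Ω, Ω)) by ext ω; simp,
    g.μR_comp]

/-- The product of a mover with the inverse of another. -/
def Mover.divide (g h : V.Mover) : V.Mover :=
  ⟨g.u * star h.u, mul_mem g.mem_unitary (Unitary.star_mem h.mem_unitary), g.T.trans h.T.symm,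
    fun a => by
      rw [star_mul, star_star,
        show g.u * star h.u * V.ι a * (h.u * star g.u) =
          g.u * (star h.u * V.ι a * h.u) * star g.u by simp only [mul_assoc],
        h.conj_symm, g.conj]
      rfl,
    fun x => by
      rw [star_mul, star_star,
        show g.u * star h.u * x * (h.u * star g.u) =
          g.u * (star h.u * x * h.u) * star g.u by simp only [mul_assoc],
        g.E_conj, h.E_conj_symm]
      rfl⟩

theorem Mover.ι_mul (g : V.Mover) (a : C(Ω, ℂ)) :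
    g.u * V.ι a = V.ι (a.comp (g.T : C(Ω, Ω))) * g.u := by
  rw [← g.conj, mul_assoc, Unitary.star_mul_self_of_mem g.mem_unitary, mul_one]

variable (V)

/-! ### The fibre masses -/

theorem fib_ind_nonneg (x : R) (P : Part Ω) (c : Fin P.n) (ω : Ω) : 0 ≤ V.fib x (P.ind c) ω := by
  have h := V.E_nonneg' (x * V.ι (P.ind c)) ω
  rw [star_mul, star_ι, P.star_ind, ← mul_assoc, mul_assoc x, ← map_mul, P.ind_mul_self] at h
  exact (Complex.nonneg_iff.1 h).1

theorem sum_fib (x : R) (P : Part Ω) (ω : Ω) :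
    ∑ c, V.fib x (P.ind c) ω = (V.E (x * star x) ω).re := by
  simp only [fib, reC_apply]
  rw [← Complex.re_sum, ← ContinuousMap.sum_apply, ← map_sum, ← Finset.sum_mul, ← Finset.mul_sum,
    ← map_sum, P.sum_ind, map_one, mul_one]

theorem re_E_star_self_le {x : R} {C : ℝ} (h : V.Bdd x C) (ω : Ω) :
    (V.E (star x * x) ω).re ≤ C ^ 2 := by
  have h1 := h.re_E_le 1 ω
  simpa [show V.E 1 = 1 by rw [← map_one V.ι, V.E_ι]] using h1

theorem re_E_self_star_le {x : R} {C : ℝ} (h : V.Bdd (star x) C) (ω : Ω) :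
    (V.E (x * star x) ω).re ≤ C ^ 2 := by
  simpa using V.re_E_star_self_le h ω

theorem gauss_eq (P : Part Ω) (x : R) :
    V.gauss P x = ∑ c, V.μR (V.fib x (P.ind c) * V.fib x (P.ind c)) := by
  refine Finset.sum_congr rfl fun c _ => ?_
  rw [μ_re]
  congr 1
  ext ω
  have h : (V.E (x * V.proj P c * star x) ω).im = 0 := by
    have h := V.E_nonneg' (x * V.ι (P.ind c)) ω
    rw [star_mul, star_ι, P.star_ind, ← mul_assoc, mul_assoc x, ← map_mul, P.ind_mul_self] at h
    exact (Complex.nonneg_iff.1 h).2.symm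
  simp [fib, proj, Complex.mul_re, pow_two, show (V.E (x * V.ι (P.ind c) * star x) ω).im = 0 from h]

theorem gauss_nonneg (P : Part Ω) (x : R) : 0 ≤ V.gauss P x := by
  rw [gauss_eq]
  exact Finset.sum_nonneg fun c _ => V.μR_nonneg fun ω => mul_self_nonneg _

theorem gauss_anti {P Q : Part Ω} (h : Q.Refines P) (x : R) : V.gauss Q x ≤ V.gauss P x := by
  classical
  have hpw : ∀ ω, ∑ d, V.fib x (Q.ind d) ω * V.fib x (Q.ind d) ω ≤
      ∑ c, V.fib x (P.ind c) ω * V.fib x (P.ind c) ω := by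
    intro ω
    let live : Finset (Fin Q.n) := Finset.univ.filter fun d => ∃ ω', Q.cell ω' = d
    let par : Fin Q.n → Option (Fin P.n) := fun d =>
      if hd : ∃ ω', Q.cell ω' = d then some (P.cell hd.choose) else none
    have hpar : ∀ c, ∑ d with par d = some c, Q.ind d = P.ind c := by
      intro c
      ext ω'
      have hp : par (Q.cell ω') = some (P.cell ω') := by
        have hd : ∃ ω'', Q.cell ω'' = Q.cell ω' := ⟨ω', rfl⟩
        simp only [par, dif_pos hd, Option.some.injEq]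
        exact h _ _ hd.choose_spec
      rw [ContinuousMap.sum_apply, Finset.sum_filter, Part.ind_apply,
        Finset.sum_eq_single (Q.cell ω')]
      · simp [hp, Part.ind_apply]
      · intro d _ hd; simp [Part.ind_apply, Ne.symm hd]
      · simp
    have hzero : ∀ d, par d = none → V.fib x (Q.ind d) ω = 0 := by
      intro d hd
      have : Q.ind d = 0 := by
        ext ω'
        simp only [Part.ind_apply, ContinuousMap.zero_apply, ite_eq_right_iff]
        intro e
        simp [par, show ∃ ω'', Q.cell ω'' = d from ⟨ω', e⟩] at hd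
      simp [fib, this]
    have hadd : ∀ c, V.fib x (P.ind c) ω = ∑ d with par d = some c, V.fib x (Q.ind d) ω := by
      intro c
      rw [← hpar c]
      simp [fib, Finset.mul_sum, Finset.sum_mul, ContinuousMap.sum_apply, Complex.re_sum]
    rw [← Finset.sum_fiberwise Finset.univ par fun d => V.fib x (Q.ind d) ω * V.fib x (Q.ind d) ω,
      Fintype.sum_option]
    rw [Finset.sum_eq_zero fun d hd => by simp [hzero d (Finset.mem_filter.1 hd).2], zero_add]
    refine Finset.sum_le_sum fun c _ => ?_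
    rw [hadd c, ← pow_two (∑ d with par d = some c, V.fib x (Q.ind d) ω)]
    simp only [← pow_two]
    exact Finset.sum_sq_le_sq_sum_of_nonneg fun d _ => fib_ind_nonneg V x Q d ω
  rw [gauss_eq, gauss_eq, ← map_sum, ← map_sum]
  exact V.μR_mono fun ω => by simpa using hpw ω

/-- The infimum of the fibre masses. -/
noncomputable def gv (x : R) : ℝ := ⨅ P : Part Ω, V.gauss P x

theorem gv_le (x : R) (P : Part Ω) : V.gv x ≤ V.gauss P x :=
  ciInf_le ⟨0, fun _ ⟨Q, hQ⟩ => hQ ▸ V.gauss_nonneg Q x⟩ P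

theorem gv_nonneg (x : R) : 0 ≤ V.gv x := by
  have : Nonempty (Part Ω) := ⟨Part.one⟩
  exact le_ciInf fun P => V.gauss_nonneg P x

theorem fine_gauss_le (x : R) {η : ℝ} (hη : 0 < η) :
    Part.Fine fun P => V.gauss P x ≤ V.gv x + η := by
  have : Nonempty (Part Ω) := ⟨Part.one⟩
  obtain ⟨P, hP⟩ := exists_lt_of_ciInf_lt (show V.gv x < V.gv x + η by linarith)
  exact ⟨P, fun Q hQ => (V.gauss_anti hQ x).trans hP.le⟩

theorem gv_le_of_atomless {x : R} (h : V.Atomless x) : V.gv x = 0 := by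
  refine le_antisymm (le_of_forall_pos_le_add fun η hη => ?_) (V.gv_nonneg x)
  obtain ⟨P, hP⟩ := (h η hη).exists
  linarith [V.gv_le x P]

/-! ### The pinching -/

theorem bdd_ind (P : Part Ω) (c : Fin P.n) : V.Bdd (V.ι (P.ind c)) 1 :=
  V.bdd_ι zero_le_one fun ω => by simp only [Part.ind_apply]; split_ifs <;> simp

theorem pinch_sub_ι (P : Part Ω) (x : R) (a : C(Ω, ℂ)) :
    V.pinch P (x - V.ι a) = V.pinch P x - V.ι a := by
  simp only [pinch, proj, mul_sub, sub_mul, Finset.sum_sub_distrib, ← map_mul, ← map_sum]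
  congr 2
  simp only [mul_comm (P.ind _) a, mul_assoc, P.ind_mul_self, ← Finset.mul_sum, P.sum_ind, mul_one]

theorem sum_smul_ind_mul (P : Part Ω) (κ : Fin P.n → ℂ) (x : R) :
    ∑ c, κ c • (V.proj P c * x * V.proj P c) = V.ι (∑ c, κ c • P.ind c) * V.pinch P x := by
  rw [map_sum, pinch, Finset.sum_mul]
  refine Finset.sum_congr rfl fun c _ => ?_
  rw [Finset.mul_sum, Finset.sum_eq_single c]
  · simp only [proj, map_smul, smul_mul_assoc, ← mul_assoc, ← map_mul, P.ind_mul_self]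
  · intro d _ hd
    simp only [proj, map_smul, smul_mul_assoc, ← mul_assoc, ← map_mul, P.ind_mul_ne (Ne.symm hd),
      map_zero, zero_mul, smul_zero]
  · simp

theorem norm_sum_smul_ind {P : Part Ω} {κ : Fin P.n → ℂ} {K : ℝ} (hK : ∀ c, ‖κ c‖ ≤ K) (ω : Ω) :
    ‖(∑ c, κ c • P.ind c : C(Ω, ℂ)) ω‖ ≤ K := by
  simp [ContinuousMap.sum_apply, Part.ind_apply, hK]

theorem norm_E_sq_le (x y : R) (ω : Ω) :
    ‖V.E (x * y) ω‖ ^ 2 ≤ (V.E (x * star x) ω).re * (V.E (star y * y) ω).re := by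
  rw [Complex.sq_norm]
  exact V.normSq_E_mul_le x y ω

/-- The expectation of `x` times a mover is controlled by the fibre masses of `x`. -/
theorem μR_norm_E_mul_sq_le (x : R) (v : V.Mover) :
    V.μR (absC (V.E (x * v.u)) * absC (V.E (x * v.u))) ≤ Real.sqrt (V.gv x) := by
  refine Real.le_sqrt_of_sq_le ?_
  have : Nonempty (Part Ω) := ⟨Part.one⟩
  refine le_ciInf fun P => ?_
  set g : C(Ω, ℝ) := absC (V.E (x * v.u)) * absC (V.E (x * v.u)) with hg
  have hg0 : 0 ≤ V.μR g := V.μR_nonneg fun ω => by simp [hg, mul_self_nonneg]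
  have h1 : V.μR g ^ 2 ≤ V.μR (g * g) := by
    have := pow_le_pow_left₀ hg0 (V.μR_le_sqrt g) 2
    rwa [Real.sq_sqrt (V.μR_nonneg fun ω => by simp [mul_self_nonneg])] at this
  refine h1.trans ?_
  rw [gauss_eq, ← map_sum]
  refine V.μR_mono fun ω => ?_
  set c : Fin P.n := P.cell (v.T.symm ω) with hc
  have e : V.E (x * v.u) ω = V.E (x * V.ι (P.ind c) * v.u) ω := by
    have hv : V.ι (P.ind c) * v.u = v.u * V.ι ((P.ind c).comp (v.T.symm : C(Ω, Ω))) := by
      rw [v.ι_mul]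
      congr 2
      ext ω'
      simp
    rw [mul_assoc, hv, ← mul_assoc, V.E_right, ContinuousMap.mul_apply]
    simp [Part.ind_apply, hc]
  have h2 : ‖V.E (x * v.u) ω‖ ^ 2 ≤ V.fib x (P.ind c) ω := by
    rw [e]
    refine (V.norm_E_sq_le _ _ ω).trans ?_
    rw [star_mul, star_ι, P.star_ind, ← mul_assoc, mul_assoc x (V.ι _), ← map_mul, P.ind_mul_self]
    refine mul_le_of_le_one_right (V.fib_ind_nonneg x P c ω) ?_
    simpa using V.re_E_star_self_le v.bdd ω
  simp only [ContinuousMap.sum_apply, ContinuousMap.mul_apply, hg, absC_apply, ← pow_two]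
  exact (pow_le_pow_left₀ (_root_.sq_nonneg _) h2 2).trans
    (Finset.single_le_sum (f := fun d => V.fib x (P.ind d) ω ^ 2)
      (fun d _ => _root_.sq_nonneg _) (Finset.mem_univ c))

/-- Two marks in one word: the sum over the cells is controlled by the word between them. -/
theorem pair_sq_le {P : Part Ω} {κ : Fin P.n → ℂ} {K CL CR η : ℝ} {L M Rr : R} (g h : V.Mover)
    (hK0 : 0 ≤ K) (hK : ∀ c, ‖κ c‖ ≤ K) (hL : V.Bdd L CL) (hR : V.Bdd (star Rr) CR)
    (hP : V.sq (V.pinch P (star g.u * M * h.u) - V.ι (V.E (star g.u * M * h.u))) ≤ η) :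
    Real.sqrt (V.sq (∑ c, κ c • (L * V.ι ((P.ind c).comp (g.T : C(Ω, Ω))) * M *
        V.ι ((P.ind c).comp (h.T : C(Ω, Ω))) * Rr))) ≤
      CL * CR * K * (Real.sqrt η + Real.sqrt (Real.sqrt (V.gv M))) := by
  set X := star g.u * M * h.u with hX
  have hsum : ∑ c, κ c • (L * V.ι ((P.ind c).comp (g.T : C(Ω, Ω))) * M *
      V.ι ((P.ind c).comp (h.T : C(Ω, Ω))) * Rr) =
      (L * g.u * V.ι (∑ c, κ c • P.ind c)) * V.pinch P X * (star h.u * Rr) := by
    rw [mul_assoc (L * g.u), ← V.sum_smul_ind_mul, Finset.mul_sum, Finset.sum_mul]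
    refine Finset.sum_congr rfl fun c _ => ?_
    rw [← g.conj, ← h.conj, mul_smul_comm, smul_mul_assoc]
    simp only [proj, hX, mul_assoc]
  have hB1 : V.Bdd (L * g.u * V.ι (∑ c, κ c • P.ind c)) (CL * 1 * K) :=
    (hL.mul g.bdd).mul (V.bdd_ι hK0 (norm_sum_smul_ind hK))
  have hB2 : V.Bdd (star (star h.u * Rr)) (CR * 1) := by
    rw [star_mul, star_star]
    exact hR.mul h.bdd
  rw [hsum]
  refine (V.sqrt_sq_mul_mul_le hB1 hB2 _).trans ?_
  rw [show CL * 1 * K * (CR * 1) = CL * CR * K by ring]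
  refine mul_le_mul_of_nonneg_left ?_ (mul_nonneg (mul_nonneg hL.1 hR.1) hK0)
  have h1 : V.pinch P X = (V.pinch P X - V.ι (V.E X)) + V.ι (V.E X) := by rw [sub_add_cancel]
  rw [h1]
  refine (V.sqrt_sq_add_le _ _).trans (add_le_add (Real.sqrt_le_sqrt hP) (Real.sqrt_le_sqrt ?_))
  have hv : X = star g.u * (M * (h.divide g).u) * g.u := by
    simp only [hX, Mover.divide, mul_assoc, Unitary.star_mul_self_of_mem g.mem_unitary, mul_one]
  rw [hv, g.E_conj_symm, sq_ι]
  refine le_of_eq_of_le ?_ (V.μR_norm_E_mul_sq_le M (h.divide g))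
  exact (g.μR_comp_symm (absC (V.E (M * (h.divide g).u)) * absC (V.E (M * (h.divide g).u))))

/-! ### The four-word form -/

/-- The form whose diagonal is the fibre mass. -/
noncomputable def quad (P : Part Ω) (X₀ X₁ X₂ X₃ : R) : ℂ :=
  ∑ e, V.μ (V.E (X₀ * V.proj P e * star X₁) * V.E (X₂ * V.proj P e * star X₃))

theorem gauss_eq_quad (P : Part Ω) (x : R) : V.gauss P x = (V.quad P x x x x).re := by
  simp [gauss, quad, pow_two]

theorem μ_star (f : C(Ω, ℂ)) : V.μ (star f) = conj (V.μ f) := by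
  refine Complex.ext ?_ ?_
  · rw [Complex.conj_re, μ_re, μ_re]
    rfl
  · rw [Complex.conj_im]
    have h1 := V.μ_re ((-Complex.I) • star f)
    have h2 := V.μ_re (Complex.I • f)
    have e : reC ((-Complex.I) • star f) = reC (Complex.I • f) := by ext ω; simp
    rw [e, ← h2, map_smul, map_smul] at h1
    simpa using h1

theorem star_E_mul (x y : R) (P : Part Ω) (e : Fin P.n) :
    star (V.E (x * V.proj P e * star y)) = V.E (y * V.proj P e * star x) := by
  rw [← V.E_star]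
  simp [proj, star_mul, star_ι, P.star_ind, mul_assoc]

theorem quad_conj (P : Part Ω) (X₀ X₁ X₂ X₃ : R) :
    V.quad P X₁ X₀ X₃ X₂ = conj (V.quad P X₀ X₁ X₂ X₃) := by
  rw [quad, quad, map_sum]
  refine Finset.sum_congr rfl fun e _ => ?_
  rw [← μ_star, star_mul', star_E_mul, star_E_mul]

theorem quad_swap (P : Part Ω) (X₀ X₁ X₂ X₃ : R) :
    V.quad P X₂ X₃ X₀ X₁ = V.quad P X₀ X₁ X₂ X₃ := by
  simp only [quad, mul_comm]

theorem norm_E_le_sqrt_fib (x y : R) (P : Part Ω) (e : Fin P.n) (ω : Ω) :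
    ‖V.E (x * V.proj P e * star y) ω‖ ≤
      Real.sqrt (V.fib x (P.ind e) ω) * Real.sqrt (V.fib y (P.ind e) ω) := by
  rw [← Real.sqrt_mul (V.fib_ind_nonneg x P e ω)]
  refine Real.le_sqrt_of_sq_le ?_
  have h := V.norm_E_sq_le (x * V.proj P e) (V.proj P e * star y) ω
  simp only [proj, star_mul, star_ι, P.star_ind, star_star] at h ⊢
  have e1 : x * V.ι (P.ind e) * (V.ι (P.ind e) * star y) = x * V.ι (P.ind e) * star y := by
    rw [← mul_assoc, mul_assoc x, ← map_mul, P.ind_mul_self]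
  have e2 : x * V.ι (P.ind e) * (V.ι (P.ind e) * star x) = x * V.ι (P.ind e) * star x := by
    rw [← mul_assoc, mul_assoc x, ← map_mul, P.ind_mul_self]
  have e3 : y * V.ι (P.ind e) * (V.ι (P.ind e) * star y) = y * V.ι (P.ind e) * star y := by
    rw [← mul_assoc, mul_assoc y, ← map_mul, P.ind_mul_self]
  rw [e1, e2, e3] at h
  exact h

theorem sum_sqrt_fib_mul_le {x y : R} {C D : ℝ} (hx : V.Bdd (star x) C) (hy : V.Bdd (star y) D)
    (P : Part Ω) (ω : Ω) :
    ∑ e, Real.sqrt (V.fib x (P.ind e) ω) * Real.sqrt (V.fib y (P.ind e) ω) ≤ C * D := by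
  refine (Real.sum_sqrt_mul_sqrt_le _ (fun e => V.fib_ind_nonneg x P e ω)
    (fun e => V.fib_ind_nonneg y P e ω)).trans ?_
  rw [sum_fib, sum_fib]
  exact mul_le_mul ((Real.sqrt_le_left hx.1).2 (V.re_E_self_star_le hx ω))
    ((Real.sqrt_le_left hy.1).2 (V.re_E_self_star_le hy ω)) (Real.sqrt_nonneg _) hx.1

theorem norm_quad_le {X₀ X₁ X₂ X₃ : R} {C₁ C₂ C₃ : ℝ} (h₁ : V.Bdd (star X₁) C₁)
    (h₂ : V.Bdd (star X₂) C₂) (h₃ : V.Bdd (star X₃) C₃) (P : Part Ω) :
    ‖V.quad P X₀ X₁ X₂ X₃‖ ≤ C₁ * C₂ * C₃ * Real.sqrt (V.sq X₀) := by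
  refine (norm_sum_le _ _).trans ((Finset.sum_le_sum fun e _ => V.norm_μ_le _).trans ?_)
  rw [← map_sum]
  let a : C(Ω, ℝ) := ⟨fun ω => Real.sqrt (reC (V.E (X₀ * star X₀)) ω), by fun_prop⟩
  have ha : V.μR a ≤ Real.sqrt (V.sq X₀) := by
    refine (V.μR_le_sqrt a).trans (Real.sqrt_le_sqrt (le_of_eq ?_))
    rw [← sq_star, sq_eq, star_star]
    congr 1
    ext ω
    exact Real.mul_self_sqrt (Complex.nonneg_iff.1 (V.E_nonneg' X₀ ω)).1
  refine le_trans (V.μR_mono (g := (C₁ * C₂ * C₃) • a) fun ω => ?_) ?_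
  swap
  · rw [map_smul, smul_eq_mul]
    exact mul_le_mul_of_nonneg_left ha (mul_nonneg (mul_nonneg h₁.1 h₂.1) h₃.1)
  simp only [ContinuousMap.sum_apply, absC_apply, ContinuousMap.mul_apply, norm_mul,
    ContinuousMap.smul_apply, smul_eq_mul]
  have h23 := fun e => (V.norm_E_le_sqrt_fib X₂ X₃ P e ω).trans
    (Finset.single_le_sum (f := fun d => Real.sqrt (V.fib X₂ (P.ind d) ω) *
      Real.sqrt (V.fib X₃ (P.ind d) ω)) (fun d _ => by positivity) (Finset.mem_univ e))
  refine (Finset.sum_le_sum fun e _ => mul_le_mul (V.norm_E_le_sqrt_fib X₀ X₁ P e ω)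
    ((h23 e).trans (V.sum_sqrt_fib_mul_le h₂ h₃ P ω)) (norm_nonneg _) (by positivity)).trans ?_
  rw [← Finset.sum_mul]
  have h01 : ∑ e, Real.sqrt (V.fib X₀ (P.ind e) ω) * Real.sqrt (V.fib X₁ (P.ind e) ω) ≤
      a ω * C₁ := by
    refine (Real.sum_sqrt_mul_sqrt_le _ (fun e => V.fib_ind_nonneg X₀ P e ω)
      (fun e => V.fib_ind_nonneg X₁ P e ω)).trans ?_
    rw [sum_fib, sum_fib]
    exact mul_le_mul_of_nonneg_left ((Real.sqrt_le_left h₁.1).2 (V.re_E_self_star_le h₁ ω))
      (Real.sqrt_nonneg _)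
  refine (mul_le_mul_of_nonneg_right h01 (mul_nonneg h₂.1 h₃.1)).trans (le_of_eq ?_)
  ring

/-- The two words of one expectation carry a mark each. -/
theorem opposite_le {P e : Part Ω} {κ : Fin P.n → ℂ} {K CL CL' C₂ C₃ η : ℝ} {L W L' W' X₂ X₃ : R}
    (g h : V.Mover) (hK0 : 0 ≤ K) (hK : ∀ c, ‖κ c‖ ≤ K) (hL : V.Bdd L CL) (hL' : V.Bdd L' CL')
    (h₂ : V.Bdd (star X₂) C₂) (h₃ : V.Bdd (star X₃) C₃)
    (hP : ∀ d : Fin e.n, V.sq (V.pinch P (star g.u * (W * V.proj e d * star W') * h.u) -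
      V.ι (V.E (star g.u * (W * V.proj e d * star W') * h.u))) ≤ η) :
    ‖∑ c, κ c • V.quad e (L * V.ι ((P.ind c).comp (g.T : C(Ω, Ω))) * W)
        (L' * V.ι ((P.ind c).comp (h.T : C(Ω, Ω))) * W') X₂ X₃‖ ≤
      CL * CL' * K * (C₂ * C₃) *
        (e.n * Real.sqrt η + Real.sqrt (Real.sqrt (V.gauss e W) * Real.sqrt (V.gauss e W'))) := by
  set A : Fin e.n → R := fun d => W * V.proj e d * star W'
  set X : Fin e.n → R := fun d => star g.u * A d * h.u with hX
  set y : Fin e.n → C(Ω, ℂ) := fun d => V.E (X d)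
  set P₀ : R := L * g.u * V.ι (∑ c, κ c • P.ind c)
  set Q₀ : R := star h.u * star L'
  set Z : Fin e.n → C(Ω, ℂ) := fun d => V.E (X₂ * V.proj e d * star X₃)
  have hPb : V.Bdd P₀ (CL * 1 * K) := (hL.mul g.bdd).mul (V.bdd_ι hK0 (norm_sum_smul_ind hK))
  have hQb : V.Bdd (star Q₀) (CL' * 1) := by
    simp only [Q₀, star_mul, star_star]
    exact hL'.mul h.bdd
  have hmain : ∑ c, κ c • V.quad e (L * V.ι ((P.ind c).comp (g.T : C(Ω, Ω))) * W)
      (L' * V.ι ((P.ind c).comp (h.T : C(Ω, Ω))) * W') X₂ X₃ =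
      ∑ d, V.τ (P₀ * V.pinch P (X d) * Q₀ * V.ι (Z d)) := by
    simp only [quad, Finset.smul_sum]
    rw [Finset.sum_comm]
    refine Finset.sum_congr rfl fun d _ => ?_
    simp only [τ, V.E_right, P₀]
    rw [mul_assoc (L * g.u), ← V.sum_smul_ind_mul, Finset.mul_sum, Finset.sum_mul, map_sum,
      Finset.sum_mul, map_sum]
    refine Finset.sum_congr rfl fun c _ => ?_
    rw [mul_smul_comm, smul_mul_assoc, map_smul, smul_mul_assoc, map_smul, ← g.conj, ← h.conj]
    congr 3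
    simp only [X, A, Q₀, proj, star_mul, star_star, star_ι, P.star_ind, mul_assoc]
  rw [hmain]
  have hZ : ∀ d ω, ‖Z d ω‖ ≤
      Real.sqrt (V.fib X₂ (e.ind d) ω) * Real.sqrt (V.fib X₃ (e.ind d) ω) :=
    fun d ω => V.norm_E_le_sqrt_fib _ _ e d ω
  have hZ1 : ∀ d, V.Bdd (V.ι (Z d)) (C₂ * C₃) := fun d =>
    V.bdd_ι (mul_nonneg h₂.1 h₃.1) fun ω => (hZ d ω).trans
      ((Finset.single_le_sum (f := fun d => Real.sqrt (V.fib X₂ (e.ind d) ω) *
        Real.sqrt (V.fib X₃ (e.ind d) ω)) (fun d _ => by positivity) (Finset.mem_univ d)).trans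
        (V.sum_sqrt_fib_mul_le h₂ h₃ e ω))
  have hZ2 : ∑ d, V.μR (absC (Z d) * absC (Z d)) ≤ (C₂ * C₃) ^ 2 := by
    rw [← map_sum, ← V.μR_const ((C₂ * C₃) ^ 2)]
    refine V.μR_mono fun ω => ?_
    simp only [ContinuousMap.sum_apply, ContinuousMap.mul_apply, absC_apply,
      ContinuousMap.const_apply, ← pow_two]
    refine (Finset.sum_le_sum fun d _ => pow_le_pow_left₀ (norm_nonneg _) (hZ d ω) 2).trans ?_
    refine (Finset.sum_sq_le_sq_sum_of_nonneg fun d _ => by positivity).trans ?_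
    exact pow_le_pow_left₀ (Finset.sum_nonneg fun d _ => by positivity)
      (V.sum_sqrt_fib_mul_le h₂ h₃ e ω) 2
  set D := CL * CL' * K
  have hD : 0 ≤ D := mul_nonneg (mul_nonneg hL.1 hL'.1) hK0
  have herr : ∀ d, ‖V.τ (P₀ * (V.pinch P (X d) - V.ι (y d)) * Q₀ * V.ι (Z d))‖ ≤
      D * (C₂ * C₃) * Real.sqrt η := fun d => by
    refine (V.norm_τ_mul_le _ _).trans ?_
    refine (mul_le_mul ((V.sqrt_sq_mul_mul_le hPb hQb _).trans (mul_le_mul_of_nonneg_left
      (Real.sqrt_le_sqrt (hP d)) (mul_nonneg hPb.1 hQb.1))) (V.sqrt_sq_le_of_bdd (hZ1 d))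
      (Real.sqrt_nonneg _) (mul_nonneg (mul_nonneg hPb.1 hQb.1) (Real.sqrt_nonneg _))).trans
      (le_of_eq ?_)
    simp only [D]; ring
  have hy : ∀ d, ‖V.τ (P₀ * V.ι (y d) * Q₀ * V.ι (Z d))‖ ≤
      D * (Real.sqrt (V.μR (absC (y d) * absC (y d))) *
        Real.sqrt (V.μR (absC (Z d) * absC (Z d)))) := fun d => by
    refine (V.norm_τ_mul_le _ _).trans ?_
    rw [← sq_ι, ← sq_ι, ← mul_assoc D]
    refine mul_le_mul_of_nonneg_right ((V.sqrt_sq_mul_mul_le hPb hQb _).trans (le_of_eq ?_))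
      (Real.sqrt_nonneg _)
    simp only [D]; ring
  have hysum : ∑ d, V.μR (absC (y d) * absC (y d)) ≤
      Real.sqrt (V.gauss e W) * Real.sqrt (V.gauss e W') := by
    set v := h.divide g
    let b : Fin e.n → C(Ω, ℝ) := fun d => (V.fib W' (e.ind d)).comp (v.T.symm : C(Ω, Ω))
    have hpt : ∀ d, V.μR (absC (y d) * absC (y d)) ≤ V.μR (V.fib W (e.ind d) * b d) := by
      intro d
      have e1 : X d = star g.u * (A d * v.u) * g.u := by
        simp only [X, v, Mover.divide, mul_assoc, Unitary.star_mul_self_of_mem g.mem_unitary,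
          mul_one]
      simp only [y, e1, g.E_conj_symm]
      rw [show absC ((V.E (A d * v.u)).comp (g.T.symm : C(Ω, Ω))) *
          absC ((V.E (A d * v.u)).comp (g.T.symm : C(Ω, Ω))) =
        (absC (V.E (A d * v.u)) * absC (V.E (A d * v.u))).comp (g.T.symm : C(Ω, Ω)) from rfl,
        g.μR_comp_symm]
      refine V.μR_mono fun ω => ?_
      have h1 := V.norm_E_sq_le (W * V.proj e d) (V.proj e d * star W' * v.u) ω
      have e2 : W * V.proj e d * (V.proj e d * star W' * v.u) = A d * v.u := by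
        simp only [A, proj, mul_assoc]
        rw [← mul_assoc (V.ι (e.ind d)) (V.ι (e.ind d)), ← map_mul, e.ind_mul_self]
      have e3 : W * V.proj e d * star (W * V.proj e d) = W * V.proj e d * star W := by
        simp only [proj, star_mul, star_ι, e.star_ind, mul_assoc]
        rw [← mul_assoc (V.ι (e.ind d)) (V.ι (e.ind d)), ← map_mul, e.ind_mul_self]
      have e4 : star (V.proj e d * star W' * v.u) * (V.proj e d * star W' * v.u) =
          star v.u * (W' * V.proj e d * star W') * v.u := by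
        simp only [proj, star_mul, star_star, star_ι, e.star_ind, mul_assoc]
        rw [← mul_assoc (V.ι (e.ind d)) (V.ι (e.ind d)), ← map_mul, e.ind_mul_self]
      rw [e2, e3, e4, v.E_conj_symm] at h1
      simpa [b, fib, proj, pow_two] using h1
    refine (Finset.sum_le_sum fun d _ => (hpt d).trans (V.μR_mul_le _ _)).trans ?_
    refine (Real.sum_sqrt_mul_sqrt_le _ (fun d => V.μR_nonneg fun ω => mul_self_nonneg _)
      fun d => V.μR_nonneg fun ω => mul_self_nonneg _).trans (le_of_eq ?_)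
    rw [gauss_eq, gauss_eq]
    congr 2
    refine Finset.sum_congr rfl fun d _ => ?_
    exact v.μR_comp_symm (V.fib W' (e.ind d) * V.fib W' (e.ind d))
  have hsplit : ∀ d, P₀ * V.pinch P (X d) * Q₀ * V.ι (Z d) =
      P₀ * (V.pinch P (X d) - V.ι (y d)) * Q₀ * V.ι (Z d) + P₀ * V.ι (y d) * Q₀ * V.ι (Z d) :=
    fun d => by simp only [mul_sub, sub_mul, sub_add_cancel]
  simp only [hsplit, τ_add]
  refine (norm_sum_le _ _).trans ((Finset.sum_le_sum fun d _ =>
    (norm_add_le _ _).trans (add_le_add (herr d) (hy d))).trans ?_)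
  rw [Finset.sum_add_distrib, Finset.sum_const, Finset.card_univ, Fintype.card_fin, nsmul_eq_mul,
    ← Finset.mul_sum, mul_add]
  refine add_le_add (le_of_eq (by ring)) ?_
  refine le_trans (mul_le_mul_of_nonneg_left ((Real.sum_sqrt_mul_sqrt_le _
      (fun d => V.μR_nonneg fun ω => mul_self_nonneg _)
      fun d => V.μR_nonneg fun ω => mul_self_nonneg _).trans
    (mul_le_mul (Real.sqrt_le_sqrt hysum)
      ((Real.sqrt_le_left (mul_nonneg h₂.1 h₃.1)).2 hZ2) (Real.sqrt_nonneg _)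
      (Real.sqrt_nonneg _))) hD) (le_of_eq ?_)
  ring

/-- One mark in each expectation. -/
theorem cross_le {P e : Part Ω} {CW CW' C₁ C₃ : ℝ} {L W L' W' X₁ X₃ : R} (T T' : Ω ≃ₜ Ω)
    (hW : V.Bdd W CW) (hW' : V.Bdd W' CW') (h₁ : V.Bdd (star X₁) C₁) (h₃ : V.Bdd (star X₃) C₃) :
    ∑ c, ∑ d, V.μR (absC (V.E (L * V.ι ((P.ind c).comp (T : C(Ω, Ω))) * W * V.proj e d * star X₁)) *
        absC (V.E (L' * V.ι ((P.ind c).comp (T' : C(Ω, Ω))) * W' * V.proj e d * star X₃))) ≤
      CW * C₁ * (CW' * C₃) *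
        Real.sqrt (Real.sqrt (V.gauss (P.move T) L) * Real.sqrt (V.gauss (P.move T') L')) := by
  have key : ∀ (L W X : R) (CW C : ℝ) (T : Ω ≃ₜ Ω), V.Bdd W CW → V.Bdd (star X) C →
      ∑ c, ∑ d, V.μR
          (absC (V.E (L * V.ι ((P.ind c).comp (T : C(Ω, Ω))) * W * V.proj e d * star X)) *
            absC (V.E (L * V.ι ((P.ind c).comp (T : C(Ω, Ω))) * W * V.proj e d * star X))) ≤
        CW ^ 2 * C ^ 2 * Real.sqrt (V.gauss (P.move T) L) := by
    intro L W X CW C T hW hX
    set Q := P.move T with hQ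
    let a : C(Ω, ℝ) := ⟨fun ω => Real.sqrt (∑ c, V.fib L (Q.ind c) ω * V.fib L (Q.ind c) ω),
      by fun_prop⟩
    have ha : V.μR a ≤ Real.sqrt (V.gauss (P.move T) L) := by
      refine (V.μR_le_sqrt a).trans (Real.sqrt_le_sqrt (le_of_eq ?_))
      rw [gauss_eq, ← map_sum]
      congr 1
      ext ω
      simp only [ContinuousMap.mul_apply, ContinuousMap.sum_apply, a, ContinuousMap.coe_mk]
      exact Real.mul_self_sqrt (Finset.sum_nonneg fun c _ => mul_self_nonneg _)
    simp only [← map_sum]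
    refine (V.μR_mono (g := (CW ^ 2 * C ^ 2) • a) fun ω => ?_).trans ?_
    swap
    · rw [map_smul, smul_eq_mul]
      exact mul_le_mul_of_nonneg_left ha (by positivity)
    simp only [ContinuousMap.sum_apply, ContinuousMap.mul_apply, absC_apply,
      ContinuousMap.smul_apply, smul_eq_mul, ← pow_two]
    rw [Finset.sum_comm]
    set r : Fin e.n → R := fun d => W * V.proj e d * star X
    have hb : ∀ d (c : Fin Q.n), ‖V.E (L * V.ι (Q.ind c) * r d) ω‖ ^ 2 ≤
        a ω * (V.E (star (r d) * V.ι (Q.ind c) * r d) ω).re := by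
      intro d c
      have h1 := V.norm_E_sq_le (L * V.ι (Q.ind c)) (V.ι (Q.ind c) * r d) ω
      have e1 : L * V.ι (Q.ind c) * (V.ι (Q.ind c) * r d) = L * V.ι (Q.ind c) * r d := by
        rw [← mul_assoc, mul_assoc L, ← map_mul, Q.ind_mul_self]
      have e2 : L * V.ι (Q.ind c) * star (L * V.ι (Q.ind c)) = L * V.ι (Q.ind c) * star L := by
        rw [star_mul, star_ι, Q.star_ind, ← mul_assoc, mul_assoc L, ← map_mul, Q.ind_mul_self]
      have e3 : star (V.ι (Q.ind c) * r d) * (V.ι (Q.ind c) * r d) =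
          star (r d) * V.ι (Q.ind c) * r d := by
        rw [star_mul, star_ι, Q.star_ind, ← mul_assoc, mul_assoc (star (r d)), ← map_mul,
          Q.ind_mul_self]
      rw [e1, e2, e3] at h1
      refine h1.trans (mul_le_mul_of_nonneg_right ?_ ?_)
      · exact Real.le_sqrt_of_sq_le (by
          rw [pow_two]
          exact Finset.single_le_sum (f := fun c => V.fib L (Q.ind c) ω * V.fib L (Q.ind c) ω)
            (fun c _ => mul_self_nonneg _) (Finset.mem_univ c))
      · have := (Complex.nonneg_iff.1 (V.E_nonneg (V.ι (Q.ind c) * r d) ω)).1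
        rwa [e3] at this
    calc ∑ d, ∑ c, ‖V.E (L * V.ι ((P.ind c).comp (T : C(Ω, Ω))) * W * V.proj e d * star X) ω‖ ^ 2
        ≤ ∑ d, ∑ c : Fin Q.n, a ω * (V.E (star (r d) * V.ι (Q.ind c) * r d) ω).re :=
          Finset.sum_le_sum fun d _ => Finset.sum_le_sum fun c _ => by
            rw [show L * V.ι ((P.ind c).comp (T : C(Ω, Ω))) * W * V.proj e d * star X =
              L * V.ι ((P.move T).ind c) * r d by simp only [r, Part.ind_move, mul_assoc]]
            exact hb d c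
      _ = ∑ d, a ω * (V.E (star (r d) * r d) ω).re := by
          refine Finset.sum_congr rfl fun d _ => ?_
          rw [← Finset.mul_sum, ← Complex.re_sum, ← ContinuousMap.sum_apply, ← map_sum,
            ← Finset.sum_mul, ← Finset.mul_sum, ← map_sum, Q.sum_ind, map_one, mul_one]
      _ ≤ ∑ d, a ω * (CW ^ 2 * V.fib X (e.ind d) ω) := by
          refine Finset.sum_le_sum fun d _ => mul_le_mul_of_nonneg_left ?_ (Real.sqrt_nonneg _)
          have h1 := hW.re_E_le (V.proj e d * star X) ω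
          rw [show W * (V.proj e d * star X) = r d by simp only [r, mul_assoc]] at h1
          refine h1.trans (le_of_eq ?_)
          simp only [fib, reC_apply, proj, star_mul, star_star, star_ι, e.star_ind, mul_assoc]
          rw [← mul_assoc (V.ι (e.ind d)) (V.ι (e.ind d)), ← map_mul, e.ind_mul_self]
      _ ≤ CW ^ 2 * C ^ 2 * a ω := by
          rw [← Finset.mul_sum, ← Finset.mul_sum, sum_fib,
            show CW ^ 2 * C ^ 2 * a ω = a ω * (CW ^ 2 * C ^ 2) by ring]
          exact mul_le_mul_of_nonneg_left (mul_le_mul_of_nonneg_left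
            (V.re_E_self_star_le hX ω) (_root_.sq_nonneg _)) (Real.sqrt_nonneg _)
  refine (Finset.sum_le_sum fun c _ => Finset.sum_le_sum fun d _ => V.μR_mul_le _ _).trans ?_
  refine (Finset.sum_le_sum fun c _ => Real.sum_sqrt_mul_sqrt_le _
    (fun d => V.μR_nonneg fun ω => mul_self_nonneg _)
    fun d => V.μR_nonneg fun ω => mul_self_nonneg _).trans ?_
  refine (Real.sum_sqrt_mul_sqrt_le _
    (fun c => Finset.sum_nonneg fun d _ => V.μR_nonneg fun ω => mul_self_nonneg _)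
    fun c => Finset.sum_nonneg fun d _ => V.μR_nonneg fun ω => mul_self_nonneg _).trans ?_
  refine (mul_le_mul (Real.sqrt_le_sqrt (key L W X₁ CW C₁ T hW h₁))
    (Real.sqrt_le_sqrt (key L' W' X₃ CW' C₃ T' hW' h₃)) (Real.sqrt_nonneg _)
    (Real.sqrt_nonneg _)).trans (le_of_eq ?_)
  rw [← Real.sqrt_mul (by positivity),
    show CW ^ 2 * C₁ ^ 2 * Real.sqrt (V.gauss (P.move T) L) *
        (CW' ^ 2 * C₃ ^ 2 * Real.sqrt (V.gauss (P.move T') L')) =
      (CW * C₁ * (CW' * C₃)) ^ 2 *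
        (Real.sqrt (V.gauss (P.move T) L) * Real.sqrt (V.gauss (P.move T') L')) by ring,
    Real.sqrt_mul (_root_.sq_nonneg _), Real.sqrt_sq]
  exact mul_nonneg (mul_nonneg hW.1 h₁.1) (mul_nonneg hW'.1 h₃.1)

end Env

end Vale.Agent.P078.All
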