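import Vale.Agent.P078.All.Chain
import Vale.Agent.P078.All.Step
import Vale.Agent.P078.All.Moments
import Vale.Agent.P078.All.SeedsBasic

/-!
One stage: fineness conditions, the shape of a product with one or two marked sites, and the
estimate for two marks in one product.
-/

namespace Vale.Agent.P078.All

open scoped ComplexOrder ComplexConjugate
open Moments

set_option linter.unusedSectionVars false
set_option linter.unusedSimpArgs false

/-- Replacing the extra marks of one cell by averages over signs. -/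
theorem norm_sum_piecewise_le {I X : Type*} [DecidableEq I] [AddCommGroup X] [Module ℂ X]
    {n : ℕ} (Φ : (I → X) → ℂ) (sl : I → Fin n → X) (good : I → X → Prop)
    (hlin : ∀ (w : I → X) (i : I) (ε : Fin n → Bool),
      Φ (Function.update w i (∑ d, sgn (ε d) • sl i d)) =
        ∑ d, sgn (ε d) * Φ (Function.update w i (sl i d)))
    (hgood : ∀ i (ε : Fin n → Bool), good i (∑ d, sgn (ε d) • sl i d))
    {β : ℝ} {J' : Finset I} {w₀ : I → X} (hw₀ : ∀ i, good i (w₀ i)) :
    ∀ J : Finset I, J' ⊆ J →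
      (∀ w : I → X, (∀ i, i ∉ J → w i = w₀ i) → (∀ i, good i (w i)) →
        ∀ κ : Fin n → ℂ, (∀ c, ‖κ c‖ ≤ 1) →
          ‖∑ c, κ c * Φ (J'.piecewise (fun i => sl i c) w)‖ ≤ β) →
      ‖∑ c, Φ (J.piecewise (fun i => sl i c) w₀)‖ ≤ β := by
  intro J hsub base
  suffices key : ∀ D : Finset I, D ⊆ J \ J' → ∀ w : I → X, (∀ i, i ∉ J → w i = w₀ i) →
      (∀ i, good i (w i)) → ∀ κ : Fin n → ℂ, (∀ c, ‖κ c‖ ≤ 1) →
        ‖∑ c, κ c * Φ ((J' ∪ D).piecewise (fun i => sl i c) w)‖ ≤ β by
    have h := key (J \ J') subset_rfl w₀ (fun _ _ => rfl) hw₀ (fun _ => 1) fun _ => by simp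
    rw [Finset.union_sdiff_of_subset hsub] at h
    simpa using h
  intro D
  induction D using Finset.induction_on with
  | empty =>
    intro _ w h1 h2 κ hκ
    rw [Finset.union_empty]
    exact base w h1 h2 κ hκ
  | @insert l D hl ih =>
    intro hDJ w h1 h2 κ hκ
    obtain ⟨hlJ, hlJ'⟩ := Finset.mem_sdiff.1 (hDJ (Finset.mem_insert_self l D))
    have hlu : l ∉ J' ∪ D := by simp [hlJ', hl]
    have e1 : (2 : ℂ) ^ n * ∑ c, κ c * Φ ((J' ∪ insert l D).piecewise (fun i => sl i c) w) =
        ∑ ε : Fin n → Bool, ∑ c, (κ c * sgn (ε c)) *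
          Φ ((J' ∪ D).piecewise (fun i => sl i c)
            (Function.update w l (∑ d, sgn (ε d) • sl l d))) := by
      rw [Finset.mul_sum, Finset.sum_comm]
      refine Finset.sum_congr rfl fun c _ => ?_
      have hupd : ∀ y : X, (J' ∪ D).piecewise (fun i => sl i c) (Function.update w l y) =
          Function.update ((J' ∪ D).piecewise (fun i => sl i c) w) l y := fun y =>
        (Finset.update_piecewise_of_notMem (s := J' ∪ D) (f := fun i => sl i c) (g := w) hlu y).symm
      simp only [hupd, hlin, Finset.mul_sum]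
      rw [Finset.sum_comm]
      have h3 : ∀ d, ∑ ε : Fin n → Bool, κ c * sgn (ε c) *
          (sgn (ε d) * Φ (Function.update ((J' ∪ D).piecewise (fun i => sl i c) w) l (sl l d))) =
          2 ^ n * (if c = d then 1 else 0) *
            (κ c * Φ (Function.update ((J' ∪ D).piecewise (fun i => sl i c) w) l (sl l d))) := by
        intro d
        rw [show (2 : ℂ) ^ n = 2 ^ Fintype.card (Fin n) by rw [Fintype.card_fin], sum_sgn_mul_sgn,
          Finset.sum_mul]
        exact Finset.sum_congr rfl fun ε _ => by ring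
      simp only [h3, mul_ite, mul_one, mul_zero, ite_mul, zero_mul, Finset.sum_ite_eq,
        Finset.mem_univ, if_true]
      rw [Finset.union_insert, Finset.piecewise_insert]
    have e2 : (2 : ℝ) ^ n * ‖∑ c, κ c * Φ ((J' ∪ insert l D).piecewise (fun i => sl i c) w)‖ ≤
        2 ^ n * β := by
      calc (2 : ℝ) ^ n * ‖∑ c, κ c * Φ ((J' ∪ insert l D).piecewise (fun i => sl i c) w)‖
          = ‖(2 : ℂ) ^ n * ∑ c, κ c * Φ ((J' ∪ insert l D).piecewise (fun i => sl i c) w)‖ := by
            simp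
        _ ≤ ∑ ε : Fin n → Bool, ‖∑ c, (κ c * sgn (ε c)) *
            Φ ((J' ∪ D).piecewise (fun i => sl i c)
              (Function.update w l (∑ d, sgn (ε d) • sl l d)))‖ := e1 ▸ norm_sum_le _ _
        _ ≤ ∑ _ε : Fin n → Bool, β := Finset.sum_le_sum fun ε _ =>
            ih (fun i hi => hDJ (Finset.mem_insert_of_mem hi)) _
              (fun i hi => by rw [Function.update_of_ne (fun e : i = l => hi (e ▸ hlJ))]; exact h1 i hi)
              (fun i => by
                by_cases hi : i = l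
                · subst hi; rw [Function.update_self]; exact hgood _ _
                · rw [Function.update_of_ne hi]; exact h2 i)
              _ fun c => by rw [norm_mul, norm_sgn, mul_one]; exact hκ c
        _ = _ := by simp
    exact le_of_mul_le_mul_left e2 (by positivity)

variable {R : Type} [Ring R] [StarRing R] [Algebra ℂ R] [StarModule ℂ R]
  {Ω : Type} [TopologicalSpace Ω] [CompactSpace Ω] [T2Space Ω] [TotallyDisconnectedSpace Ω]

variable {V : Env R Ω} {S : Type} [Fintype S] (b : ℕ → R) (q : ℕ → Mono V S) {n : ℕ}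

/-- The bound at a site. -/
noncomputable def siteBd (i : Sites q n) : ℝ := 1 + ∑ σ, ‖(siteOf q i).h σ‖

theorem one_le_siteBd (i : Sites q n) : 1 ≤ siteBd q i :=
  le_add_of_nonneg_right (Finset.sum_nonneg fun _ _ => norm_nonneg _)

/-- Admissible values at a site. -/
def SiteOK (i : Sites q n) (x : C(Ω, ℂ)) : Prop := ∀ ω, ‖x ω‖ ≤ siteBd q i

theorem good_sum_slotVal (i : Sites q n) (s : State Ω S) (P : Part Ω)
    {a : Option (Fin P.n) → ℂ} (ha : ∀ o, ‖a o‖ ≤ 1) :
    SiteOK q i (∑ o, a o • slotVal (siteOf q i) s P o) :=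
  norm_sum_smul_slotVal _ s P ha

theorem good_siteVal (i : Sites q n) (s : State Ω S) : SiteOK q i (siteVal (siteOf q i) s) := by
  intro ω
  show ‖(s _).elim 0 _‖ ≤ _
  rcases s ((siteOf q i).g.T ω) with _ | σ
  · simpa using zero_le_one.trans (one_le_siteBd q i)
  · exact (Finset.single_le_sum (f := fun σ => ‖(siteOf q i).h σ‖) (fun _ _ => norm_nonneg _)
      (Finset.mem_univ σ)).trans (le_add_of_nonneg_left zero_le_one)

theorem good_openVal (i : Sites q n) (s : State Ω S) : SiteOK q i (openVal (siteOf q i) s) := by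
  intro ω
  refine le_trans ?_ (one_le_siteBd q i)
  show ‖(s _).elim (1 : ℂ) 0‖ ≤ 1
  rcases s ((siteOf q i).g.T ω) with _ | σ <;> simp

theorem good_sum_sgn (i : Sites q n) (s : State Ω S) (P : Part Ω) (ε : Fin P.n → Bool) :
    SiteOK q i (∑ d, sgn (ε d) • slotVal (siteOf q i) s P (some d)) := by
  have h := good_sum_slotVal q i s P (a := fun o => o.elim 0 fun d => sgn (ε d)) fun o => by
    cases o <;> simp [norm_sgn]
  simpa [Fintype.sum_option] using h

theorem exists_wval_bd : ∃ Z : ℝ, 0 ≤ Z ∧ ∀ w : Sites q n → C(Ω, ℂ), (∀ i, SiteOK q i (w i)) →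
    ∀ k ω, ‖wval q w k ω‖ ≤ Z := by
  set B : Fin n → ℝ := fun k => ‖(q k).coef‖ * ∏ j, siteBd q (⟨k, j⟩ : Sites q n) with hBdef
  have hB : ∀ k, 0 ≤ B k := fun k => mul_nonneg (norm_nonneg _)
    (Finset.prod_nonneg fun j _ => zero_le_one.trans (one_le_siteBd q _))
  refine ⟨∑ k, B k, Finset.sum_nonneg fun k _ => hB k, fun w hw k ω => ?_⟩
  by_cases h : k < n
  · have h1 : ‖wval q w k ω‖ ≤ B ⟨k, h⟩ := by
      have h2 : wval q w k ω = (q k).coef ω * ∏ j, w ⟨⟨k, h⟩, j⟩ ω := by
        unfold wval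
        rw [dif_pos h, ContinuousMap.mul_apply, ContinuousMap.prod_apply]
      rw [h2, norm_mul, norm_prod]
      exact mul_le_mul ((q k).coef.norm_coe_le_norm ω)
        (Finset.prod_le_prod (fun j _ => norm_nonneg _) fun j _ => hw ⟨⟨k, h⟩, j⟩ ω)
        (Finset.prod_nonneg fun j _ => norm_nonneg _) (norm_nonneg _)
    exact h1.trans (Finset.single_le_sum (f := B) (fun k _ => hB k) (Finset.mem_univ _))
  · unfold wval
    rw [dif_neg h, ContinuousMap.zero_apply, norm_zero]
    exact Finset.sum_nonneg fun k _ => hB k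

/-- A bound for all intervals of the product at admissible values. -/
theorem exists_chain_bd (n : ℕ) : ∃ C : ℝ, 1 ≤ C ∧ ∀ w : Sites q n → C(Ω, ℂ),
    (∀ i, SiteOK q i (w i)) → ∀ i l, i + l ≤ n →
      V.Bdd (V.seg (fun k => b (k + i)) (fun k => wval q w (k + i)) l) C ∧
      V.Bdd (star (V.seg (fun k => b (k + i)) (fun k => wval q w (k + i)) l)) C ∧
      (∀ k ω, ‖wval q w k ω‖ ≤ C) := by
  obtain ⟨Z, hZ0, hZ⟩ := exists_wval_bd q (n := n)
  choose C hC1 hC using fun p : Fin (n + 1) × Fin (n + 1) =>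
    Env.exists_seg_bdd (V := V) (fun k => b (k + p.1)) hZ0 p.2
  refine ⟨(∑ p, C p) + Z + 1, ?_, fun w hw i l hil => ?_⟩
  · have := Finset.sum_nonneg fun p (_ : p ∈ Finset.univ) => zero_le_one.trans (hC1 p)
    linarith
  have hle : C (⟨i, by omega⟩, ⟨l, by omega⟩) ≤ ∑ p, C p :=
    Finset.single_le_sum (f := C) (fun p _ => zero_le_one.trans (hC1 p)) (Finset.mem_univ _)
  obtain ⟨h1, h2⟩ := hC (⟨i, by omega⟩, ⟨l, by omega⟩) (fun k => wval q w (k + i))
    fun k _ ω => hZ w hw _ ω
  have hsum : C (⟨i, by omega⟩, ⟨l, by omega⟩) ≤ (∑ p, C p) + Z + 1 := by linarith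
  exact ⟨h1.mono hsum, h2.mono hsum, fun k ω => (hZ w hw k ω).trans (by
    have := Finset.sum_nonneg fun p (_ : p ∈ Finset.univ) => zero_le_one.trans (hC1 p)
    linarith)⟩

/-- The sites of one letter see distinct cells. -/
def Separates (n : ℕ) (P : Part Ω) : Prop :=
  ∀ i j : Sites q n, i ≠ j → i.1 = j.1 → ∀ ω, (q i.1).supp ω = true →
    P.cell ((siteOf q i).g.T ω) ≠ P.cell ((siteOf q j).g.T ω)

theorem fine_separates (n : ℕ) : Part.Fine (Separates q n) := by
  refine Part.Fine.forall fun i => Part.Fine.forall fun j => ?_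
  by_cases hij : i ≠ j ∧ i.1 = j.1
  swap
  · exact Part.fine_of_forall fun P h1 h2 => absurd ⟨h1, h2⟩ hij
  obtain ⟨k, ji⟩ := i
  obtain ⟨k', jj⟩ := j
  obtain ⟨hne, rfl⟩ : _ ∧ k = k' := hij
  have hjne : ji ≠ jj := fun e => hne (e ▸ rfl)
  set T₁ := ((q k).site ji).g.T
  set T₂ := ((q k).site jj).g.T
  set K : Set Ω := {ω | (q k).supp ω = true} with hK
  have hKc : IsCompact K := (((q k).supp.isLocallyConstant.isClopen_fiber true).1).isCompact
  have hsep : ∀ ω : K, ∃ U : Set Ω, IsClopen U ∧ T₁ ω ∈ U ∧ T₂ ω ∉ U := by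
    intro ω
    obtain ⟨U, hU, h1, h2⟩ :=
      exists_isClopen_of_totally_separated ((q k).distinct ji jj hjne ω ω.2)
    exact ⟨U, hU, h1, h2⟩
  choose U hU hU1 hU2 using hsep
  obtain ⟨t, ht⟩ := hKc.elim_finite_subcover (fun ω : K => T₁ ⁻¹' U ω ∩ T₂ ⁻¹' (U ω)ᶜ)
    (fun ω => ((hU ω).2.preimage T₁.continuous).inter ((hU ω).compl.2.preimage T₂.continuous))
    fun ω hω => Set.mem_iUnion.2 ⟨⟨ω, hω⟩, hU1 _, hU2 _⟩
  classical
  have hfine : ∀ ω : t, Part.Fine fun P : Part Ω => ∀ x y, x ∈ U ω.1 → y ∉ U ω.1 →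
      P.cell x ≠ P.cell y := by
    intro ω
    refine ⟨⟨2, LocallyConstant.ofIsClopen (hU ω.1)⟩, fun P hP x y hx hy e => ?_⟩
    have := hP x y e
    simp [LocallyConstant.ofIsClopen, hx, hy] at this
  refine (Part.Fine.forall hfine).mono fun P hP _ _ ω hω => ?_
  obtain ⟨ω₀, hω₀, h1, h2⟩ := Set.mem_iUnion₂.1 (ht hω)
  exact hP ⟨ω₀, hω₀⟩ _ _ h1 h2

/-- The product with two marked sites in one letter vanishes. -/
theorem prodMap_eq_zero {s : State Ω S} {P : Part Ω} (hP : Separates q n P) {i j : Sites q n}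
    (hij : i ≠ j) (hk : i.1 = j.1) {c : Fin P.n} {w : Sites q n → C(Ω, ℂ)}
    (hi : w i = slotVal (siteOf q i) s P (some c)) (hj : w j = slotVal (siteOf q j) s P (some c)) :
    prodMap b q w = 0 := by
  have hzero : wval q w i.1 = 0 := by
    ext ω
    simp only [wval, dif_pos i.1.2, ContinuousMap.mul_apply, ContinuousMap.prod_apply,
      ContinuousMap.zero_apply]
    by_cases hs : (q i.1).supp ω = true
    · have hne := hP i j hij hk ω hs
      obtain ⟨ki, ji⟩ := i
      obtain ⟨kj, jj⟩ := j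
      obtain rfl : ki = kj := hk
      rcases eq_or_ne (P.cell ((siteOf q (⟨ki, ji⟩ : Sites q n)).g.T ω)) c with h | h
      · refine mul_eq_zero_of_right _ (Finset.prod_eq_zero (Finset.mem_univ jj) ?_)
        rw [hj]
        simp [slotVal, cellVal, Part.ind_apply, show P.cell _ ≠ c from fun e => hne (h.trans e.symm)]
      · refine mul_eq_zero_of_right _ (Finset.prod_eq_zero (Finset.mem_univ ji) ?_)
        rw [hi]
        simp [slotVal, cellVal, Part.ind_apply, h]
    · rw [(q i.1).coef_off ω (by simpa using hs), zero_mul]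
  rw [prodMap_apply, Env.seg_split' b _ i.1.2, hzero, map_zero, mul_zero, zero_mul]

variable [DecidableEq (Sites q n)]

theorem wval_update_mark (w : Sites q n → C(Ω, ℂ)) (i : Sites q n) (s : State Ω S) (P : Part Ω)
    (c : Fin P.n) :
    wval q (Function.update w i (slotVal (siteOf q i) s P (some c))) i.1 =
      wval q (Function.update w i (openVal (siteOf q i) s)) i.1 * cellVal (siteOf q i) P c := by
  rw [(wval_update q w i _).1, (wval_update q w i _).1]
  simp only [slotVal]
  ring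

/-- The letters are those of the state where the sites are untouched. -/
theorem wval_eq_val {s : State Ω S} {w : Sites q n → C(Ω, ℂ)} {k : ℕ} (hk : k < n)
    (h : ∀ i : Sites q n, (i.1 : ℕ) = k → w i = siteVal (siteOf q i) s) :
    wval q w k = (q k).val s := by
  rw [← wval_siteVal q s hk]
  simp only [wval, dif_pos hk]
  congr 1
  exact Finset.prod_congr rfl fun j _ => h ⟨⟨k, hk⟩, j⟩ rfl

/-- One marked site. -/
theorem prodMap_mark (w : Sites q n → C(Ω, ℂ)) (i : Sites q n) (s : State Ω S) (P : Part Ω)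
    (c : Fin P.n) :
    prodMap b q (Function.update w i (slotVal (siteOf q i) s P (some c))) =
      V.seg b (wval q w) i.1 * V.ι (wval q (Function.update w i (openVal (siteOf q i) s)) i.1) *
        V.ι (cellVal (siteOf q i) P c) *
        V.seg (fun k => b (k + ((i.1 : ℕ) + 1))) (fun k => wval q w (k + ((i.1 : ℕ) + 1)))
          (n - ((i.1 : ℕ) + 1)) := by
  rw [prodMap_apply, Env.seg_split' b _ i.1.2, wval_update_mark, map_mul, ← mul_assoc,
    Env.seg_congr (n := (i.1 : ℕ)) fun k hk => (wval_update q w i _).2 k hk.ne,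
    funext fun k => (wval_update q w i (slotVal (siteOf q i) s P (some c))).2
      (k + ((i.1 : ℕ) + 1)) (by omega)]

/-- Two marked sites. -/
theorem prodMap_pair (w : Sites q n → C(Ω, ℂ)) (i j : Sites q n) (hij : (i.1 : ℕ) < j.1)
    (s : State Ω S) (P : Part Ω) (c : Fin P.n) :
    prodMap b q (Function.update (Function.update w j (slotVal (siteOf q j) s P (some c))) i
        (slotVal (siteOf q i) s P (some c))) =
      V.seg b (wval q w) i.1 * V.ι (wval q (Function.update w i (openVal (siteOf q i) s)) i.1) *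
        V.ι (cellVal (siteOf q i) P c) *
        V.seg (fun k => b (k + ((i.1 : ℕ) + 1))) (fun k => wval q w (k + ((i.1 : ℕ) + 1)))
          ((j.1 : ℕ) - ((i.1 : ℕ) + 1)) *
        V.ι (cellVal (siteOf q j) P c) *
        (V.ι (wval q (Function.update w j (openVal (siteOf q j) s)) j.1) *
          V.seg (fun k => b (k + ((j.1 : ℕ) + 1))) (fun k => wval q w (k + ((j.1 : ℕ) + 1)))
            (n - ((j.1 : ℕ) + 1))) := by
  set w' := Function.update w j (slotVal (siteOf q j) s P (some c)) with hw'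
  have hne : ∀ k, k ≠ (j.1 : ℕ) → wval q w' k = wval q w k := (wval_update q w j _).2
  have h1 : V.seg b (wval q w') i.1 = V.seg b (wval q w) i.1 :=
    Env.seg_congr fun k hk => hne k (by omega)
  have h2 : wval q (Function.update w' i (openVal (siteOf q i) s)) i.1 =
      wval q (Function.update w i (openVal (siteOf q i) s)) i.1 := by
    rw [(wval_update q w' i _).1, (wval_update q w i _).1]
    congr 2
    refine Finset.prod_congr rfl fun l _ => Function.update_of_ne ?_ _ _
    intro e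
    have := congrArg (fun t : Sites q n => (t.1 : ℕ)) e
    simp at this
    omega
  rw [prodMap_mark, h1, h2, mul_assoc (_ * _) (V.seg _ _ ((j.1 : ℕ) - _)) _,
    mul_assoc (_ * _) (_ * _) _]
  congr 1
  have hlt : (j.1 : ℕ) - ((i.1 : ℕ) + 1) < n - ((i.1 : ℕ) + 1) := by have := j.1.2; omega
  rw [Env.seg_split' _ _ hlt]
  have e1 : V.seg (fun k => b (k + ((i.1 : ℕ) + 1))) (fun k => wval q w' (k + ((i.1 : ℕ) + 1)))
      ((j.1 : ℕ) - ((i.1 : ℕ) + 1)) = V.seg (fun k => b (k + ((i.1 : ℕ) + 1)))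
      (fun k => wval q w (k + ((i.1 : ℕ) + 1))) ((j.1 : ℕ) - ((i.1 : ℕ) + 1)) :=
    Env.seg_congr fun k hk => hne _ (by omega)
  have e2 : wval q w' ((j.1 : ℕ) - ((i.1 : ℕ) + 1) + ((i.1 : ℕ) + 1)) =
      cellVal (siteOf q j) P c * wval q (Function.update w j (openVal (siteOf q j) s)) j.1 := by
    rw [show (j.1 : ℕ) - ((i.1 : ℕ) + 1) + ((i.1 : ℕ) + 1) = (j.1 : ℕ) by omega, hw',
      wval_update_mark, mul_comm]
  rw [e1, e2, map_mul]
  have e3 : ∀ k, k + ((j.1 : ℕ) - ((i.1 : ℕ) + 1) + 1) + ((i.1 : ℕ) + 1) =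
      k + ((j.1 : ℕ) + 1) := fun k => by omega
  simp only [e3, funext fun k => hne (k + ((j.1 : ℕ) + 1)) (by omega),
    show n - ((i.1 : ℕ) + 1) - ((j.1 : ℕ) - ((i.1 : ℕ) + 1) + 1) = n - ((j.1 : ℕ) + 1) by
      have := j.1.2; omega, mul_assoc]

/-- The fibre masses of the intervals of the product shorter than itself. -/
noncomputable def smallG (n : ℕ) (s : State Ω S) : ℝ :=
  ∑ p ∈ (Finset.range (n + 1) ×ˢ Finset.range n).filter (fun p => p.1 + p.2 ≤ n),
    Real.sqrt (Real.sqrt (V.gv (chainVal (fun k => b (k + p.1)) (fun k => q (k + p.1)) s p.2)))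

theorem smallG_nonneg (n : ℕ) (s : State Ω S) : 0 ≤ smallG b q n s :=
  Finset.sum_nonneg fun _ _ => Real.sqrt_nonneg _

theorem le_smallG {m : ℕ} (s : State Ω S) {i l : ℕ} (hl : l < m) (h : i + l ≤ m) :
    Real.sqrt (Real.sqrt (V.gv (chainVal (fun k => b (k + i)) (fun k => q (k + i)) s l))) ≤
      smallG b q m s :=
  Finset.single_le_sum (f := fun p : ℕ × ℕ => Real.sqrt (Real.sqrt
    (V.gv (chainVal (fun k => b (k + p.1)) (fun k => q (k + p.1)) s p.2))))
    (fun _ _ => Real.sqrt_nonneg _) (a := (i, l)) (by simp; omega)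

/-- The pinchings of all intervals at a state are close to their expectations. -/
def PinchOK (n : ℕ) (s : State Ω S) (η : ℝ) (P : Part Ω) : Prop :=
  ∀ i j : Sites q n, ∀ p : Fin (n + 1) × Fin (n + 1),
    V.sq (V.pinch P (star (siteOf q i).g.u *
        chainVal (fun k => b (k + p.1)) (fun k => q (k + p.1)) s p.2 * (siteOf q j).g.u) -
      V.ι (V.E (star (siteOf q i).g.u *
        chainVal (fun k => b (k + p.1)) (fun k => q (k + p.1)) s p.2 * (siteOf q j).g.u))) ≤ η

theorem fine_pinchOK (hD : V.DiagonalLimit) (n : ℕ) (s : State Ω S) {η : ℝ} (hη : 0 < η) :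
    Part.Fine (PinchOK b q n s η) :=
  Part.Fine.forall fun _ => Part.Fine.forall fun _ => Part.Fine.forall fun _ => hD _ η hη

variable {b q} in
/-- Two marks in one product. -/
theorem sqrt_sq_sum_pair_le {C η : ℝ} {s : State Ω S} {P : Part Ω} {i j : Sites q n}
    (hC : ∀ w : Sites q n → C(Ω, ℂ), (∀ i, SiteOK q i (w i)) → ∀ i l, i + l ≤ n →
      V.Bdd (V.seg (fun k => b (k + i)) (fun k => wval q w (k + i)) l) C ∧
      V.Bdd (star (V.seg (fun k => b (k + i)) (fun k => wval q w (k + i)) l)) C ∧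
      (∀ k ω, ‖wval q w k ω‖ ≤ C))
    (hP : PinchOK b q n s η P) (hij : (i.1 : ℕ) < j.1) {w : Sites q n → C(Ω, ℂ)}
    (hw : ∀ i, SiteOK q i (w i))
    (hmid : ∀ l : Sites q n, (i.1 : ℕ) < l.1 → (l.1 : ℕ) < j.1 → w l = siteVal (siteOf q l) s)
    {κ : Fin P.n → ℂ} (hκ : ∀ c, ‖κ c‖ ≤ 1) :
    Real.sqrt (V.sq (∑ c, κ c • prodMap b q
        (Finset.piecewise {i, j} (fun l => slotVal (siteOf q l) s P (some c)) w))) ≤
      C ^ 4 * (Real.sqrt η + Real.sqrt (Real.sqrt (V.gv (chainVal
        (fun k => b (k + ((i.1 : ℕ) + 1))) (fun k => q (k + ((i.1 : ℕ) + 1))) s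
        ((j.1 : ℕ) - ((i.1 : ℕ) + 1)))))) := by
  have hi := i.1.2
  have hj := j.1.2
  have hne : i ≠ j := fun e => by rw [e] at hij; exact lt_irrefl _ hij
  have hpw : ∀ c, Finset.piecewise {i, j} (fun l => slotVal (siteOf q l) s P (some c)) w =
      Function.update (Function.update w j (slotVal (siteOf q j) s P (some c))) i
        (slotVal (siteOf q i) s P (some c)) := fun c => by
    rw [Finset.piecewise_insert, Finset.piecewise_singleton]
  have hgu : ∀ (l : Sites q n) (m : Sites q n),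
      SiteOK q m (Function.update w l (openVal (siteOf q l) s) m) := fun l m => by
    by_cases h : m = l
    · subst h; rw [Function.update_self]; exact good_openVal q m s
    · rw [Function.update_of_ne h]; exact hw m
  have hC0 : (0 : ℝ) ≤ C := (hC w hw 0 0 (Nat.zero_le _)).1.1
  have hmidv : V.seg (fun k => b (k + ((i.1 : ℕ) + 1))) (fun k => wval q w (k + ((i.1 : ℕ) + 1)))
      ((j.1 : ℕ) - ((i.1 : ℕ) + 1)) = chainVal (fun k => b (k + ((i.1 : ℕ) + 1)))
      (fun k => q (k + ((i.1 : ℕ) + 1))) s ((j.1 : ℕ) - ((i.1 : ℕ) + 1)) := by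
    refine Env.seg_congr fun k hk => wval_eq_val q (by omega) fun l hl => hmid l ?_ ?_
    · omega
    · omega
  have hL : V.Bdd (V.seg b (wval q w) i.1 *
      V.ι (wval q (Function.update w i (openVal (siteOf q i) s)) i.1)) (C * C) := by
    refine Env.Bdd.mul ?_ (V.bdd_ι hC0 ((hC _ (hgu i) 0 0 (Nat.zero_le _)).2.2 _))
    simpa using (hC w hw 0 i.1 (by omega)).1
  have hRr : V.Bdd (star (V.ι (wval q (Function.update w j (openVal (siteOf q j) s)) j.1) *
      V.seg (fun k => b (k + ((j.1 : ℕ) + 1))) (fun k => wval q w (k + ((j.1 : ℕ) + 1)))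
        (n - ((j.1 : ℕ) + 1)))) (C * C) := by
    rw [star_mul, V.star_ι]
    refine Env.Bdd.mul (hC w hw _ _ (by omega)).2.1 (V.bdd_ι hC0 fun ω => ?_)
    simpa using (hC _ (hgu j) 0 0 (Nat.zero_le _)).2.2 j.1 ω
  simp only [hpw, prodMap_pair b q w i j hij, hmidv]
  refine (V.pair_sq_le (siteOf q i).g (siteOf q j).g zero_le_one hκ hL hRr
    (hP i j (⟨(i.1 : ℕ) + 1, by omega⟩, ⟨(j.1 : ℕ) - ((i.1 : ℕ) + 1), by omega⟩))).trans
    (le_of_eq ?_)
  ring

end Vale.Agent.P078.All
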