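import Vale.Agent.P078.All.Stage

/-!
The mean change of the trace of a product in one stage.
-/

namespace Vale.Agent.P078.All

open scoped ComplexOrder ComplexConjugate
open Moments

set_option linter.unusedSectionVars false
set_option linter.unusedSimpArgs false

section Mean

variable {Ω : Type} [TopologicalSpace Ω] {S : Type} [Fintype S] [Nonempty S]
  {I : Type} [Fintype I] [DecidableEq I]

/-- The moments of one cell. -/
noncomputable def mom (θ : ℝ) (h : I → S → ℂ) (b : Finset I) : ℂ :=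
  ∑ o : Option S, (cellProb θ o : ℂ) * ∏ i ∈ b, o.elim 0 (h i)

theorem mom_empty (θ : ℝ) (h : I → S → ℂ) : mom θ h ∅ = 1 := by
  rw [mom]
  simp only [Finset.prod_empty, mul_one]
  exact_mod_cast congrArg (fun x : ℝ => (x : ℂ)) (sum_cellProb (S := S) (θ := θ))

theorem mom_singleton {θ : ℝ} {h : I → S → ℂ} (hh : ∀ i, ∑ σ, h i σ = 0) (i : I) :
    mom θ h {i} = 0 := by
  simp [mom, cellProb, ← Finset.mul_sum, hh i]

/-- The bound of the moments. -/
noncomputable def momBd (h : I → S → ℂ) : ℝ := ∏ i, (1 + ∑ σ, ‖h i σ‖)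

theorem one_le_momBd (h : I → S → ℂ) : 1 ≤ momBd h :=
  Finset.one_le_prod fun i _ => le_add_of_nonneg_right (Finset.sum_nonneg fun _ _ => norm_nonneg _)

theorem norm_mom_le {θ : ℝ} (h0 : 0 ≤ θ) (h : I → S → ℂ) {b : Finset I} (hb : b.Nonempty) :
    ‖mom θ h b‖ ≤ θ * momBd h := by
  obtain ⟨i₀, hi₀⟩ := hb
  rw [mom, Fintype.sum_option]
  have h1 : ∏ i ∈ b, (none : Option S).elim 0 (h i) = 0 :=
    Finset.prod_eq_zero hi₀ rfl
  rw [h1, mul_zero, zero_add]
  refine (norm_sum_le _ _).trans ((Finset.sum_le_sum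
    (g := fun _σ : S => θ / Fintype.card S * momBd h) fun σ _ => ?_).trans (le_of_eq ?_))
  · rw [norm_mul, norm_prod, Complex.norm_real, Real.norm_eq_abs,
      abs_of_nonneg (show 0 ≤ cellProb θ (some σ) from div_nonneg h0 (Nat.cast_nonneg _))]
    refine mul_le_mul_of_nonneg_left ?_ (div_nonneg h0 (Nat.cast_nonneg _))
    refine (Finset.prod_le_prod (g := fun i => 1 + ∑ σ, ‖h i σ‖) (fun i _ => norm_nonneg _)
      fun i _ => ?_).trans (Finset.prod_le_prod_of_subset_of_one_le (Finset.subset_univ b)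
        (fun i _ => zero_le_one.trans (le_add_of_nonneg_right
          (Finset.sum_nonneg fun _ _ => norm_nonneg _)))
        fun i _ _ => le_add_of_nonneg_right (Finset.sum_nonneg fun _ _ => norm_nonneg _))
    exact (Finset.single_le_sum (f := fun σ => ‖h i σ‖) (fun _ _ => norm_nonneg _)
      (Finset.mem_univ σ)).trans (le_add_of_nonneg_left zero_le_one)
  · simp
    field_simp

/-- The constant of the quadratic error. -/
noncomputable def quadBd (h : I → S → ℂ) : ℝ :=
  momBd h ^ Fintype.card I * Fintype.card ((I → I → Bool) × (I → Bool)) *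
    2 ^ (Fintype.card I ^ 2)

theorem quadBd_nonneg (h : I → S → ℂ) : 0 ≤ quadBd h := by
  have := zero_le_one.trans (one_le_momBd h)
  unfold quadBd
  positivity

/-- The mean of a slot expansion: the value before, one-cell terms, a quadratic error. -/
theorem norm_avg_sub_le {θ : ℝ} (h0 : 0 ≤ θ) (h1 : θ ≤ 1) (P : Part Ω) {h : I → S → ℂ}
    (hh : ∀ i, ∑ σ, h i σ = 0) {A : (I → Option (Fin P.n)) → ℂ} {B : ℝ} (hA : Bounded A B) :
    ‖avg θ P (fun x => ∑ r, (∏ i, (r i).elim 1 fun c => (x c).elim 0 (h i)) * A r) -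
        A fun _ => none‖ ≤
      θ * momBd h * ∑ J : Finset I with 2 ≤ J.card, ‖∑ c, A (cst J c)‖ +
        θ ^ 2 * quadBd h * B := by
  classical
  have e : avg θ P (fun x => ∑ r, (∏ i, (r i).elim 1 fun c => (x c).elim 0 (h i)) * A r) =
      ∑ r, weight (mom θ h) r * A r := by
    rw [avg]
    simp only [Complex.real_smul, Finset.mul_sum, Complex.ofReal_prod]
    rw [Finset.sum_comm]
    refine Finset.sum_congr rfl fun r _ => ?_
    rw [show mom θ h = fun b => ∑ o : Option S, (cellProb θ o : ℂ) * ∏ i ∈ b, o.elim 0 (h i)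
      from rfl, ← sum_prob_mul_eq_weight, Finset.sum_mul]
    exact Finset.sum_congr rfl fun x _ => by ring
  rw [e]
  exact norm_sum_weight_le hA h0 h1 (one_le_momBd h) (mom_empty θ h) (mom_singleton hh)
    fun b hb => norm_mom_le h0 h hb

end Mean

variable {R : Type} [Ring R] [StarRing R] [Algebra ℂ R] [StarModule ℂ R]
  {Ω : Type} [TopologicalSpace Ω] [CompactSpace Ω] [T2Space Ω] [TotallyDisconnectedSpace Ω]
  {V : Env R Ω} {S : Type} [Fintype S] (b : ℕ → R) (q : ℕ → Mono V S)

/-- The fibre masses of the inner intervals. -/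
noncomputable def smallI (n : ℕ) (s : State Ω S) : ℝ :=
  ∑ p ∈ (Finset.range n ×ˢ Finset.range n).filter (fun p => 1 ≤ p.1 ∧ p.1 + p.2 < n),
    Real.sqrt (Real.sqrt (V.gv (chainVal (fun k => b (k + p.1)) (fun k => q (k + p.1)) s p.2)))

theorem smallI_nonneg (n : ℕ) (s : State Ω S) : 0 ≤ smallI b q n s :=
  Finset.sum_nonneg fun _ _ => Real.sqrt_nonneg _

theorem le_smallI {n : ℕ} (s : State Ω S) {i l : ℕ} (hi : 1 ≤ i) (h : i + l < n) :
    Real.sqrt (Real.sqrt (V.gv (chainVal (fun k => b (k + i)) (fun k => q (k + i)) s l))) ≤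
      smallI b q n s :=
  Finset.single_le_sum (f := fun p : ℕ × ℕ => Real.sqrt (Real.sqrt
    (V.gv (chainVal (fun k => b (k + p.1)) (fun k => q (k + p.1)) s p.2))))
    (fun _ _ => Real.sqrt_nonneg _) (a := (i, l)) (by simp; omega)

theorem cst_slot {I X : Type*} [Fintype I] [DecidableEq I] {m : ℕ} (J : Finset I) (c : Fin m)
    (f : I → Option (Fin m) → X) :
    (fun i => f i (cst J c i)) = J.piecewise (fun i => f i (some c)) (fun i => f i none) := by
  funext i
  by_cases hi : i ∈ J <;> simp [cst, hi]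

/-- The mean trace changes by the inner fibre masses times `θ`, up to `θ²`. -/
theorem tau_stage_le [Nonempty S] (hD : V.DiagonalLimit) (n : ℕ) :
    ∃ K : ℝ, 0 ≤ K ∧ ∀ θ : ℝ, 0 ≤ θ → θ ≤ 1 → ∀ s : State Ω S, ∀ δ : ℝ, 0 < δ →
      Part.Fine fun P =>
        ‖avg θ P (fun x => V.τ (chainVal b q (s.next P x) n)) - V.τ (chainVal b q s n)‖ ≤
          K * (θ * (smallI b q n s + δ) + θ ^ 2) := by
  classical
  obtain ⟨C, hC1, hC⟩ := exists_chain_bd b q n
  set h : Sites q n → S → ℂ := fun i => (siteOf q i).h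
  have hC0 : (0 : ℝ) ≤ C := zero_le_one.trans hC1
  refine ⟨momBd h * (2 ^ Fintype.card (Sites q n)) * C ^ 4 + quadBd h * C,
    add_nonneg (mul_nonneg (mul_nonneg (zero_le_one.trans (one_le_momBd h)) (by positivity))
      (by positivity)) (mul_nonneg (quadBd_nonneg h) hC0), fun θ h0 h1 s δ hδ => ?_⟩
  refine ((fine_separates q n).and (fine_pinchOK b q hD n s (sq_pos_of_pos hδ))).mono
    fun P hP => ?_
  set A : (Sites q n → Option (Fin P.n)) → ℂ := fun r =>
    V.τ (prodMap b q fun i => slotVal (siteOf q i) s P (r i))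
  have hτ : ∀ x : R, ‖V.τ x‖ ≤ Real.sqrt (V.sq x) := fun x => by
    simpa [V.sq_one] using V.norm_τ_mul_le x 1
  have hnext : ∀ x, V.τ (chainVal b q (s.next P x) n) =
      ∑ r, (∏ i, (r i).elim 1 fun c => (x c).elim 0 (h i)) * A r := fun x => by
    rw [chainVal_next, V.τ_sum]
    exact Finset.sum_congr rfl fun r _ => by simp [A, Env.τ, h]
  have hnone : A (fun _ => none) = V.τ (chainVal b q s n) := by
    simp only [A, slotVal, prodMap_siteVal]
  have hA : Bounded A C := by
    intro z hz
    have e : ∑ r, A r * ∏ i, z i (r i) =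
        V.τ (prodMap b q fun i => ∑ o, z i o • slotVal (siteOf q i) s P o) := by
      rw [MultilinearMap.map_sum, V.τ_sum]
      refine Finset.sum_congr rfl fun r _ => ?_
      rw [MultilinearMap.map_smul_univ]
      simp [A, Env.τ, mul_comm]
    rw [e]
    refine (hτ _).trans (V.sqrt_sq_le_of_bdd ?_)
    have := (hC _ (fun i => good_sum_slotVal q i s P (hz i)) 0 n (by omega)).1
    simpa [prodMap_apply] using this
  simp only [hnext, ← hnone]
  refine (norm_avg_sub_le h0 h1 P (fun i => (siteOf q i).sum_h) hA).trans ?_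
  have hJ : ∀ J : Finset (Sites q n), 2 ≤ J.card →
      ‖∑ c, A (cst J c)‖ ≤ C ^ 4 * (δ + smallI b q n s) := by
    intro J hJ2
    have hb0 : 0 ≤ C ^ 4 * (δ + smallI b q n s) :=
      mul_nonneg (by positivity) (add_nonneg hδ.le (smallI_nonneg b q n s))
    have hAc : ∀ c, A (cst J c) = V.τ (prodMap b q (J.piecewise
        (fun l => slotVal (siteOf q l) s P (some c)) fun l => siteVal (siteOf q l) s)) := fun c => by
      simp only [A]
      rw [cst_slot J c fun l o => slotVal (siteOf q l) s P o]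
      rfl
    by_cases hsame : ∃ i ∈ J, ∃ j ∈ J, i ≠ j ∧ i.1 = j.1
    · obtain ⟨i, hi, j, hj, hij, hk⟩ := hsame
      rw [Finset.sum_eq_zero fun c _ => ?_, norm_zero]
      · exact hb0
      · rw [hAc, prodMap_eq_zero b q hP.1 hij hk (Finset.piecewise_eq_of_mem _ _ _ hi)
          (Finset.piecewise_eq_of_mem _ _ _ hj), Env.τ, map_zero, map_zero]
    · push Not at hsame
      obtain ⟨i, hi, hmin⟩ := Finset.exists_min_image J (fun i => (i.1 : ℕ))
        (Finset.card_pos.1 (by omega))
      obtain ⟨j, hj, hmin'⟩ := Finset.exists_min_image (J.erase i) (fun i => (i.1 : ℕ))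
        (Finset.card_pos.1 (by rw [Finset.card_erase_of_mem hi]; omega))
      obtain ⟨hji, hjJ⟩ := Finset.mem_erase.1 hj
      have hlt : (i.1 : ℕ) < j.1 :=
        lt_of_le_of_ne (hmin j hjJ) fun e => hsame i hi j hjJ (Ne.symm hji) (Fin.ext e)
      simp only [hAc]
      refine norm_sum_piecewise_le (J' := {i, j}) (fun w => V.τ (prodMap b q w))
        (fun l d => slotVal (siteOf q l) s P (some d)) (SiteOK q) (fun w l ε => ?_)
        (fun l ε => good_sum_sgn q l s P ε) (fun l => good_siteVal q l s) J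
        (by simp [Finset.insert_subset_iff, hi, hjJ]) fun w hw1 hw2 κ hκ => ?_
      · show V.τ (prodMap b q (Function.update w l _)) = _
        rw [MultilinearMap.map_update_sum, V.τ_sum]
        refine Finset.sum_congr rfl fun d _ => ?_
        simp [MultilinearMap.map_update_smul, Env.τ]
      · have hmid : ∀ l : Sites q n, (i.1 : ℕ) < l.1 → (l.1 : ℕ) < j.1 →
            w l = siteVal (siteOf q l) s := by
          intro l h1 h2
          refine hw1 l fun hl => ?_
          have := hmin' l (Finset.mem_erase.2 ⟨fun e => by rw [e] at h1; exact lt_irrefl _ h1, hl⟩)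
          omega
        have hsum : ∑ c, κ c * V.τ (prodMap b q (Finset.piecewise {i, j}
            (fun l => slotVal (siteOf q l) s P (some c)) w)) =
            V.τ (∑ c, κ c • prodMap b q (Finset.piecewise {i, j}
              (fun l => slotVal (siteOf q l) s P (some c)) w)) := by
          simp [Env.τ, V.τ_sum]
        rw [hsum]
        refine (hτ _).trans ((sqrt_sq_sum_pair_le hC hP.2 hlt hw2 hmid hκ).trans ?_)
        refine mul_le_mul_of_nonneg_left (add_le_add ?_ ?_) (by positivity)
        · rw [Real.sqrt_sq hδ.le]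
        · have := j.1.2
          exact le_smallI b q s (by omega) (by omega)
  have hsumJ : ∑ J : Finset (Sites q n) with 2 ≤ J.card, ‖∑ c, A (cst J c)‖ ≤
      2 ^ Fintype.card (Sites q n) * (C ^ 4 * (δ + smallI b q n s)) := by
    refine (Finset.sum_le_card_nsmul _ _ _ fun J hJ' => hJ J (Finset.mem_filter.1 hJ').2).trans ?_
    rw [nsmul_eq_mul]
    refine mul_le_mul_of_nonneg_right ?_
      (mul_nonneg (by positivity) (add_nonneg hδ.le (smallI_nonneg b q n s)))
    refine le_trans (Nat.cast_le.2 (Finset.card_filter_le _ _)) (le_of_eq ?_)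
    simp
  refine (add_le_add (mul_le_mul_of_nonneg_left hsumJ
    (mul_nonneg h0 (zero_le_one.trans (one_le_momBd h)))) le_rfl).trans ?_
  have q1 : 0 ≤ momBd h * 2 ^ Fintype.card (Sites q n) * C ^ 4 := mul_nonneg
    (mul_nonneg (zero_le_one.trans (one_le_momBd h)) (by positivity)) (by positivity)
  have q2 : 0 ≤ quadBd h * C := mul_nonneg (quadBd_nonneg h) hC0
  nlinarith [mul_nonneg q1 (sq_nonneg θ),
    mul_nonneg q2 (mul_nonneg h0 (add_nonneg (smallI_nonneg b q n s) hδ.le))]

end Vale.Agent.P078.All
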