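import Vale.Agent.P078.All.Free
import Vale.Agent.P078.All.OperatorAtomless
import Vale.Agent.P078.All.OperatorFinite
import Vale.Agent.P078.All.OperatorLimit
import Vale.Agent.P078.Semifinite

/-!
So-paving with `C / ε ^ 2` pieces for every MASA of every semifinite von Neumann algebra.
-/

namespace Vale.Agent.P078.All

open Vale.Agent.P078.Cartan

/-- Every MASA of every algebra with a faithful finite trace. -/
theorem allSoPavable_of_hasFiniteTrace {H : Type} [NormedAddCommGroup H] [InnerProductSpace ℂ H]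
    [CompleteSpace H] {M : VonNeumannAlgebra H} {A : StarSubalgebra ℂ (H →L[ℂ] H)}
    (hA : IsMasa M A) (hT : HasFiniteTrace M) {ε : ℝ} (hε : 0 < ε) (hε1 : ε ≤ 1) :
    ∃ r : ℕ, (r : ℝ) ≤ 198 / ε ^ 2 ∧ AllSoPavable M A ε r := by
  have := hA.abelianClosed
  have := spec_totallyDisconnected hA
  exact allSoPavable_finite_of_free hA hT
    (fun _ _ h => freeStatement (env_diagonalLimit hA h) (env_atomless hA h)) hε hε1

/-- Every MASA of every semifinite algebra. -/
theorem allSoPavable_of_hasSemifiniteTrace {H : Type} [NormedAddCommGroup H]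
    [InnerProductSpace ℂ H] [CompleteSpace H] {M : VonNeumannAlgebra H}
    {A : StarSubalgebra ℂ (H →L[ℂ] H)} (hA : IsMasa M A) (hM : HasSemifiniteTrace M) {ε : ℝ}
    (hε : 0 < ε) (hε1 : ε < 1) :
    ∃ r : ℕ, (r : ℝ) ≤ 202 / ε ^ 2 ∧ AllSoPavable M A ε r := by
  obtain ⟨r, hr, hp⟩ := quadratic_semifinite_of_finite (C := 198)
    (fun K _ _ _ N B hB hN t ht ht1 => allSoPavable_of_hasFiniteTrace hB hN ht ht1.le)
    hA hM hε hε1
  exact ⟨r, hr.trans (le_of_eq (by norm_num)), hp⟩

end Vale.Agent.P078.All
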