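import Vale.Agent.P078.All.Expected
import Vale.Agent.P078.All.SeedsBasic
import Vale.Agent.P078.All.Basic

/-!
From the compression statement to one colouring: a rule that commutes with the permutations of
the colours, fed with random seeds, compresses the part orthogonal to the normaliser in the mean,
hence for one value of the seeds.
-/

namespace Vale.Agent.P078.All

variable {Ω : Type} [TopologicalSpace Ω] [CompactSpace Ω] [T2Space Ω] [TotallyDisconnectedSpace Ω]
  {R : Type} [Ring R] [StarRing R] [Algebra ℂ R] [StarModule ℂ R]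

set_option linter.unusedSectionVars false

theorem Ev.exists : ∀ {L : ℕ} {Q : List (Part Ω) → Prop}, Ev L Q → ∃ Ps, Q Ps
  | 0, _, h => ⟨[], h⟩
  | L + 1, _, h => by
    obtain ⟨Ps, hPs⟩ := Ev.exists (L := L) h
    obtain ⟨P, hP⟩ := Part.Fine.exists hPs
    exact ⟨Ps ++ [P], hP⟩

theorem Ev.forall_finset {ι : Type*} {L : ℕ} {Q : ι → List (Part Ω) → Prop} (s : Finset ι)
    (h : ∀ i ∈ s, Ev L (Q i)) : Ev L fun Ps => ∀ i ∈ s, Q i Ps := by
  classical
  induction s using Finset.induction_on with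
  | empty => exact Ev.of_forall fun _ _ _ hi => absurd hi (Finset.notMem_empty _)
  | @insert i s _ ih =>
    refine Ev.mono ((h i (Finset.mem_insert_self _ _)).and
      (ih fun j hj => h j (Finset.mem_insert_of_mem hj))) fun Ps _ hP j hj => ?_
    rcases Finset.mem_insert.1 hj with rfl | hj
    · exact hP.1
    · exact hP.2 j hj

theorem run_sum_seeds {S : Type} [Fintype S] [Nonempty S] {ι : Type*} (θ : ℝ) (Ps : List (Part Ω))
    (u : Finset ι) (f : ι → State Ω S → ℝ) (s : State Ω S) :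
    run θ Ps (fun t => ∑ i ∈ u, f i t) s = ∑ i ∈ u, run θ Ps (f i) s := by
  classical
  induction u using Finset.induction_on with
  | empty => simpa using run_const (0 : ℝ) Ps s
  | @insert i u hi ih =>
    rw [Finset.sum_insert hi, ← ih, ← run_add]
    exact run_congr Ps s fun t => Finset.sum_insert hi

/-- A colour of an equivariant rule has mean `1 / r`. -/
theorem hasMean_of_equivariant {V : Env R Ω} {r M : ℕ} (g : Fin M → V.Mover)
    (F : LocallyConstant Ω ((Fin M → Equiv.Perm (Fin r)) → Fin r))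
    (hF : ∀ ω σ π, F ω (fun j => σ * π j) = σ (F ω π)) (i : Fin r) :
    SeedProj.HasMean (V := V) ⟨M, g, F.map fun f π => decide (f π = i)⟩ (1 / r) := by
  classical
  intro ω
  simp only [LocallyConstant.map_apply, Function.comp_apply, decide_eq_true_eq, Finset.sum_boole]
  obtain ⟨K, hK⟩ : ∃ K : Finset (Fin M → Equiv.Perm (Fin r)),
      K = ({π | ∀ j k, (g j).T ω = (g k).T ω → π j = π k} : Finset _) := ⟨_, rfl⟩
  rw [← hK]
  have hsame : ∀ c, (K.filter fun π => F ω π = c).card = (K.filter fun π => F ω π = i).card := by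
    intro c
    refine Finset.card_nbij' (fun π j => Equiv.swap c i * π j) (fun π j => Equiv.swap c i * π j)
      (fun π hπ => ?_) (fun π hπ => ?_) (fun π _ => ?_) (fun π _ => ?_)
    · simp only [Finset.coe_filter, hK, Finset.mem_filter, Finset.mem_univ, true_and,
        Set.mem_setOf_eq] at hπ ⊢
      exact ⟨fun j k e => by rw [hπ.1 j k e], by rw [hF, hπ.2, Equiv.swap_apply_left]⟩
    · simp only [Finset.coe_filter, hK, Finset.mem_filter, Finset.mem_univ, true_and,
        Set.mem_setOf_eq] at hπ ⊢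
      exact ⟨fun j k e => by rw [hπ.1 j k e], by rw [hF, hπ.2, Equiv.swap_apply_right]⟩
    · funext j; simp [← mul_assoc]
    · funext j; simp [← mul_assoc]
  have hcard : K.card = r * (K.filter fun π => F ω π = i).card := by
    rw [Finset.card_eq_sum_card_fiberwise (t := Finset.univ) (f := F ω) fun _ _ =>
      Finset.mem_univ _]
    simp [hsame]
  have hr : (r : ℝ) ≠ 0 := Nat.cast_ne_zero.2 fun e => (e ▸ i).elim0
  rw [hcard, Nat.cast_mul]
  field_simp

/-- One colouring compresses the part orthogonal to the normaliser. -/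
theorem exists_seed_compressed {V : Env R Ω} (hC : CompressionStatement V) {r M : ℕ} (hr : 0 < r)
    (g : Fin M → V.Mover) (F : LocallyConstant Ω ((Fin M → Equiv.Perm (Fin r)) → Fin r))
    (hF : ∀ ω σ π, F ω (fun j => σ * π j) = σ (F ω π)) {y : R} {C : ℝ} (hy : star y = y)
    (hyo : V.OrthNormaliser y) (hyC : V.Bdd y C) {k : ℕ} (hk : 0 < k) {η : ℝ} (hη : 0 < η) :
    ∃ π : LocallyConstant Ω (Equiv.Perm (Fin r)), ∀ f : Fin r → C(Ω, ℂ),
      (∀ i ω, f i ω = if F ω (fun j => π ((g j).T ω)) = i then 1 else 0) →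
      ∑ i, (V.τ ((V.ι (f i) * y * V.ι (f i)) ^ (2 * k))).re ≤
        (2 * C / Real.sqrt r) ^ (2 * k) + η := by
  classical
  have hr' : (0 : ℝ) < r := Nat.cast_pos.2 hr
  let p : Fin r → SeedProj V (Equiv.Perm (Fin r)) := fun i =>
    ⟨M, g, F.map fun f π => decide (f π = i)⟩
  choose T₀ hT₀ hT using fun i => hC (Equiv.Perm (Fin r)) (p i) (1 / r) (by positivity)
    (hasMean_of_equivariant g F hF i) y C hy hyo hyC k hk (η / (2 * r)) (by positivity)
  obtain ⟨T, hTdef⟩ : ∃ T, T = ∑ i, T₀ i := ⟨_, rfl⟩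
  have hTi : ∀ i, T₀ i ≤ T := fun i => hTdef ▸
    Finset.single_le_sum (fun j _ => (hT₀ j).le) (Finset.mem_univ i)
  choose θ₀ hθ₀ hθ using fun i => hT i T (hTi i)
  obtain ⟨θ, hθ0, hθ1, hθi⟩ : ∃ θ : ℝ, 0 < θ ∧ θ ≤ 1 ∧ ∀ i, θ < θ₀ i := by
    have : Nonempty (Fin r) := ⟨⟨0, hr⟩⟩
    obtain ⟨m, hm⟩ := Finite.exists_min θ₀
    exact ⟨min (θ₀ m / 2) 1, lt_min (half_pos (hθ₀ m)) one_pos, min_le_right _ _,
      fun i => (min_le_left _ _).trans_lt ((half_lt_self (hθ₀ m)).trans_le (hm i))⟩
  obtain ⟨Ps, hPs⟩ := Ev.exists (Ev.forall_finset Finset.univ fun i _ =>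
    hθ i θ hθ0 (hθi i) hθ1)
  let val : State Ω (Equiv.Perm (Fin r)) → ℝ := fun s =>
    ∑ i, (V.τ ((V.ι ((p i).val s) * y * V.ι ((p i).val s)) ^ (2 * k))).re
  obtain ⟨s, hs⟩ : ∃ s, val s ≤ (2 * C / Real.sqrt r) ^ (2 * k) + η := by
    by_contra hcon
    push Not at hcon
    have hlow := run_mono hθ0.le hθ1 Ps (State.empty Ω (Equiv.Perm (Fin r)))
      fun t => (hcon t).le
    have hup : run θ Ps val (State.empty Ω _) ≤
        (2 * C / Real.sqrt r) ^ (2 * k) + η / 2 := by
      rw [run_sum_seeds]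
      refine (Finset.sum_le_sum fun i hi => hPs i hi).trans (le_of_eq ?_)
      rw [Finset.sum_const, Finset.card_univ, Fintype.card_fin, nsmul_eq_mul,
        Real.sqrt_div zero_le_one, Real.sqrt_one, mul_one_div]
      field_simp
    rw [run_const] at hlow
    linarith
  refine ⟨s.map fun o => o.getD (Classical.arbitrary _), fun f hf => ?_⟩
  have he : ∀ i, f i = (p i).val s := fun i => by
    ext ω
    rw [hf]
    simp [p, SeedProj.val]
    rfl
  simpa only [he] using hs

end Vale.Agent.P078.All
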